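import Mathlib

/-!
P083: truncated polynomial rings over the field with five elements, the three elementary
permutation groups of their planes, and words in them.
-/

namespace Vale.Agent.P083.Kirchberg

open Polynomial

abbrev Fq := ZMod 5

instance : Fact (Nat.Prime 5) := ⟨by norm_num⟩

/-- `Fq[t]/t^m`. -/
abbrev R (m : ℕ) := Polynomial Fq ⧸ Ideal.span {(X : Polynomial Fq) ^ m}

/-- The variable `t`. -/
noncomputable def T (m : ℕ) : R m := Ideal.Quotient.mk _ X

/-- Constants. -/
noncomputable def C' (m : ℕ) : Fq →+* R m := (Ideal.Quotient.mk _).comp Polynomial.C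

/-- Level `m` of the tree: pairs of truncated polynomials. -/
abbrev Om (m : ℕ) := R m × R m

/-- Reduction from level `m + 1` to level `m`. -/
noncomputable def pr (m : ℕ) : R (m + 1) →+* R m :=
  Ideal.Quotient.factor (Ideal.span_singleton_le_span_singleton.2 (pow_dvd_pow X m.le_succ))

section Maps

variable {A : Type*} [CommRing A]

/-- Inverse of `1 + x` when it is a unit. -/
noncomputable def inv1 (x : A) : A := Ring.inverse (1 + x)

/-- `(a, b) ↦ (a, b) / (1 + r a)`. -/
noncomputable def pmap (r : A) (v : A × A) : A × A := (v.1 * inv1 (r * v.1), v.2 * inv1 (r * v.1))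

/-- `(a, b) ↦ (a, b) / (1 + r b)`. -/
noncomputable def rmap (r : A) (v : A × A) : A × A := (v.1 * inv1 (r * v.2), v.2 * inv1 (r * v.2))

/-- `(a, b) ↦ (a, b + r a)`. -/
def qmap (r : A) (v : A × A) : A × A := (v.1, v.2 + r * v.1)

/-- `(a, b) ↦ (a + r b, b)`. -/
def smap (r : A) (v : A × A) : A × A := (v.1 + r * v.2, v.2)

end Maps

/-- A letter: which of the three generators, and its parameter. -/
abbrev Letter := Fin 3 × Fq

/-- The action of a letter on level `m`, as a function. -/
noncomputable def genFun (m : ℕ) : Letter → Om m → Om m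
  | (0, c) => smap (C' m c)
  | (1, c) => fun v => v + (0, C' m c)
  | (2, c) => pmap (T m * C' m c)

/-- Value of a word in a monoid in which the letters are interpreted by `u`. -/
def weval {G : Type*} [Monoid G] (u : Letter → G) (w : List Letter) : G := (w.map u).prod

/-- The word for the central element of the pair `(i, i + 1)`. -/
def cword : Fin 3 → Fq → List Letter
  | 0, e => [(0, e), (1, 1), (0, -e), (1, -1)]
  | 1, e => [(1, -1), (2, -e), (1, 1), (2, e)]
  | 2, e => [(2, -e), (0, -1), (2, e), (0, 1)]

/-- The word for `(a, b) ↦ (a, b) / (1 + t² c a)`. -/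
def wword (c : Fq) : List Letter := cword 2 (-c) ++ cword 1 (-1) ++ cword 2 c ++ cword 1 1

/-- The digits. -/
abbrev Dig := Fq × Fq

/-- The action of a letter on the first digit. -/
def dact : Letter → Dig → Dig
  | (0, c), x => (x.1 + c * x.2, x.2)
  | (1, c), x => (x.1, x.2 + c)
  | (2, _), x => x

/-- The restriction of a letter below a digit. -/
def restr : Letter → Dig → List Letter
  | (0, c), _ => [(0, c)]
  | (1, _), _ => []
  | (2, c), x =>
    if x.1 = 0 then cword 1 (-(c * x.2)) ++ wword c
    else [(2, -x.1⁻¹), (1, -(c * x.1 * x.2))] ++ cword 0 (-(c * x.1 ^ 2)) ++ [(2, x.1⁻¹)]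

end Vale.Agent.P083.Kirchberg
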