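import Vale.Agent.P083.Kirchberg.Spec

/-!
P083: no almost invariant new vectors over matrices of a fixed size at high levels.

An almost invariant family gives a positive semidefinite matrix on the level (the square root of
the Gram matrix) which is almost invariant under the exact permutations, hence close to an exactly
invariant one; invariant matrices are small on new functions, and the square root has rank `k`.
-/

namespace Vale.Agent.P083.Kirchberg.Endgame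

open Finset Filter Topology
open scoped InnerProductSpace Matrix ComplexConjugate

/-- The sum of inner products over an orthonormal basis does not depend on the basis. -/
theorem sum_inner_basis {E F ι κ : Type*} [NormedAddCommGroup E] [InnerProductSpace ℂ E]
    [FiniteDimensional ℂ E] [NormedAddCommGroup F] [InnerProductSpace ℂ F] [FiniteDimensional ℂ F]
    [Fintype ι] [Fintype κ] (b : OrthonormalBasis ι ℂ E) (c : OrthonormalBasis κ ℂ E)
    (S S' : E →ₗ[ℂ] F) : ∑ i, ⟪S (b i), S' (b i)⟫_ℂ = ∑ i, ⟪S (c i), S' (c i)⟫_ℂ := by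
  have h := (LinearMap.trace_eq_sum_inner (LinearMap.adjoint S ∘ₗ S') b).symm.trans
    (LinearMap.trace_eq_sum_inner (LinearMap.adjoint S ∘ₗ S') c)
  simpa only [LinearMap.comp_apply, LinearMap.adjoint_inner_right] using h

theorem sum_sq_basis {E F ι κ : Type*} [NormedAddCommGroup E] [InnerProductSpace ℂ E]
    [FiniteDimensional ℂ E] [NormedAddCommGroup F] [InnerProductSpace ℂ F] [FiniteDimensional ℂ F]
    [Fintype ι] [Fintype κ] (b : OrthonormalBasis ι ℂ E) (c : OrthonormalBasis κ ℂ E)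
    (S : E →ₗ[ℂ] F) : ∑ i, ‖S (b i)‖ ^ 2 = ∑ i, ‖S (c i)‖ ^ 2 := by
  have h := congrArg Complex.re (sum_inner_basis b c S S)
  simpa only [inner_self_eq_norm_sq_to_K, Complex.re_sum, ← Complex.ofReal_pow,
    Complex.coe_algebraMap, Complex.ofReal_re] using h

section Gram

variable {Ω : Type} [Fintype Ω] {k : ℕ}
  (t : Ω → EuclideanSpace ℂ (Fin k))

/-- The matrix with columns `t`. -/
noncomputable def colMap : EuclideanSpace ℂ Ω →ₗ[ℂ] EuclideanSpace ℂ (Fin k) :=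
  (EuclideanSpace.basisFun Ω ℂ).toBasis.constr ℂ t

theorem colMap_single (w : Ω) : colMap t (EuclideanSpace.basisFun Ω ℂ w) = t w := by
  rw [colMap, ← OrthonormalBasis.coe_toBasis, Module.Basis.constr_basis]

theorem gram_symm : (LinearMap.adjoint (colMap t) ∘ₗ colMap t).IsSymmetric := by
  intro x y
  simp [LinearMap.adjoint_inner_left, LinearMap.adjoint_inner_right]

theorem gram_apply (x : EuclideanSpace ℂ Ω) (w : Ω) :
    (LinearMap.adjoint (colMap t) (colMap t x)) w = ⟪t w, colMap t x⟫_ℂ := by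
  rw [← EuclideanSpace.basisFun_inner, LinearMap.adjoint_inner_right, colMap_single]

/-- A square root of the Gram matrix, with its eigenvectors. -/
theorem exists_sqrt : ∃ (A : EuclideanSpace ℂ Ω →ₗ[ℂ] EuclideanSpace ℂ Ω),
    A.IsSymmetric ∧ (∀ x, 0 ≤ (⟪x, A x⟫_ℂ).re) ∧ (∀ x, ‖A x‖ = ‖colMap t x‖) ∧
    ∃ (N : ℕ) (b : OrthonormalBasis (Fin N) ℂ (EuclideanSpace ℂ Ω)) (s : Finset (Fin N)),
      s.card ≤ k ∧ (∀ i ∉ s, A (b i) = 0) ∧
      ∀ i ∈ s, ∀ S : Finset Ω, ∑ w ∈ S, t w = 0 → ∑ w ∈ S, b i w = 0 := by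
  classical
  set T := colMap t with hT
  have hG : (LinearMap.adjoint T ∘ₗ T).IsSymmetric := gram_symm t
  set b := hG.eigenvectorBasis rfl with hb
  set μ := hG.eigenvalues rfl with hμ
  have heig : ∀ i, LinearMap.adjoint T (T (b i)) = (μ i : ℂ) • b i := fun i =>
    hG.apply_eigenvectorBasis rfl i
  have hTT : ∀ i j, ⟪T (b i), T (b j)⟫_ℂ = if i = j then (μ j : ℂ) else 0 := fun i j => by
    rw [← LinearMap.adjoint_inner_right, heig, inner_smul_right, b.inner_eq_ite]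
    simp
  have hμn : ∀ i, μ i = ‖T (b i)‖ ^ 2 := fun i => by
    have h := hTT i i
    rw [if_pos rfl, inner_self_eq_norm_sq_to_K] at h
    have h' : ((‖T (b i)‖ ^ 2 : ℝ) : ℂ) = (μ i : ℂ) := by simpa using h
    exact_mod_cast h'.symm
  set A : EuclideanSpace ℂ Ω →ₗ[ℂ] EuclideanSpace ℂ Ω :=
    b.toBasis.constr ℂ (fun i => (Real.sqrt (μ i) : ℂ) • b i) with hA
  have hAb : ∀ i, A (b i) = (Real.sqrt (μ i) : ℂ) • b i := fun i => by
    rw [hA, ← OrthonormalBasis.coe_toBasis, Module.Basis.constr_basis, OrthonormalBasis.coe_toBasis]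
  have hAx : ∀ x, A x = ∑ i, (b.repr x i * (Real.sqrt (μ i) : ℂ)) • b i := fun x => by
    conv_lhs => rw [← b.sum_repr x]
    rw [map_sum]
    exact Finset.sum_congr rfl fun i _ => by rw [map_smul, hAb, smul_smul]
  have hsym : A.IsSymmetric := fun x y => by
    rw [hAx x, hAx y, sum_inner, inner_sum]
    refine Finset.sum_congr rfl fun i _ => ?_
    rw [inner_smul_left, inner_smul_right, b.repr_apply_apply, b.repr_apply_apply, map_mul,
      Complex.conj_ofReal, inner_conj_symm]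
    ring
  have hAA : ∀ x, A (A x) = LinearMap.adjoint T (T x) := fun x => by
    have h : A ∘ₗ A = LinearMap.adjoint T ∘ₗ T := b.toBasis.ext fun i => by
      simp only [OrthonormalBasis.coe_toBasis, LinearMap.comp_apply, hAb, map_smul, heig,
        smul_smul, ← Complex.ofReal_mul]
      rw [Real.mul_self_sqrt (by rw [hμn]; positivity)]
    exact LinearMap.congr_fun h x
  refine ⟨A, hsym, fun x => ?_, fun x => ?_, _, b, univ.filter fun i => μ i ≠ 0, ?_, ?_, ?_⟩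
  · rw [hAx, inner_sum, Complex.re_sum]
    refine Finset.sum_nonneg fun i _ => ?_
    rw [inner_smul_right, b.repr_apply_apply, mul_right_comm, ← inner_conj_symm x (b i),
      Complex.mul_conj, ← Complex.ofReal_mul, Complex.ofReal_re]
    exact mul_nonneg (Complex.normSq_nonneg _) (Real.sqrt_nonneg _)
  · have h : ⟪A x, A x⟫_ℂ = ⟪T x, T x⟫_ℂ := by
      rw [hsym, hAA, LinearMap.adjoint_inner_right]
    rw [inner_self_eq_norm_sq_to_K, inner_self_eq_norm_sq_to_K] at h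
    exact (sq_eq_sq₀ (norm_nonneg _) (norm_nonneg _)).1 (by exact_mod_cast h)
  · have hli : LinearIndependent ℂ fun i : {i // μ i ≠ 0} => T (b i) := by
      refine linearIndependent_of_ne_zero_of_inner_eq_zero (fun i h => i.2 ?_) ?_
      · rw [hμn, h]; simp
      · intro i j hij
        change ⟪T (b i), T (b j)⟫_ℂ = 0
        rw [hTT, if_neg (fun h => hij (Subtype.ext h))]
    have := hli.fintype_card_le_finrank
    simpa [Fintype.card_subtype] using this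
  · intro i hi
    have h0 : μ i = 0 := by simpa using hi
    simp [hAb, h0]
  · intro i hi S hS
    have hμi : (μ i : ℂ) ≠ 0 := by simpa using hi
    have h : ∑ w ∈ S, (LinearMap.adjoint T (T (b i))) w = 0 := by
      simp only [hT, gram_apply]
      rw [← sum_inner, hS, inner_zero_left]
    simp only [heig, PiLp.smul_apply, smul_eq_mul, ← Finset.mul_sum] at h
    exact (mul_eq_zero.1 h).resolve_left hμi

/-- The inequality of Powers and Størmer, in an eigenbasis of the difference. -/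
theorem powers_stormer (A B : EuclideanSpace ℂ Ω →ₗ[ℂ] EuclideanSpace ℂ Ω)
    (hA : A.IsSymmetric) (hB : B.IsSymmetric) (hA0 : ∀ x, 0 ≤ (⟪x, A x⟫_ℂ).re)
    (hB0 : ∀ x, 0 ≤ (⟪x, B x⟫_ℂ).re) {s : ℝ}
    (h : ∀ (N : ℕ) (b : OrthonormalBasis (Fin N) ℂ (EuclideanSpace ℂ Ω)),
      ∑ i, |‖A (b i)‖ ^ 2 - ‖B (b i)‖ ^ 2| ≤ s) :
    ∑ w, ‖(A - B) (EuclideanSpace.basisFun Ω ℂ w)‖ ^ 2 ≤ s := by
  have hD : (A - B).IsSymmetric := hA.sub hB
  set b := hD.eigenvectorBasis rfl with hb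
  rw [sum_sq_basis (EuclideanSpace.basisFun Ω ℂ) b]
  refine le_trans (Finset.sum_le_sum fun i _ => ?_) (h _ b)
  set l := hD.eigenvalues rfl i with hl
  have hd : A (b i) - B (b i) = (l : ℂ) • b i := by
    rw [← LinearMap.sub_apply]; exact hD.apply_eigenvectorBasis rfl i
  have e1 : l = (⟪b i, A (b i)⟫_ℂ).re - (⟪b i, B (b i)⟫_ℂ).re := by
    rw [← Complex.sub_re, ← inner_sub_right, hd, inner_smul_right,
      inner_self_eq_norm_sq_to_K, b.norm_eq_one]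
    simp
  have e2 : ‖A (b i)‖ ^ 2 - ‖B (b i)‖ ^ 2 =
      l * ((⟪b i, A (b i)⟫_ℂ).re + (⟪b i, B (b i)⟫_ℂ).re) := by
    have h1 : (⟪A (b i) - B (b i), A (b i) + B (b i)⟫_ℂ).re =
        ‖A (b i)‖ ^ 2 - ‖B (b i)‖ ^ 2 := by
      simp only [inner_add_right, inner_sub_left, Complex.add_re, Complex.sub_re,
        inner_self_eq_norm_sq_to_K, ← inner_conj_symm (B (b i)) (A (b i)), Complex.conj_re]
      simp [← Complex.ofReal_pow]
    rw [← h1, hd, inner_smul_left, Complex.conj_ofReal, inner_add_right, Complex.re_ofReal_mul,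
      Complex.add_re]
  rw [LinearMap.sub_apply, hd, norm_smul, b.norm_eq_one, mul_one, Complex.norm_real,
    Real.norm_eq_abs, e2, abs_mul,
    abs_of_nonneg (add_nonneg (hA0 (b i)) (hB0 (b i))), sq]
  refine mul_le_mul_of_nonneg_left ?_ (abs_nonneg _)
  rw [e1, abs_le]
  constructor <;> linarith [hA0 (b i), hB0 (b i)]

end Gram

/-- Almost fixed vectors are near fixed ones, when powers of `K` almost project onto them. -/
theorem exists_fixed {V : Type*} [NormedAddCommGroup V] [NormedSpace ℂ V] [CompleteSpace V]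
    {ι : Type*} (u : ι → V →L[ℂ] V) (K : V →L[ℂ] V) {θ : ℝ} (h0 : 0 ≤ θ) (h1 : θ < 1)
    (ha : ∀ (j : ℕ) (ξ : V) (l : ι), ‖u l ((K ^ j) ξ) - (K ^ j) ξ‖ ≤ 100 * θ ^ j * ‖ξ‖)
    (hb : ∀ (j : ℕ) (ξ : V) (δ : ℝ), (∀ l, ‖u l ξ - ξ‖ ≤ δ) → ‖(K ^ j) ξ - ξ‖ ≤ 2 * j * δ)
    (ξ : V) (δ : ℝ) (hξ : ∀ l, ‖u l ξ - ξ‖ ≤ δ) (J : ℕ) :
    ∃ Z : V, (∀ l, u l Z = Z) ∧ ‖ξ - Z‖ ≤ 2 * J * δ + 200 * ‖ξ‖ * θ ^ J / (1 - θ) := by
  set f : ℕ → V := fun j => (K ^ j) ξ with hf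
  have hd : ∀ j, dist (f j) (f (j + 1)) ≤ 200 * ‖ξ‖ * θ ^ j := fun j => by
    have h := hb 1 (f j) (100 * θ ^ j * ‖ξ‖) (ha j ξ)
    rw [dist_eq_norm, norm_sub_rev]
    simp only [hf, pow_one, Nat.cast_one, mul_one] at h ⊢
    rw [pow_succ', mul_apply_eq_comp]
    linarith
  obtain ⟨Z, hZ⟩ := cauchySeq_tendsto_of_complete (cauchySeq_of_le_geometric θ _ h1 hd)
  refine ⟨Z, fun l => ?_, ?_⟩
  · have h2 : Tendsto (fun j => u l (f j) - f j) atTop (𝓝 (u l Z - Z)) :=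
      (((u l).continuous.tendsto _).comp hZ).sub hZ
    have h3 : Tendsto (fun j => u l (f j) - f j) atTop (𝓝 0) := by
      refine squeeze_zero_norm (fun j => ha j ξ l) ?_
      simpa using ((tendsto_pow_atTop_nhds_zero_of_lt_one h0 h1).const_mul 100).mul_const ‖ξ‖
    exact sub_eq_zero.1 (tendsto_nhds_unique h2 h3)
  · have h4 := dist_le_of_le_geometric_of_tendsto θ _ h1 hd hZ J
    rw [dist_eq_norm] at h4
    have h5 := hb J ξ δ hξ
    have h6 := norm_sub_le_norm_sub_add_norm_sub ξ (f J) Z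
    rw [norm_sub_rev] at h5
    simp only [hf] at h4 h6
    linarith

section Product

variable {G : Type*} [Monoid G] {G' : Type*} [Monoid G']

theorem map_weval (φ : G →* G') (u : Letter → G) (w : List Letter) :
    weval (fun l => φ (u l)) w = φ (weval u w) := by
  simp [weval, map_list_prod, List.map_map, Function.comp_def]

theorem Rel_map {u : Letter → G} (h : Rel u) (φ : G →* G') : Rel fun l => φ (u l) where
  zero i := by simp [h.zero i]
  add i c d := by simp only [← map_mul, h.add]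
  czero i := by simp [map_weval, h.czero i]
  cadd i c d := by simp only [map_weval, ← map_mul, h.cadd]
  comm0 i c d := by simp only [map_weval, ← map_mul, h.comm0]
  comm1 i c d := by simp only [map_weval, ← map_mul, h.comm1]
  heis i c d := by simp only [map_weval, ← map_mul, h.heis]

end Product

/-- A permutation acting on pairs. -/
def diagPerm (Ω : Type*) : Equiv.Perm Ω →* Equiv.Perm (Ω × Ω) where
  toFun σ := Equiv.prodCongr σ σ
  map_one' := Equiv.ext fun _ => rfl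
  map_mul' _ _ := Equiv.ext fun _ => rfl

theorem weval_one {G : Type*} [Monoid G] (w : List Letter) : weval (fun _ => (1 : G)) w = 1 := by
  simp [weval]

theorem approx_one {G : Type*} [NormedRing G] [StarRing G] {ε : ℝ} (hε : 0 ≤ ε)
    (h1 : ‖(1 : G)‖ ≤ 2) : Approx (fun _ : Letter => (1 : G)) ε := by
  constructor <;> intros <;> first
    | exact h1
    | simpa [weval_one] using hε

section Coordinates

variable {H : Type*} [NormedAddCommGroup H] [InnerProductSpace ℂ H] {k : ℕ}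

/-- Coordinates of a tuple along a vector. -/
noncomputable def coord (e : H) (z : PiLp 2 (fun _ : Fin k => H)) : EuclideanSpace ℂ (Fin k) :=
  WithLp.toLp 2 fun i => ⟪e, z i⟫_ℂ

theorem coord_ampl (e : H) (y : Matrix (Fin k) (Fin k) ℂ) (z : PiLp 2 (fun _ : Fin k => H)) :
    coord e (ampl y z) = Matrix.toEuclideanLin y (coord e z) := by
  refine PiLp.ext fun i => ?_
  simp [coord, ampl, Matrix.toEuclideanLin, Matrix.mulVec, dotProduct, inner_sum,
    inner_smul_right]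

theorem coord_sub (e : H) (z z' : PiLp 2 (fun _ : Fin k => H)) :
    coord e (z - z') = coord e z - coord e z' := by
  refine PiLp.ext fun i => ?_
  simp [coord, inner_sub_right]

theorem sum_coord_sq {ι : Type*} [Fintype ι] {S : Submodule ℂ H} (b : OrthonormalBasis ι ℂ S)
    (z : PiLp 2 (fun _ : Fin k => H)) (hz : ∀ i, z i ∈ S) :
    ∑ e, ‖coord (b e : H) z‖ ^ 2 = ‖z‖ ^ 2 := by
  simp only [PiLp.norm_sq_eq_of_L2, coord]
  rw [Finset.sum_comm]
  refine Finset.sum_congr rfl fun i _ => ?_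
  have := b.sum_sq_norm_inner_right ⟨z i, hz i⟩
  simpa [Submodule.coe_inner] using this

theorem ampl_mem {S : Submodule ℂ H} (y : Matrix (Fin k) (Fin k) ℂ)
    (z : PiLp 2 (fun _ : Fin k => H)) (hz : ∀ i, z i ∈ S) (i : Fin k) : ampl y z i ∈ S := by
  change (∑ j, y i j • z j) ∈ S
  exact S.sum_mem fun j _ => S.smul_mem _ (hz j)

end Coordinates

/-- Some index carries weight with little error relative to it. -/
theorem exists_good {ι : Type*} [Fintype ι] (f g : ι → ℝ) (c : ℝ) (hf : ∀ e, 0 ≤ f e)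
    (hg : ∀ e, 0 ≤ g e) (h1 : ∑ e, f e = 1) (h2 : ∑ e, g e ≤ c) :
    ∃ e, 0 < f e ∧ g e ≤ c * f e := by
  by_contra hcon
  push Not at hcon
  obtain ⟨e₀, he₀⟩ : ∃ e, 0 < f e := by
    by_contra h
    push Not at h
    have h3 := Finset.sum_nonpos (s := Finset.univ) fun e _ => h e
    linarith
  have hle : ∀ e ∈ Finset.univ, c * f e ≤ g e := fun e _ => by
    rcases (hf e).lt_or_eq with h | h
    · exact (hcon e h).le
    · rw [← h, mul_zero]; exact hg e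
  have h4 := Finset.sum_lt_sum hle ⟨e₀, Finset.mem_univ _, hcon e₀ he₀⟩
  rw [← Finset.mul_sum, h1, mul_one] at h4
  linarith

/-- Left multiplication in Euclidean coordinates by `yᴴ y`. -/
theorem toEuclideanLin_gram {k : ℕ} (y : Matrix (Fin k) (Fin k) ℂ) :
    Matrix.toEuclideanLin (yᴴ * y) =
      LinearMap.adjoint (Matrix.toEuclideanLin y) ∘ₗ Matrix.toEuclideanLin y := by
  rw [← Matrix.toEuclideanLin_conjTranspose_eq_adjoint]
  refine LinearMap.ext fun v => PiLp.ext fun i => ?_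
  simp [Matrix.toEuclideanLin, Matrix.mulVec_mulVec]

/-- Comparing the Gram forms of `T` and of its conjugate, in an orthonormal basis. -/
theorem sum_bound {Ω : Type} [Fintype Ω] [DecidableEq Ω] {k : ℕ}
    (t : Ω → EuclideanSpace ℂ (Fin k)) (σ : Equiv.Perm Ω) (y : Matrix (Fin k) (Fin k) ℂ) {s : ℝ}
    (hs0 : 0 ≤ s) (hs1 : s ≤ 1) (hy1 : ∑ w, ‖Matrix.toEuclideanLin y (t (σ w)) - t w‖ ^ 2 ≤ s ^ 2)
    (hy2 : ∑ w, ‖Matrix.toEuclideanLin (yᴴ * y) (t w) - t w‖ ^ 2 ≤ s ^ 2)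
    (ht : ∑ w, ‖t w‖ ^ 2 = 1) (N : ℕ)
    (b : OrthonormalBasis (Fin N) ℂ (EuclideanSpace ℂ Ω)) :
    ∑ i, |‖colMap t (b i)‖ ^ 2 -
      ‖colMap t (LinearIsometryEquiv.piLpCongrLeft 2 ℂ ℂ σ (b i))‖ ^ 2| ≤ 4 * s := by
  set E := EuclideanSpace.basisFun Ω ℂ with hE
  set P : EuclideanSpace ℂ Ω ≃ₗᵢ[ℂ] EuclideanSpace ℂ Ω :=
    LinearIsometryEquiv.piLpCongrLeft 2 ℂ ℂ σ with hP
  have hPE : ∀ w, P (E w) = E (σ w) := fun w => by simp [hP, hE]
  set T := colMap t with hT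
  have hTE : ∀ w, T (E w) = t w := colMap_single t
  set TP := T ∘ₗ P.toLinearEquiv.toLinearMap with hTP
  have hTPE : ∀ w, TP (E w) = t (σ w) := fun w => by
    change T (P (E w)) = _
    rw [hPE, hTE]
  set Y := Matrix.toEuclideanLin y with hY
  set Y2 := Matrix.toEuclideanLin (yᴴ * y) with hY2
  set E1 := Y ∘ₗ TP - T with hE1
  set E2 := Y2 ∘ₗ TP - TP with hE2
  have s1 : ∑ i, ‖E1 (b i)‖ ^ 2 ≤ s ^ 2 := by
    rw [sum_sq_basis b E]
    simpa [hE1, hTPE, hTE] using hy1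
  have s2 : ∑ i, ‖E2 (b i)‖ ^ 2 ≤ s ^ 2 := by
    rw [sum_sq_basis b E]
    refine le_of_eq_of_le ?_ hy2
    rw [← Equiv.sum_comp σ fun w => ‖Y2 (t w) - t w‖ ^ 2]
    simp [hE2, hTPE]
  have sT : ∑ i, ‖T (b i)‖ ^ 2 = 1 := by
    rw [sum_sq_basis b E]
    simpa [hTE] using ht
  have sTP : ∑ i, ‖TP (b i)‖ ^ 2 = 1 := by
    rw [sum_sq_basis b E, ← ht, ← Equiv.sum_comp σ fun w => ‖t w‖ ^ 2]
    simp [hTPE]
  have hpt : ∀ i, |‖T (b i)‖ ^ 2 - ‖TP (b i)‖ ^ 2| ≤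
      2 * (‖T (b i)‖ * ‖E1 (b i)‖) + ‖E1 (b i)‖ ^ 2 + ‖TP (b i)‖ * ‖E2 (b i)‖ := by
    intro i
    set z := TP (b i) with hz
    have h1 : Y z = T (b i) + E1 (b i) := by simp [hE1, hz]
    have h2 : ‖z‖ ^ 2 = ‖Y z‖ ^ 2 - (⟪z, E2 (b i)⟫_ℂ).re := by
      have h3 : E2 (b i) = LinearMap.adjoint Y (Y z) - z := by
        change Y2 z - z = _
        rw [hY2, toEuclideanLin_gram]
        rfl
      rw [h3, inner_sub_right, LinearMap.adjoint_inner_right, Complex.sub_re,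
        inner_self_eq_norm_sq_to_K, inner_self_eq_norm_sq_to_K]
      simp [← Complex.ofReal_pow]
    have h4 := Complex.abs_re_le_norm ⟪z, E2 (b i)⟫_ℂ
    have h5 := norm_inner_le_norm (𝕜 := ℂ) z (E2 (b i))
    have h6 := norm_add_le (T (b i)) (E1 (b i))
    have h8 := norm_sub_le (T (b i) + E1 (b i)) (E1 (b i))
    rw [add_sub_cancel_right] at h8
    have h9 := norm_nonneg (T (b i) + E1 (b i))
    have h10 := norm_nonneg (E1 (b i))
    rw [h2, h1]
    rw [abs_le] at h4 ⊢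
    constructor <;> nlinarith [norm_nonneg (T (b i))]
  refine le_trans (Finset.sum_le_sum fun i _ => hpt i) ?_
  rw [Finset.sum_add_distrib, Finset.sum_add_distrib, ← Finset.mul_sum]
  have cs : ∀ f g : Fin N → ℝ, ∑ i, f i ^ 2 = 1 → ∑ i, g i ^ 2 ≤ s ^ 2 →
      ∑ i, f i * g i ≤ s := fun f g hf hg =>
    (Real.sum_mul_le_sqrt_mul_sqrt _ f g).trans (by
      rw [hf, Real.sqrt_one, one_mul]
      exact (Real.sqrt_le_sqrt hg).trans_eq (Real.sqrt_sq hs0))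
  have c1 := cs _ _ sT s1
  have c2 := cs _ _ sTP s2
  nlinarith

/-- The distance of the square root to its conjugate by a permutation. -/
theorem dist_perm {Ω : Type} [Fintype Ω] [DecidableEq Ω] {k : ℕ}
    (t : Ω → EuclideanSpace ℂ (Fin k)) (A : EuclideanSpace ℂ Ω →ₗ[ℂ] EuclideanSpace ℂ Ω)
    (hAs : A.IsSymmetric) (hA0 : ∀ x, 0 ≤ (⟪x, A x⟫_ℂ).re) (hAn : ∀ x, ‖A x‖ = ‖colMap t x‖)
    (ht : ∑ w, ‖t w‖ ^ 2 = 1) (σ : Equiv.Perm Ω) (y : Matrix (Fin k) (Fin k) ℂ) {s : ℝ}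
    (hs0 : 0 ≤ s) (hs1 : s ≤ 1) (hy1 : ∑ w, ‖Matrix.toEuclideanLin y (t (σ w)) - t w‖ ^ 2 ≤ s ^ 2)
    (hy2 : ∑ w, ‖Matrix.toEuclideanLin (yᴴ * y) (t w) - t w‖ ^ 2 ≤ s ^ 2)
    (x' : EuclideanSpace ℂ (Ω × Ω))
    (hx' : ∀ v w, x' (v, w) = A (EuclideanSpace.basisFun Ω ℂ (σ w)) (σ v)) :
    ‖x' - WithLp.toLp 2 (fun p => A (EuclideanSpace.basisFun Ω ℂ p.2) p.1)‖ ≤
      2 * Real.sqrt s := by
  set E := EuclideanSpace.basisFun Ω ℂ with hE
  set P : EuclideanSpace ℂ Ω ≃ₗᵢ[ℂ] EuclideanSpace ℂ Ω :=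
    LinearIsometryEquiv.piLpCongrLeft 2 ℂ ℂ σ with hP
  have hPE : ∀ w, P (E w) = E (σ w) := fun w => by simp [hP, hE]
  set B := P.symm.toLinearEquiv.toLinearMap ∘ₗ A ∘ₗ P.toLinearEquiv.toLinearMap with hB
  have hBx : ∀ z, B z = P.symm (A (P z)) := fun z => rfl
  have hBs : B.IsSymmetric := fun z z' => by
    rw [hBx, hBx, ← P.inner_map_map, P.apply_symm_apply, hAs, ← P.inner_map_map z,
      P.apply_symm_apply]
  have hB0 : ∀ z, 0 ≤ (⟪z, B z⟫_ℂ).re := fun z => by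
    rw [hBx, ← P.inner_map_map z, P.apply_symm_apply]
    exact hA0 _
  have hps : ∑ w, ‖(A - B) (E w)‖ ^ 2 ≤ 4 * s := by
    refine powers_stormer A B hAs hBs hA0 hB0 fun N b => ?_
    refine le_trans (Finset.sum_le_sum fun i _ => ?_) (sum_bound t σ y hs0 hs1 hy1 hy2 ht N b)
    rw [hAn, hBx, LinearIsometryEquiv.norm_map, hAn]
  have heq : ‖x' - WithLp.toLp 2 (fun p => A (E p.2) p.1)‖ ^ 2 =
      ∑ w, ‖(A - B) (E w)‖ ^ 2 := by
    rw [norm_sub_rev, PiLp.norm_sq_eq_of_L2, Fintype.sum_prod_type, Finset.sum_comm]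
    refine Finset.sum_congr rfl fun w _ => ?_
    rw [PiLp.norm_sq_eq_of_L2]
    refine Finset.sum_congr rfl fun v _ => ?_
    simp only [PiLp.sub_apply, hx', LinearMap.sub_apply, hBx, hPE]
    rw [hP, LinearIsometryEquiv.piLpCongrLeft_symm]
    simp [LinearIsometryEquiv.piLpCongrLeft_apply, Equiv.piCongrLeft'_apply]
  calc _ = Real.sqrt (‖x' - WithLp.toLp 2 (fun p => A (E p.2) p.1)‖ ^ 2) :=
        (Real.sqrt_sq (norm_nonneg _)).symm
    _ ≤ Real.sqrt (4 * s) := Real.sqrt_le_sqrt (heq.trans_le hps)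
    _ = 2 * Real.sqrt s := by
      rw [Real.sqrt_mul (by norm_num), show Real.sqrt 4 = 2 by
        rw [show (4 : ℝ) = 2 ^ 2 by norm_num, Real.sqrt_sq]; norm_num]

/-- An invariant matrix pairs weakly with a square root of small rank. -/
theorem pairing {Ω : Type} [Fintype Ω] [DecidableEq Ω] {k n N : ℕ}
    (A : EuclideanSpace ℂ Ω →ₗ[ℂ] EuclideanSpace ℂ Ω)
    (b : OrthonormalBasis (Fin N) ℂ (EuclideanSpace ℂ Ω)) (S : Finset (Fin N)) (hS : S.card ≤ k)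
    (hSA : ∀ i ∉ S, A (b i) = 0)
    (hA : ∑ w, ‖A (EuclideanSpace.basisFun Ω ℂ w)‖ ^ 2 = 1) (Z : EuclideanSpace ℂ (Ω × Ω))
    (hsm : ∀ i ∈ S, (∑ v, ‖∑ w, Z (v, w) * b i w‖ ^ 2) * (5 : ℝ) ^ n ≤ ‖Z‖ ^ 2) :
    ‖⟪WithLp.toLp 2 (fun p : Ω × Ω => A (EuclideanSpace.basisFun Ω ℂ p.2) p.1), Z⟫_ℂ‖ ^ 2 *
        (5 : ℝ) ^ n ≤ k * ‖Z‖ ^ 2 := by
  set ZL := Matrix.toEuclideanLin (Matrix.of fun v w => Z (v, w)) with hZL
  have hZe : ∀ w, ZL (EuclideanSpace.basisFun Ω ℂ w) = WithLp.toLp 2 (fun v => Z (v, w)) := by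
    intro w
    refine PiLp.ext fun v => ?_
    simp [hZL, Matrix.toEuclideanLin, Matrix.mulVec, dotProduct, Pi.single_apply]
  have hin : ⟪WithLp.toLp 2 (fun p : Ω × Ω => A (EuclideanSpace.basisFun Ω ℂ p.2) p.1), Z⟫_ℂ =
      ∑ i ∈ S, ⟪A (b i), ZL (b i)⟫_ℂ := by
    rw [Finset.sum_subset (Finset.subset_univ S) fun i _ hi => by simp [hSA i hi],
      ← sum_inner_basis (EuclideanSpace.basisFun Ω ℂ) b A ZL, PiLp.inner_apply,
      Fintype.sum_prod_type, Finset.sum_comm]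
    simp only [hZe]
    simp [PiLp.inner_apply]
  have hsm' : ∀ i ∈ S, ‖ZL (b i)‖ ^ 2 * (5 : ℝ) ^ n ≤ ‖Z‖ ^ 2 := fun i hi => by
    refine le_of_eq_of_le ?_ (hsm i hi)
    simp [hZL, PiLp.norm_sq_eq_of_L2, Matrix.toEuclideanLin, Matrix.mulVec, dotProduct]
  have h1 : ‖∑ i ∈ S, ⟪A (b i), ZL (b i)⟫_ℂ‖ ≤ ∑ i ∈ S, ‖A (b i)‖ * ‖ZL (b i)‖ :=
    (norm_sum_le _ _).trans (Finset.sum_le_sum fun i _ => norm_inner_le_norm _ _)
  have h2 := Finset.sum_mul_sq_le_sq_mul_sq S (fun i => ‖A (b i)‖) (fun i => ‖ZL (b i)‖)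
  have h3 : ∑ i ∈ S, ‖A (b i)‖ ^ 2 ≤ 1 :=
    (Finset.sum_le_univ_sum_of_nonneg fun i => by positivity).trans
      (le_of_eq ((sum_sq_basis b (EuclideanSpace.basisFun Ω ℂ) A).trans hA))
  rw [hin]
  calc _ ≤ (∑ i ∈ S, ‖ZL (b i)‖ ^ 2) * (5 : ℝ) ^ n := by
        gcongr
        exact (pow_le_pow_left₀ (norm_nonneg _) h1 2).trans
          (h2.trans (mul_le_of_le_one_left (Finset.sum_nonneg fun i _ => by positivity) h3))
    _ ≤ (S.card : ℝ) * ‖Z‖ ^ 2 := by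
        rw [Finset.sum_mul]
        simpa [nsmul_eq_mul] using Finset.sum_le_card_nsmul S _ _ hsm'
    _ ≤ k * ‖Z‖ ^ 2 := by gcongr

/-- No almost invariant new family of vectors of a fixed size. -/
theorem scalar_end {k n : ℕ} {θ s : ℝ} (J : ℕ) (h0 : 0 ≤ θ) (h1 : θ < 1)
    (hgap : ∀ (j : ℕ) (η : ℝ), 0 < η → ∃ ε > 0,
      ∀ (H : Type) [NormedAddCommGroup H] [InnerProductSpace ℂ H] [CompleteSpace H]
        (u : Letter → H →L[ℂ] H), Approx u ε →
        (∀ (ξ : H) (l : Letter),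
          ‖u l ((kOp u ^ j) ξ) - (kOp u ^ j) ξ‖ ≤ (100 * θ ^ j + η) * ‖ξ‖) ∧
        (∀ (ξ : H) (δ : ℝ), (∀ l, ‖u l ξ - ξ‖ ≤ δ) → ‖(kOp u ^ j) ξ - ξ‖ ≤ 2 * j * δ))
    (hL : LiftSpec.{0}) (hO : OrbitSpec)
    (π : Letter → Equiv.Perm (Om (n + 1))) (hπ : ∀ l v, π l v = genFun (n + 1) l v)
    (hrel : Rel π) (hJ : 200 * θ ^ J / (1 - θ) ≤ 1 / 4) (hs0 : 0 ≤ s)
    (hs : 256 * ((J : ℝ) + 1) ^ 2 * s ≤ 1) (hk : 2 * (k : ℝ) ≤ 5 ^ n)
    (t : Om (n + 1) → EuclideanSpace ℂ (Fin k)) (ht : ∑ w, ‖t w‖ ^ 2 = 1) (hnew : IsNew t)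
    (hinv : ∀ l : Letter, ∃ y : Matrix (Fin k) (Fin k) ℂ,
      ∑ w, ‖Matrix.toEuclideanLin y (t ((π l)⁻¹ w)) - t w‖ ^ 2 ≤ s ^ 2 ∧
        ∑ w, ‖Matrix.toEuclideanLin (yᴴ * y) (t w) - t w‖ ^ 2 ≤ s ^ 2) : False := by
  classical
  obtain ⟨A, hAs, hA0, hAn, N, b, S, hS, hSA, hSn⟩ := exists_sqrt t
  set E := EuclideanSpace.basisFun (Om (n + 1)) ℂ with hE
  set x : EuclideanSpace ℂ (Om (n + 1) × Om (n + 1)) :=
    WithLp.toLp 2 (fun p => (A (E p.2)) p.1) with hx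
  set u : Letter → EuclideanSpace ℂ (Om (n + 1) × Om (n + 1)) →L[ℂ]
      EuclideanSpace ℂ (Om (n + 1) × Om (n + 1)) :=
    fun l => permLift (1 : ℂ →L[ℂ] ℂ) (diagPerm _ (π l)) with hu
  have hux : ∀ l (z : EuclideanSpace ℂ (Om (n + 1) × Om (n + 1))) v w,
      u l z (v, w) = z ((π l)⁻¹ v, (π l)⁻¹ w) := fun l z v w => rfl
  have hap : ∀ ε, 0 ≤ ε → Approx u ε := fun ε hε =>
    hL ℂ _ _ _ ε (approx_one hε (ContinuousLinearMap.norm_id_le.trans one_le_two))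
      (Rel_map hrel (diagPerm _))
  have hAnorm : ∑ w, ‖A (E w)‖ ^ 2 = 1 := by simp only [hAn, colMap_single, hE]; exact ht
  have hxn : ‖x‖ = 1 := by
    have h : ‖x‖ ^ 2 = 1 := by
      rw [← hAnorm, PiLp.norm_sq_eq_of_L2, Fintype.sum_prod_type, Finset.sum_comm]
      simp [hx, PiLp.norm_sq_eq_of_L2]
    exact (sq_eq_one_iff.1 h).resolve_right (by linarith [norm_nonneg x])
  have hux' : ∀ l, ‖u l x - x‖ ≤ 2 * Real.sqrt s := by
    intro l
    obtain ⟨y, hy1, hy2⟩ := hinv l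
    have hs1 : s ≤ 1 := by nlinarith [(Nat.cast_nonneg J : (0 : ℝ) ≤ J)]
    exact dist_perm t A hAs hA0 hAn ht ((π l)⁻¹) y hs0 hs1 hy1 hy2 (u l x) (fun v w => hux l x v w)
  obtain ⟨Z, hZu, hZx⟩ := exists_fixed u (kOp u) h0 h1
    (fun j ξ l => by
      refine le_of_forall_pos_le_add fun c hc => ?_
      obtain ⟨ε, hε, hg⟩ := hgap j (c / (‖ξ‖ + 1)) (by positivity)
      refine ((hg _ u (hap ε hε.le)).1 ξ l).trans ?_
      rw [add_mul, div_mul_eq_mul_div]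
      gcongr
      rw [div_le_iff₀ (by positivity)]
      nlinarith [norm_nonneg ξ])
    (fun j ξ δ => by
      obtain ⟨ε, hε, hg⟩ := hgap j 1 one_pos
      exact (hg _ u (hap ε hε.le)).2 ξ δ)
    x _ hux' J
  rw [hxn, mul_one] at hZx
  have hZh : ‖x - Z‖ ≤ 1 / 2 := by
    have h : 2 * (J : ℝ) * (2 * Real.sqrt s) ≤ 1 / 4 := by
      have h2 := Real.mul_self_sqrt hs0
      nlinarith [Real.sqrt_nonneg s, (Nat.cast_nonneg J : (0 : ℝ) ≤ J),
        sq_nonneg (16 * ((J : ℝ) + 1) * Real.sqrt s - 1)]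
    linarith
  have hbound := pairing A b S hS hSA hAnorm Z fun i hi => by
    refine le_trans (hO n (fun v w => Z (v, w)) (fun l v w => ?_) (b i)
      fun v => hSn i hi _ (hnew v)) (le_of_eq ?_)
    · have h := hux l Z (π l v) (π l w)
      rw [hZu l] at h
      rw [← hπ, ← hπ, h, Equiv.Perm.inv_def, Equiv.symm_apply_apply, Equiv.symm_apply_apply]
    · have e2 : ‖b i‖ ^ 2 = 1 := by rw [b.norm_eq_one, one_pow]
      rw [PiLp.norm_sq_eq_of_L2] at e2
      rw [e2, mul_one, PiLp.norm_sq_eq_of_L2]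
      exact (Fintype.sum_prod_type fun p => ‖Z p‖ ^ 2).symm
  have hsub := norm_sub_sq (𝕜 := ℂ) x Z
  rw [hxn] at hsub
  simp only [RCLike.re_to_complex] at hsub
  have h5 : (0 : ℝ) < 5 ^ n := by positivity
  have h6 : 2 * ‖⟪x, Z⟫_ℂ‖ ^ 2 ≤ ‖Z‖ ^ 2 := by
    refine le_of_mul_le_mul_right ?_ h5
    nlinarith [sq_nonneg ‖Z‖]
  have h7 := Complex.re_le_norm ⟪x, Z⟫_ℂ
  have h8 : ‖x - Z‖ ^ 2 ≤ 1 / 4 := by nlinarith [norm_nonneg (x - Z)]
  nlinarith [sq_nonneg (‖⟪x, Z⟫_ℂ‖ - 1 / 2), norm_nonneg ⟪x, Z⟫_ℂ]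

end Vale.Agent.P083.Kirchberg.Endgame

namespace Vale.Agent.P083.Kirchberg

universe u

/-- The endgame. -/
theorem endgame (hG : GapSpec.{0}) (hL : LiftSpec.{0}) (hP : PermSpec) (hO : OrbitSpec) :
    EndgameSpec.{u} := by
  classical
  obtain ⟨θ, h0, h1, hgap⟩ := hG
  obtain ⟨J, hJ⟩ := exists_pow_lt_of_lt_one (show 0 < (1 - θ) / 800 by linarith) h1
  have hJ' : 200 * θ ^ J / (1 - θ) ≤ 1 / 4 := by
    rw [div_le_iff₀ (by linarith)]
    linarith
  set s : ℝ := 1 / (256 * ((J : ℝ) + 1) ^ 2) with hs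
  have hs0 : 0 < s := by positivity
  obtain ⟨π, hπ, hrel, -⟩ := hP
  refine ⟨s ^ 2 / 30, by positivity, fun k => ?_⟩
  obtain ⟨n, hk⟩ : ∃ n : ℕ, 2 * (k : ℝ) ≤ 5 ^ n :=
    ⟨2 * k, by exact_mod_cast (Nat.lt_pow_self (show 1 < 5 by norm_num) (n := 2 * k)).le⟩
  refine ⟨n, ?_⟩
  intro H _ _ Ξ hsum hnew hinv
  choose y hy1 hy2 using hinv
  have hinvp : ∀ l : Letter, ∀ w, genFun (n + 1) (l.1, -l.2) w = (π (n + 1) l)⁻¹ w := by
    rintro ⟨i, c⟩ w
    rw [← hπ]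
    have h : π (n + 1) (i, c) * π (n + 1) (i, -c) = 1 := by
      rw [(hrel _).add, add_neg_cancel, (hrel _).zero]
    rw [inv_eq_of_mul_eq_one_right h]
  have hy1' : ∀ l, ∑ w, ‖ampl (y l) (Ξ ((π (n + 1) l)⁻¹ w)) - Ξ w‖ ^ 2 ≤ s ^ 2 / 30 := fun l =>
    (le_of_eq (Finset.sum_congr rfl fun w _ => by rw [← hinvp])).trans (hy1 l)
  set V : Submodule ℂ H :=
    Submodule.span ℂ (Set.range fun p : Om (n + 1) × Fin k => Ξ p.1 p.2) with hV
  have : FiniteDimensional ℂ V := FiniteDimensional.span_of_finite ℂ (Set.finite_range _)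
  set b := stdOrthonormalBasis ℂ V with hb
  have hmem : ∀ w i, Ξ w i ∈ V := fun w i => Submodule.subset_span ⟨(w, i), rfl⟩
  set tt := fun e w => Endgame.coord (b e : H) (Ξ w) with htt
  set Ne := fun e => ∑ w, ‖tt e w‖ ^ 2 with hNe
  set err := fun e => ∑ l, ((∑ w, ‖Matrix.toEuclideanLin (y l) (tt e ((π (n + 1) l)⁻¹ w)) -
    tt e w‖ ^ 2) + ∑ w, ‖Matrix.toEuclideanLin ((y l).conjTranspose * y l) (tt e w) - tt e w‖ ^ 2)
    with herr
  have hN : ∑ e, Ne e = 1 := by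
    rw [← hsum, hNe, Finset.sum_comm]
    exact Finset.sum_congr rfl fun w _ => Endgame.sum_coord_sq b _ (hmem w)
  have hz : ∀ (Y : Matrix (Fin k) (Fin k) ℂ) (v w : Om (n + 1)),
      ∑ e, ‖Matrix.toEuclideanLin Y (tt e v) - tt e w‖ ^ 2 = ‖ampl Y (Ξ v) - Ξ w‖ ^ 2 := by
    intro Y v w
    simp only [htt, ← Endgame.coord_ampl, ← Endgame.coord_sub]
    refine Endgame.sum_coord_sq b _ fun i => ?_
    exact V.sub_mem (Endgame.ampl_mem Y _ (hmem v) i) (hmem w i)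
  have herrsum : ∑ e, err e ≤ s ^ 2 := by
    rw [herr, Finset.sum_comm]
    calc _ ≤ ∑ _l : Letter, (s ^ 2 / 30 + s ^ 2 / 30) := by
          refine Finset.sum_le_sum fun l _ => ?_
          rw [Finset.sum_add_distrib]
          refine add_le_add ?_ ?_ <;> rw [Finset.sum_comm]
          · simpa only [hz] using hy1' l
          · simpa only [hz] using hy2 l
      _ = s ^ 2 := by simp; ring
  obtain ⟨e, he0, he⟩ := Endgame.exists_good Ne err (s ^ 2)
    (fun e => Finset.sum_nonneg fun w _ => sq_nonneg _)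
    (fun e => Finset.sum_nonneg fun l _ => add_nonneg (Finset.sum_nonneg fun w _ => sq_nonneg _)
      (Finset.sum_nonneg fun w _ => sq_nonneg _)) hN herrsum
  set c : ℂ := (((Real.sqrt (Ne e))⁻¹ : ℝ) : ℂ) with hc
  have hc2 : ‖c‖ ^ 2 = (Ne e)⁻¹ := by
    rw [hc, Complex.norm_real, Real.norm_eq_abs, sq_abs, inv_pow, Real.sq_sqrt he0.le]
  refine Endgame.scalar_end J h0 h1 hgap hL hO (π (n + 1)) (hπ _) (hrel _) hJ' hs0.le
    (le_of_eq (by rw [hs]; field_simp)) hk (fun w => c • tt e w) ?_ ?_ fun l => ⟨y l, ?_⟩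
  · simp only [norm_smul, mul_pow, ← Finset.mul_sum, hc2]
    exact inv_mul_cancel₀ he0.ne'
  · intro v
    rw [← Finset.smul_sum]
    have h : ∑ w ∈ Finset.univ.filter (fun w => prO n w = v), tt e w =
        Endgame.coord (b e : H) (∑ w ∈ Finset.univ.filter (fun w => prO n w = v), Ξ w) := by
      refine PiLp.ext fun i => ?_
      simp [htt, Endgame.coord, inner_sum]
    rw [h, hnew v]
    refine smul_eq_zero_of_right _ (PiLp.ext fun i => ?_)
    simp [Endgame.coord]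
  · simp only [map_smul, ← smul_sub, norm_smul, mul_pow, ← Finset.mul_sum, hc2]
    have hl : ∀ a b : ℝ, 0 ≤ a → 0 ≤ b → a + b ≤ s ^ 2 * Ne e →
        (Ne e)⁻¹ * a ≤ s ^ 2 ∧ (Ne e)⁻¹ * b ≤ s ^ 2 := fun a b ha hb h => by
      constructor <;> rw [inv_mul_le_iff₀ he0] <;> linarith
    refine hl _ _ (by positivity) (by positivity) (le_trans ?_ he)
    exact Finset.single_le_sum (f := fun l : Letter =>
      (∑ w, ‖Matrix.toEuclideanLin (y l) (tt e ((π (n + 1) l)⁻¹ w)) - tt e w‖ ^ 2) +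
        ∑ w, ‖Matrix.toEuclideanLin ((y l).conjTranspose * y l) (tt e w) - tt e w‖ ^ 2)
      (fun l _ => by positivity) (Finset.mem_univ l)

end Vale.Agent.P083.Kirchberg
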