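import Vale.Agent.P083.Kirchberg.SpecModel

/-!
P083: an embedding into an ultrapower gives approximate relations with polynomial letters at a
single index.
-/

open Filter Topology BoundedContinuousFunction

namespace Vale.Agent.P083.Kirchberg

universe u

/-- Evaluation of a bounded sequence at an index. -/
noncomputable def evalN {B : Type*} [CStarAlgebra B] (n : ℕ) : (ℕ →ᵇ B) →⋆ₐ[ℂ] B where
  toFun x := x n
  map_one' := rfl
  map_mul' _ _ := rfl
  map_zero' := rfl
  map_add' _ _ := rfl
  commutes' _ := rfl
  map_star' _ := rfl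

theorem map_weval {G K : Type*} [Monoid G] [Monoid K] {F : Type*} [FunLike F G K]
    [MonoidHomClass F G K] (f : F) (u : Letter → G) (w : List Letter) :
    f (weval u w) = weval (fun l => f (u l)) w := by
  rw [weval, map_list_prod, List.map_map]
  rfl

theorem map_rootProj {A C : Type*} [Ring A] [StarRing A] [Algebra ℂ A] [Ring C] [StarRing C]
    [Algebra ℂ C] (f : A →⋆ₐ[ℂ] C) (S : Dig → A) :
    f (rootProj S) = rootProj fun x => f (S x) := by
  simp [rootProj, map_sum, map_star]

theorem map_aElt {A C : Type*} [Ring A] [StarRing A] [Algebra ℂ A] [Ring C] [StarRing C]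
    [Algebra ℂ C] (f : A →⋆ₐ[ℂ] C) (S : Dig → A) (x : Dig) :
    f (aElt S x) = aElt (fun y => f (S y)) x := by
  simp [aElt, map_sum, map_rootProj]

theorem eventually_norm_le {B : Type*} [CStarAlgebra B] {ω : Ultrafilter ℕ} {X : ℕ →ᵇ B}
    (h : Free.upowMk X = (0 : Free.UPow B ω)) {ε : ℝ} (hε : 0 < ε) :
    ∀ᶠ n in (ω : Filter ℕ), ‖X n‖ ≤ ε :=
  (Free.eventually_norm_lt_of_norm_mk_lt X (c := ε) (by
    change ‖(Free.upowMk X : Free.UPow B ω)‖ < ε
    rw [h, norm_zero]
    exact hε)).mono fun _ hn => hn.le

theorem eventually_le_norm {B : Type*} [CStarAlgebra B] {ω : Ultrafilter ℕ} (X : ℕ →ᵇ B) {c : ℝ}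
    (h : c < ‖(Free.upowMk X : Free.UPow B ω)‖) :
    ∀ᶠ n in (ω : Filter ℕ), c ≤ ‖X n‖ := by
  by_contra hn
  rw [← Ultrafilter.eventually_not] at hn
  have := Free.norm_mk_le_of_eventually (ω := ω) X (hn.mono fun n hn' => (not_le.1 hn').le)
  exact absurd (this : ‖(Free.upowMk X : Free.UPow B ω)‖ ≤ c) (not_le.2 h)

/-- An element of the ultrapower lifts to a bounded sequence inside a dense set. -/
theorem exists_lift_mem {B : Type*} [CStarAlgebra B] {ω : Ultrafilter ℕ}
    (hω : (ω : Filter ℕ) ≤ atTop) {D : Set B} (hD : Dense D) (x : Free.UPow B ω) :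
    ∃ X : ℕ →ᵇ B, Free.upowMk X = x ∧ ∀ n, X n ∈ D := by
  obtain ⟨Y, rfl⟩ := Ideal.Quotient.mk_surjective x
  choose f hfD hf using fun n : ℕ => hD.exists_dist_lt (Y n) (show (0 : ℝ) < 1 / (n + 1) by positivity)
  have hle : ∀ n, ‖f n‖ ≤ ‖Y‖ + 1 := fun n => by
    have h1 := hf n
    rw [dist_comm, dist_eq_norm] at h1
    have h2 : (1 : ℝ) / (n + 1) ≤ 1 := by
      rw [div_le_one (by positivity)]
      simp
    have h3 := norm_le_norm_add_norm_sub' (f n) (Y n)
    have h4 := Y.norm_coe_le_norm n
    linarith
  refine ⟨BoundedContinuousFunction.ofNormedAddCommGroupDiscrete f _ hle, ?_, hfD⟩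
  refine Ideal.Quotient.eq.2 ?_
  refine squeeze_zero (fun _ => norm_nonneg _) (fun n => ?_)
    (tendsto_one_div_add_atTop_nhds_zero_nat.mono_left hω)
  have h1 := hf n
  rw [dist_comm, dist_eq_norm] at h1
  exact h1.le

/-- An embedding into an ultrapower gives approximate relations at one index. -/
theorem extract : ExtractSpec.{u} := by
  intro A _ u S hM B _ _ s _ hD ω hω φ hφ
  choose U hU hUD using fun l => exists_lift_mem hω hD (φ (u l))
  choose V hV _ using fun x => exists_lift_mem hω hD (φ (S x))
  have hw : ∀ w, Free.upowMk (weval U w) = φ (weval u w) := fun w => by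
    rw [map_weval, map_weval]
    simp only [hU]
  have hwn : ∀ (n : ℕ) w, weval (fun l => U l n) w = weval U w n := fun n w =>
    (map_weval (evalN (B := B) n) U w).symm
  have ha : ∀ x, Free.upowMk (aElt V x) = φ (aElt S x) := fun x => by
    rw [map_aElt, map_aElt]
    simp only [hV]
  have han : ∀ (n : ℕ) x, aElt (fun y => V y n) x = aElt V x n := fun n x =>
    (map_aElt (evalN (B := B) n) V x).symm
  have hc : 0 < ‖φ (aElt S 0)‖ := norm_pos_iff.2 fun h => hM.ne (hφ (h.trans (map_zero φ).symm))
  refine ⟨‖φ (aElt S 0)‖ / 2, half_pos hc, fun ε hε => ?_⟩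
  -- a relation that holds exactly holds eventually up to `ε`
  have key : ∀ X Y : ℕ →ᵇ B, ∀ a : A, Free.upowMk X = φ a → Free.upowMk Y = φ a →
      ∀ᶠ n in (ω : Filter ℕ), ‖X n - Y n‖ ≤ ε := fun X Y a hX hY =>
    eventually_norm_le (X := X - Y) (by rw [map_sub, hX, hY, sub_self]) hε
  have h2 : ∀ X : ℕ →ᵇ B, ∀ a : A, star a * a = 1 → Free.upowMk X = φ a →
      ∀ᶠ n in (ω : Filter ℕ), ‖X n‖ ≤ 2 := fun X a ha' hX => by
    refine (Free.eventually_norm_lt_of_norm_mk_lt X (c := 2) ?_).mono fun n hn => hn.le
    change ‖(Free.upowMk X : Free.UPow B ω)‖ < 2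
    rw [hX]
    exact ((NonUnitalStarAlgHom.norm_apply_le φ a).trans
      (Free.norm_le_one_of_isometry ha')).trans_lt one_lt_two
  obtain ⟨hR, hS, hI, hT, hA, -⟩ := hM
  have hunit : ∀ l, star (u l) * u l = 1 := fun l => by
    obtain ⟨i, c⟩ := l
    rw [hS, hR.add, neg_add_cancel, hR.zero]
  have hcstar : ∀ i c, star (weval u (cword i c)) = weval u (cword i (-c)) := fun i c => by
    have h1 : star (weval u (cword i c)) * weval u (cword i c) = 1 := by
      have : ∀ w, star (weval u w) * weval u w = 1 := by
        intro w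
        induction w with
        | nil => simp [weval]
        | cons l w ih =>
          simp only [weval, List.map_cons, List.prod_cons] at ih ⊢
          rw [star_mul, mul_assoc, ← mul_assoc (star (u l)), hunit, one_mul, ih]
      exact this _
    calc star (weval u (cword i c))
        = star (weval u (cword i c)) * (weval u (cword i c) * weval u (cword i (-c))) := by
          rw [hR.cadd, add_neg_cancel, hR.czero, mul_one]
      _ = weval u (cword i (-c)) := by rw [← mul_assoc, h1, one_mul]
  have e1 := eventually_all.2 fun l => h2 (U l) (u l) (hunit l) (hU l)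
  have e2 := eventually_all.2 fun x => h2 (V x) (S x) (by rw [hI, if_pos rfl]) (hV x)
  have e3 := eventually_all.2 fun i => eventually_all.2 fun c =>
    key (star (U (i, c))) (U (i, -c)) _ (by rw [map_star, hU, ← map_star]) (by rw [hU, hS])
  have e4 := eventually_all.2 fun i => eventually_all.2 fun c =>
    key (star (weval U (cword i c))) (weval U (cword i (-c))) _
      (by rw [map_star, hw, ← map_star]) (by rw [hw, hcstar])
  have e5 := eventually_all.2 fun i =>
    key (U (i, 0)) 1 _ (hU _) (by rw [map_one, hR.zero, map_one])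
  have e6 := eventually_all.2 fun i => eventually_all.2 fun c => eventually_all.2 fun d =>
    key (U (i, c) * U (i, d)) (U (i, c + d)) _ (by rw [map_mul, hU, hU, ← map_mul])
      (by rw [hU, hR.add])
  have e7 := eventually_all.2 fun i =>
    key (weval U (cword i 0)) 1 _ (hw _) (by rw [map_one, hR.czero, map_one])
  have e8 := eventually_all.2 fun i => eventually_all.2 fun c => eventually_all.2 fun d =>
    key (weval U (cword i c) * weval U (cword i d)) (weval U (cword i (c + d))) _
      (by rw [map_mul, hw, hw, ← map_mul]) (by rw [hw, hR.cadd])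
  have e9 := eventually_all.2 fun i => eventually_all.2 fun c => eventually_all.2 fun d =>
    key (weval U (cword i c) * U (i, d)) (U (i, d) * weval U (cword i c)) _
      (by rw [map_mul, hw, hU, ← map_mul]) (by rw [map_mul, hw, hU, ← map_mul, hR.comm0])
  have e10 := eventually_all.2 fun i => eventually_all.2 fun c => eventually_all.2 fun d =>
    key (weval U (cword i c) * U (i + 1, d)) (U (i + 1, d) * weval U (cword i c)) _
      (by rw [map_mul, hw, hU, ← map_mul]) (by rw [map_mul, hw, hU, ← map_mul, hR.comm1])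
  have e11 := eventually_all.2 fun i => eventually_all.2 fun c => eventually_all.2 fun d =>
    key (U (i, c) * U (i + 1, d)) (weval U (cword i (c * d)) * (U (i + 1, d) * U (i, c))) _
      (by rw [map_mul, hU, hU, ← map_mul])
      (by rw [map_mul, map_mul, hw, hU, hU, ← map_mul, ← map_mul, hR.heis])
  have e12 := eventually_all.2 fun x => eventually_all.2 fun y =>
    key (star (V x) * V y) (if x = y then 1 else 0) _
      (by rw [map_mul, map_star, hV, hV, ← map_star, ← map_mul])
      (by rw [hI]; split_ifs <;> simp)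
  have e13 := eventually_all.2 fun l => eventually_all.2 fun x =>
    key (U l * V x) (V (dact l x) * weval U (restr l x)) _
      (by rw [map_mul, hU, hV, ← map_mul]) (by rw [map_mul, hw, hV, ← map_mul, hT])
  have e14 := eventually_all.2 fun l => eventually_all.2 fun x =>
    key (U l * aElt V x) (aElt V (dact l x)) _
      (by rw [map_mul, hU, ha, ← map_mul]) (by rw [ha, hA])
  have e15 := eventually_le_norm (ω := ω) (aElt V 0) (by rw [ha]; exact half_lt_self hc)
  obtain ⟨n, g1, g2, g3, g4, g5, g6, g7, g8, g9, g10, g11, g12, g13, g14, g15⟩ :=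
    (e1.and <| e2.and <| e3.and <| e4.and <| e5.and <| e6.and <| e7.and <| e8.and <| e9.and <|
      e10.and <| e11.and <| e12.and <| e13.and <| e14.and e15).exists
  refine ⟨fun l => U l n, fun x => V x n, fun l => hUD l n, ⟨⟨g1, g3, ?_, g5, g6, ?_, ?_, ?_, ?_,
    ?_⟩, g2, fun x y => ?_, fun l x => ?_, fun l x => ?_⟩, ?_⟩
  · intro i c; simp only [hwn]; exact g4 i c
  · intro i; simp only [hwn]; exact g7 i
  · intro i c d; simp only [hwn]; exact g8 i c d
  · intro i c d; simp only [hwn]; exact g9 i c d
  · intro i c d; simp only [hwn]; exact g10 i c d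
  · intro i c d; simp only [hwn]; exact g11 i c d
  · have := g12 x y
    split_ifs at this ⊢ <;> simpa using this
  · simp only [hwn]; exact g13 l x
  · simp only [han]; exact g14 l x
  · simp only [han]; exact g15

end Vale.Agent.P083.Kirchberg
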