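import Vale.Agent.P083.Kirchberg.Spec

/-!
P083: truncated Fock compression of a Cuntz pair.

For two isometries `s₀, s₁` with `s₀s₀* + s₁s₁* = 1` on a Hilbert space, the map sending `ξ` to
the family of the normalised `s_μ* ξ`, over the words `μ` of length at most `n + 1`, is an
isometry intertwining each `sᵢ` and `sᵢ*` with a truncated creation matrix and its adjoint up
to the inverse square root of the number of lengths.
-/

namespace Vale.Agent.P083.Kirchberg

universe u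

namespace Fock

open Matrix

/-- Words of length at most `n` in two letters. -/
def W : ℕ → Type
  | 0 => PUnit
  | n + 1 => Option (Fin 2 × W n)

instance instFintypeW : ∀ n, Fintype (W n)
  | 0 => inferInstanceAs (Fintype PUnit)
  | n + 1 => by
    haveI := instFintypeW n
    exact inferInstanceAs (Fintype (Option (Fin 2 × W n)))

/-- The empty word. -/
def wnil (n : ℕ) : W (n + 1) := (none : Option (Fin 2 × W n))

/-- A letter in front of a word. -/
def wcons {n : ℕ} (i : Fin 2) (μ : W n) : W (n + 1) := (some (i, μ) : Option (Fin 2 × W n))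

/-- A word of length at most `n` as one of length at most `n + 1`. -/
def incl : ∀ n, W n → W (n + 1)
  | 0, _ => wnil 0
  | n + 1, none => wnil (n + 1)
  | n + 1, some (i, μ) => wcons i (incl n μ)

theorem wcons_injective {n : ℕ} (i : Fin 2) : Function.Injective (wcons (n := n) i) :=
  fun _ _ h => (Prod.mk.inj (Option.some.inj h)).2

theorem incl_injective : ∀ n, Function.Injective (incl n)
  | 0, ⟨⟩, ⟨⟩, _ => rfl
  | n + 1, none, none, _ => rfl
  | n + 1, none, some (_, _), h => absurd h (by simp [incl, wnil, wcons])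
  | n + 1, some (_, _), none, h => absurd h (by simp [incl, wnil, wcons])
  | n + 1, some (i, μ), some (j, ν), h => by
    obtain ⟨rfl, h'⟩ := Prod.mk.inj (Option.some.inj h)
    exact congrArg (fun z => (some (i, z) : W (n + 1))) (incl_injective n h')

theorem sum_W {M : Type*} [AddCommMonoid M] {n : ℕ} (f : W (n + 1) → M) :
    ∑ μ, f μ = f (wnil n) + ∑ i, ∑ μ, f (wcons i μ) :=
  (Fintype.sum_option (α := Fin 2 × W n) f).trans (by rw [Fintype.sum_prod_type]; rfl)

section Pair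

variable {H : Type u} [NormedAddCommGroup H] [InnerProductSpace ℂ H] [CompleteSpace H]
  (s : Fin 2 → H →L[ℂ] H)

/-- The operator `s_μ*`. -/
noncomputable def op : ∀ n, W n → (H →L[ℂ] H)
  | 0, _ => 1
  | _ + 1, none => 1
  | n + 1, some (i, μ) => op n μ * star (s i)

theorem op_nil (n : ℕ) : op s (n + 1) (wnil n) = 1 := rfl

theorem op_cons {n : ℕ} (i : Fin 2) (μ : W n) :
    op s (n + 1) (wcons i μ) = op s n μ * star (s i) := rfl

theorem op_incl : ∀ n (μ : W n), op s (n + 1) (incl n μ) = op s n μ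
  | 0, _ => rfl
  | _ + 1, none => rfl
  | n + 1, some (i, μ) => by
    show op s (n + 1) (incl n μ) * star (s i) = op s n μ * star (s i)
    rw [op_incl n μ]

variable {s}

theorem sum_star_sq (hs : Free.IsPair s) (ξ : H) :
    ∑ i, ‖star (s i) ξ‖ ^ 2 = ‖ξ‖ ^ 2 := by
  have e : ∀ i, ‖star (s i) ξ‖ ^ 2 = RCLike.re (inner ℂ ((s i * star (s i)) ξ) ξ) := by
    intro i
    rw [ContinuousLinearMap.apply_norm_sq_eq_inner_adjoint_left,
      ← ContinuousLinearMap.star_eq_adjoint, star_star]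
    rfl
  rw [Fin.sum_univ_two, e, e, ← map_add, ← inner_add_left,
    ← _root_.add_apply, hs.sum_range]
  exact inner_self_eq_norm_sq ξ

theorem norm_apply (hs : Free.IsPair s) (i : Fin 2) (ξ : H) : ‖s i ξ‖ = ‖ξ‖ := by
  have e := ContinuousLinearMap.apply_norm_sq_eq_inner_adjoint_left (s i) ξ
  rw [← ContinuousLinearMap.star_eq_adjoint, show (star (s i)).comp (s i) = 1 from hs.isometry i,
    one_apply_eq_self, inner_self_eq_norm_sq] at e
  exact (sq_eq_sq₀ (norm_nonneg _) (norm_nonneg _)).1 e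

theorem norm_star_apply_le (hs : Free.IsPair s) (i : Fin 2) (ξ : H) : ‖star (s i) ξ‖ ≤ ‖ξ‖ := by
  rw [← sq_le_sq₀ (norm_nonneg _) (norm_nonneg _), ← sum_star_sq hs ξ]
  exact Finset.single_le_sum (f := fun j => ‖star (s j) ξ‖ ^ 2) (fun j _ => by positivity)
    (Finset.mem_univ i)

theorem sum_op_sq (hs : Free.IsPair s) : ∀ n (ξ : H),
    ∑ μ, ‖op s n μ ξ‖ ^ 2 = (n + 1 : ℝ) * ‖ξ‖ ^ 2
  | 0, ξ => by
    show ∑ _μ : PUnit, ‖ξ‖ ^ 2 = _
    simp
  | n + 1, ξ => by
    simp only [sum_W, op_nil, op_cons, one_apply_eq_self,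
      mul_apply_eq_comp, sum_op_sq hs n]
    rw [← Finset.mul_sum, sum_star_sq hs]
    push_cast
    ring

end Pair

section Amp

variable {H : Type u} [NormedAddCommGroup H] [InnerProductSpace ℂ H] {ι : Type} [Fintype ι]

theorem ampl_sub (Y : Matrix ι ι ℂ) (a b : PiLp 2 (fun _ : ι => H)) :
    ampl Y (a - b) = ampl Y a - ampl Y b := by
  apply PiLp.ext; intro μ
  simp [ampl, smul_sub]

theorem ampl_add_left (Y Z : Matrix ι ι ℂ) (a : PiLp 2 (fun _ : ι => H)) :
    ampl (Y + Z) a = ampl Y a + ampl Z a := by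
  apply PiLp.ext; intro μ
  simp [ampl, add_smul, Finset.sum_add_distrib]

theorem ampl_mul (Y Z : Matrix ι ι ℂ) (a : PiLp 2 (fun _ : ι => H)) :
    ampl (Y * Z) a = ampl Y (ampl Z a) := by
  apply PiLp.ext; intro μ
  simp only [ampl, Matrix.mul_apply, Finset.sum_smul, Finset.smul_sum, smul_smul]
  exact Finset.sum_comm

theorem ampl_algebraMap [DecidableEq ι] (r : ℂ) (a : PiLp 2 (fun _ : ι => H)) :
    ampl (algebraMap ℂ (Matrix ι ι ℂ) r) a = r • a := by
  apply PiLp.ext; intro μ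
  simp [ampl, Matrix.algebraMap_matrix_apply, ite_smul]

variable {A : Type}

open scoped Classical in
/-- The matrix sending the coordinate `g a` to the coordinate `f a`. -/
noncomputable def pperm (f g : A → ι) : Matrix ι ι ℂ :=
  Matrix.of fun μ ν => if ∃ a, f a = μ ∧ g a = ν then 1 else 0

omit [Fintype ι] in
theorem pperm_conjTranspose (f g : A → ι) : (pperm f g)ᴴ = pperm g f := by
  classical
  ext μ ν
  simp only [pperm, Matrix.conjTranspose_apply, Matrix.of_apply]
  rw [apply_ite star]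
  simp [and_comm]

theorem ampl_pperm_apply (f g : A → ι) (hf : Function.Injective f)
    (z : PiLp 2 (fun _ : ι => H)) (a : A) : ampl (pperm f g) z (f a) = z (g a) := by
  classical
  show ∑ ν, pperm f g (f a) ν • z ν = _
  rw [Finset.sum_eq_single (g a)]
  · rw [pperm, Matrix.of_apply, if_pos ⟨a, rfl, rfl⟩, one_smul]
  · intro ν _ hν
    have : ¬ ∃ b, f b = f a ∧ g b = ν := fun ⟨b, hb, hb'⟩ => hν (hb' ▸ hf hb ▸ rfl)
    simp [pperm, this]
  · simp

theorem ampl_pperm_not (f g : A → ι) (z : PiLp 2 (fun _ : ι => H)) {μ : ι}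
    (h : μ ∉ Set.range f) : ampl (pperm f g) z μ = 0 := by
  classical
  show ∑ ν, pperm f g μ ν • z ν = _
  refine Finset.sum_eq_zero fun ν _ => ?_
  have : ¬ ∃ b, f b = μ ∧ g b = ν := fun ⟨b, hb, _⟩ => h ⟨b, hb⟩
  simp [pperm, this]

theorem norm_ampl_pperm_le [Fintype A] (f g : A → ι) (hf : Function.Injective f)
    (hg : Function.Injective g) (z : PiLp 2 (fun _ : ι => H)) :
    ‖ampl (pperm f g) z‖ ≤ ‖z‖ := by
  classical
  rw [← sq_le_sq₀ (norm_nonneg _) (norm_nonneg _), PiLp.norm_sq_eq_of_L2, PiLp.norm_sq_eq_of_L2,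
    ← Fintype.sum_of_injective f hf (fun a => ‖ampl (pperm f g) z (f a)‖ ^ 2)
      (fun μ => ‖ampl (pperm f g) z μ‖ ^ 2) (fun μ hμ => by
      simp [ampl_pperm_not f g z hμ]) (fun a => rfl)]
  simp only [ampl_pperm_apply f g hf]
  rw [← Finset.sum_image (f := fun μ => ‖z μ‖ ^ 2) (fun a _ b _ h => hg h)]
  exact Finset.sum_le_sum_of_subset_of_nonneg (Finset.subset_univ _) fun μ _ _ => by positivity

end Amp

section Compression

/-- The number of coordinates. -/
noncomputable abbrev dim (n : ℕ) : ℕ := Fintype.card (W (n + 1))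

/-- The numbering of the words. -/
noncomputable def num (n : ℕ) : W (n + 1) ≃ Fin (dim n) := Fintype.equivFin _

/-- The normalisation. -/
noncomputable def scale (n : ℕ) : ℝ := (√((n : ℝ) + 2))⁻¹

theorem scale_nonneg (n : ℕ) : 0 ≤ scale n := by unfold scale; positivity

theorem scale_sq (n : ℕ) : scale n ^ 2 * ((n : ℝ) + 2) = 1 := by
  rw [scale, inv_pow, Real.sq_sqrt (by positivity)]
  exact inv_mul_cancel₀ (by positivity)

/-- The word obtained by putting `i` in front, numbered. -/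
noncomputable def up (n : ℕ) (i : Fin 2) (μ : W n) : Fin (dim n) := num n (wcons i μ)

/-- The word itself, numbered. -/
noncomputable def low (n : ℕ) (μ : W n) : Fin (dim n) := num n (incl n μ)

theorem up_injective (n : ℕ) (i : Fin 2) : Function.Injective (up n i) :=
  (num n).injective.comp (wcons_injective i)

theorem low_injective (n : ℕ) : Function.Injective (low n) :=
  (num n).injective.comp (incl_injective n)

variable {H : Type u} [NormedAddCommGroup H] [InnerProductSpace ℂ H] [CompleteSpace H]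
  {s : Fin 2 → H →L[ℂ] H}

/-- The compression isometry. -/
noncomputable def emb (hs : Free.IsPair s) (n : ℕ) :
    H →ₗᵢ[ℂ] PiLp 2 (fun _ : Fin (dim n) => H) where
  toFun ξ := WithLp.toLp 2 fun μ => (scale n : ℂ) • op s (n + 1) ((num n).symm μ) ξ
  map_add' a b := by apply PiLp.ext; intro μ; simp
  map_smul' r a := by apply PiLp.ext; intro μ; simp [smul_comm r]
  norm_map' ξ := by
    rw [← sq_eq_sq₀ (norm_nonneg _) (norm_nonneg _), PiLp.norm_sq_eq_of_L2]
    show ∑ μ, ‖(scale n : ℂ) • op s (n + 1) ((num n).symm μ) ξ‖ ^ 2 = _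
    rw [(num n).symm.sum_comp (fun w => ‖(scale n : ℂ) • op s (n + 1) w ξ‖ ^ 2)]
    simp only [norm_smul, Complex.norm_real, Real.norm_eq_abs, mul_pow, sq_abs,
      ← Finset.mul_sum, sum_op_sq hs]
    push_cast
    rw [← mul_assoc, show (n : ℝ) + 1 + 1 = (n : ℝ) + 2 by ring, scale_sq, one_mul]

theorem emb_num (hs : Free.IsPair s) (n : ℕ) (ξ : H) (w : W (n + 1)) :
    emb hs n ξ (num n w) = (scale n : ℂ) • op s (n + 1) w ξ := by
  show (scale n : ℂ) • op s (n + 1) ((num n).symm (num n w)) ξ = _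
  rw [Equiv.symm_apply_apply]

theorem norm_creation (hs : Free.IsPair s) (n : ℕ) (i : Fin 2) (ξ : H) :
    ‖ampl (pperm (up n i) (low n)) (emb hs n ξ) - emb hs n (s i ξ)‖ ≤ scale n * ‖ξ‖ := by
  rw [← sq_le_sq₀ (norm_nonneg _) (mul_nonneg (scale_nonneg n) (norm_nonneg ξ)),
    PiLp.norm_sq_eq_of_L2, ← (num n).sum_comp, sum_W]
  have hn : num n (wnil n) ∉ Set.range (up n i) :=
    fun ⟨a, ha⟩ => by simpa [wnil, wcons] using (num n).injective ha
  have hc : ∀ (j : Fin 2) (μ : W n), ampl (pperm (up n i) (low n)) (emb hs n ξ)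
      (num n (wcons j μ)) = emb hs n (s i ξ) (num n (wcons j μ)) := by
    intro j μ
    rw [emb_num, op_cons, mul_apply_eq_comp,
      show star (s j) (s i ξ) = (star (s j) * s i) ξ from rfl, hs.ite]
    by_cases hij : j = i
    · subst hij
      rw [show num n (wcons j μ) = up n j μ from rfl,
        ampl_pperm_apply _ _ (up_injective n j), low, emb_num, op_incl]
      simp
    · have hj : num n (wcons j μ) ∉ Set.range (up n i) := fun ⟨a, ha⟩ =>
        hij ((Prod.mk.inj (Option.some.inj ((num n).injective ha))).1).symm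
      rw [ampl_pperm_not _ _ _ hj]
      simp [hij]
  have hz : ∀ j, ∑ μ : W n, ‖(ampl (pperm (up n i) (low n)) (emb hs n ξ) - emb hs n (s i ξ))
      (num n (wcons j μ))‖ ^ 2 = 0 := fun j => by
    refine Finset.sum_eq_zero fun μ _ => ?_
    rw [PiLp.sub_apply, hc j μ, sub_self]
    simp
  simp only [hz, Finset.sum_const_zero, add_zero]
  rw [PiLp.sub_apply, ampl_pperm_not _ _ _ hn, emb_num, op_nil]
  simp [norm_smul, mul_pow, norm_apply hs i ξ]

theorem norm_annihilation (hs : Free.IsPair s) (n : ℕ) (i : Fin 2) (ξ : H) :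
    ‖ampl (pperm (low n) (up n i)) (emb hs n ξ) - emb hs n (star (s i) ξ)‖ ≤
      scale n * ‖ξ‖ := by
  classical
  set η := star (s i) ξ with hη
  have hin : ∀ a : W n, ampl (pperm (low n) (up n i)) (emb hs n ξ) (low n a) =
      emb hs n η (low n a) := by
    intro a
    rw [ampl_pperm_apply _ _ (low_injective n), up, emb_num, low, emb_num, op_incl, op_cons,
      mul_apply_eq_comp, hη]
  set S := (Finset.univ : Finset (W n)).image (low n) with hS
  have split : ∑ μ, ‖emb hs n η μ‖ ^ 2 =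
      ∑ μ ∈ Sᶜ, ‖emb hs n η μ‖ ^ 2 + scale n ^ 2 * ((n : ℝ) + 1) * ‖η‖ ^ 2 := by
    rw [← Finset.sum_compl_add_sum S, hS, Finset.sum_image fun a _ b _ h => low_injective n h]
    simp only [low, emb_num, op_incl, norm_smul, Complex.norm_real, Real.norm_eq_abs, mul_pow,
      sq_abs, ← Finset.mul_sum, sum_op_sq hs, mul_assoc]
  rw [← sq_le_sq₀ (norm_nonneg _) (mul_nonneg (scale_nonneg n) (norm_nonneg ξ)),
    PiLp.norm_sq_eq_of_L2, ← Finset.sum_compl_add_sum S,
    Finset.sum_eq_zero (s := S) (fun μ hμ => by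
      obtain ⟨a, -, rfl⟩ := Finset.mem_image.1 hμ
      simp [hin a]), add_zero,
    Finset.sum_congr rfl (g := fun μ => ‖emb hs n η μ‖ ^ 2) (fun μ hμ => by
      have : μ ∉ Set.range (low n) := fun ⟨a, ha⟩ => Finset.mem_compl.1 hμ
        (Finset.mem_image.2 ⟨a, Finset.mem_univ a, ha⟩)
      simp [ampl_pperm_not _ _ _ this])]
  have h1 : ∑ μ, ‖emb hs n η μ‖ ^ 2 = ‖η‖ ^ 2 := by
    rw [← PiLp.norm_sq_eq_of_L2, LinearIsometry.norm_map]
  have h2 : ‖η‖ ^ 2 ≤ ‖ξ‖ ^ 2 :=
    pow_le_pow_left₀ (norm_nonneg _) (norm_star_apply_le hs i ξ) 2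
  have h3 := mul_le_mul_of_nonneg_left h2 (sq_nonneg (scale n))
  have h4 := congrArg (· * ‖η‖ ^ 2) (scale_sq n)
  simp only [one_mul] at h4
  rw [mul_pow]
  linarith [split, h1, h3, h4]

/-- An operator intertwined by the compressions with matrices, at the rate of the truncation. -/
def Good (hs : Free.IsPair s) (x : H →L[ℂ] H) : Prop :=
  ∃ C : ℝ, 0 ≤ C ∧ ∀ n, ∃ Y : Matrix (Fin (dim n)) (Fin (dim n)) ℂ,
    (∀ z : PiLp 2 (fun _ : Fin (dim n) => H), ‖ampl Y z‖ ≤ C * ‖z‖ ∧ ‖ampl Yᴴ z‖ ≤ C * ‖z‖) ∧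
    (∀ ξ, ‖ampl Y (emb hs n ξ) - emb hs n (x ξ)‖ ≤ C * scale n * ‖ξ‖ ∧
      ‖ampl Yᴴ (emb hs n ξ) - emb hs n (star x ξ)‖ ≤ C * scale n * ‖ξ‖)

variable (hs : Free.IsPair s)

include hs

theorem good_star {x : H →L[ℂ] H} (hx : Good hs x) : Good hs (star x) := by
  obtain ⟨C, hC, h⟩ := hx
  refine ⟨C, hC, fun n => ?_⟩
  obtain ⟨Y, hb, he⟩ := h n
  refine ⟨Yᴴ, fun z => ?_, fun ξ => ?_⟩
  · rw [Matrix.conjTranspose_conjTranspose]; exact (hb z).symm
  · rw [Matrix.conjTranspose_conjTranspose, star_star]; exact (he ξ).symm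

theorem good_gen (i : Fin 2) : Good hs (s i) := by
  refine ⟨1, zero_le_one, fun n => ⟨pperm (up n i) (low n), fun z => ?_, fun ξ => ?_⟩⟩
  · rw [pperm_conjTranspose]
    exact ⟨by simpa using norm_ampl_pperm_le _ _ (up_injective n i) (low_injective n) z,
      by simpa using norm_ampl_pperm_le _ _ (low_injective n) (up_injective n i) z⟩
  · rw [pperm_conjTranspose, one_mul]
    exact ⟨norm_creation hs n i ξ, norm_annihilation hs n i ξ⟩

theorem good_algebraMap (r : ℂ) : Good hs (algebraMap ℂ (H →L[ℂ] H) r) := by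
  refine ⟨‖r‖, norm_nonneg r, fun n => ⟨algebraMap ℂ _ r, fun z => ?_, fun ξ => ?_⟩⟩ <;>
    rw [← Matrix.star_eq_conjTranspose, ← algebraMap_star_comm]
  · simp [ampl_algebraMap, norm_smul]
  · rw [← algebraMap_star_comm]
    have e : ∀ t : ℂ, algebraMap ℂ (H →L[ℂ] H) t ξ = t • ξ := fun t => by
      simp [Algebra.algebraMap_eq_smul_one]
    simp only [ampl_algebraMap, e, LinearIsometry.map_smul, sub_self, norm_zero, and_self]
    exact mul_nonneg (mul_nonneg (norm_nonneg r) (scale_nonneg n)) (norm_nonneg ξ)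

theorem good_add {x y : H →L[ℂ] H} (hx : Good hs x) (hy : Good hs y) : Good hs (x + y) := by
  obtain ⟨C, hC, h⟩ := hx
  obtain ⟨D, hD, h'⟩ := hy
  refine ⟨C + D, add_nonneg hC hD, fun n => ?_⟩
  obtain ⟨Y, hb, he⟩ := h n
  obtain ⟨Z, hb', he'⟩ := h' n
  refine ⟨Y + Z, fun z => ?_, fun ξ => ?_⟩
  · rw [Matrix.conjTranspose_add, ampl_add_left, ampl_add_left, add_mul]
    exact ⟨(norm_add_le _ _).trans (add_le_add (hb z).1 (hb' z).1),
      (norm_add_le _ _).trans (add_le_add (hb z).2 (hb' z).2)⟩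
  · rw [Matrix.conjTranspose_add, ampl_add_left, ampl_add_left, star_add,
      _root_.add_apply, _root_.add_apply, map_add, map_add,
      add_sub_add_comm, add_sub_add_comm, add_mul, add_mul]
    exact ⟨(norm_add_le _ _).trans (add_le_add (he ξ).1 (he' ξ).1),
      (norm_add_le _ _).trans (add_le_add (he ξ).2 (he' ξ).2)⟩

omit hs [CompleteSpace H] in
/-- Composition of two intertwinings. -/
theorem norm_comp_le {K : Type*} [SeminormedAddCommGroup K] (E : H → K) (a b : K → K)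
    (x y : H →L[ℂ] H) (ξ : H) {A t B : ℝ} (hA : 0 ≤ A) (ht : 0 ≤ t)
    (hsub : ∀ p q, a (p - q) = a p - a q) (ha : ∀ z, ‖a z‖ ≤ A * ‖z‖)
    (he : ∀ η, ‖a (E η) - E (x η)‖ ≤ A * t * ‖η‖) (he' : ‖b (E ξ) - E (y ξ)‖ ≤ B * t * ‖ξ‖) :
    ‖a (b (E ξ)) - E (x (y ξ))‖ ≤ (A * B + A * ‖y‖) * t * ‖ξ‖ := by
  calc ‖a (b (E ξ)) - E (x (y ξ))‖
      = ‖a (b (E ξ) - E (y ξ)) + (a (E (y ξ)) - E (x (y ξ)))‖ := by
        rw [hsub, sub_add_sub_cancel]
    _ ≤ A * ‖b (E ξ) - E (y ξ)‖ + A * t * ‖y ξ‖ :=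
        (norm_add_le _ _).trans (add_le_add (ha _) (he _))
    _ ≤ A * (B * t * ‖ξ‖) + A * t * (‖y‖ * ‖ξ‖) := by
        gcongr
        exact y.le_opNorm ξ
    _ = _ := by ring

theorem good_mul {x y : H →L[ℂ] H} (hx : Good hs x) (hy : Good hs y) : Good hs (x * y) := by
  obtain ⟨C, hC, h⟩ := hx
  obtain ⟨D, hD, h'⟩ := hy
  refine ⟨C * D + C * ‖y‖ + D * ‖x‖, by positivity, fun n => ?_⟩
  obtain ⟨Y, hb, he⟩ := h n
  obtain ⟨Z, hb', he'⟩ := h' n
  have k1 : C * D ≤ C * D + C * ‖y‖ + D * ‖x‖ := by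
    nlinarith [mul_nonneg hC (norm_nonneg y), mul_nonneg hD (norm_nonneg x)]
  have k2 : C * D + C * ‖y‖ ≤ C * D + C * ‖y‖ + D * ‖x‖ := by
    nlinarith [mul_nonneg hD (norm_nonneg x)]
  have k3 : D * C + D * ‖star x‖ ≤ C * D + C * ‖y‖ + D * ‖x‖ := by
    rw [norm_star]; nlinarith [mul_nonneg hC (norm_nonneg y)]
  have hn := scale_nonneg n
  refine ⟨Y * Z, fun z => ?_, fun ξ => ?_⟩
  · rw [Matrix.conjTranspose_mul, ampl_mul, ampl_mul]
    refine ⟨(hb _).1.trans ?_, (hb' _).2.trans ?_⟩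
    · calc C * ‖ampl Z z‖ ≤ C * (D * ‖z‖) := by gcongr; exact (hb' z).1
        _ ≤ _ := by rw [← mul_assoc]; gcongr
    · calc D * ‖ampl Yᴴ z‖ ≤ D * (C * ‖z‖) := by gcongr; exact (hb z).2
        _ ≤ _ := by rw [← mul_assoc, mul_comm D C]; gcongr
  · rw [Matrix.conjTranspose_mul, star_mul, ampl_mul, ampl_mul]
    refine ⟨(norm_comp_le (emb hs n) _ _ x y ξ hC hn (ampl_sub Y) (fun z => (hb z).1)
      (fun η => (he η).1) (he' ξ).1).trans ?_,
      (norm_comp_le (emb hs n) _ _ (star y) (star x) ξ hD hn (ampl_sub Zᴴ) (fun z => (hb' z).2)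
      (fun η => (he' η).2) (he ξ).2).trans ?_⟩ <;> gcongr

theorem good_of_mem {x : H →L[ℂ] H} (hx : x ∈ StarAlgebra.adjoin ℂ (Set.range s)) :
    Good hs x := by
  induction hx using StarAlgebra.adjoin_induction with
  | mem x hx => obtain ⟨i, rfl⟩ := hx; exact good_gen hs i
  | algebraMap r => exact good_algebraMap hs r
  | add x y _ _ hx hy => exact good_add hs hx hy
  | mul x y _ _ hx hy => exact good_mul hs hx hy
  | star x _ hx => exact good_star hs hx

end Compression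

theorem exists_scale_le {M η : ℝ} (hη : 0 < η) : ∃ n, M * scale n ≤ η := by
  obtain ⟨n, hn⟩ := exists_nat_ge ((M / η) ^ 2)
  refine ⟨n, ?_⟩
  rw [scale, ← div_eq_mul_inv, div_le_iff₀ (by positivity)]
  have h : |M / η| ≤ √((n : ℝ) + 2) := by
    rw [← Real.sqrt_sq_eq_abs]; exact Real.sqrt_le_sqrt (by linarith)
  calc M = η * (M / η) := by field_simp
    _ ≤ η * √((n : ℝ) + 2) := by gcongr; exact (le_abs_self _).trans h

end Fock

/-- Finitely many polynomials in a Cuntz pair are compressed to matrices up to any tolerance. -/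
theorem fock : FockSpec.{u} := by
  intro H _ _ _ s hs κ _ x hx η hη
  choose C hC hgood using fun a => Fock.good_of_mem hs (hx a)
  obtain ⟨n, hn⟩ := Fock.exists_scale_le (M := ∑ a, (C a + C a * C a + C a * ‖x a‖)) hη
  choose Y hb he using fun a => hgood a n
  refine ⟨Fock.dim n, Fock.emb hs n, Y, fun a ξ => ?_⟩
  have hn0 := Fock.scale_nonneg n
  have hpos : ∀ b, 0 ≤ C b + C b * C b + C b * ‖x b‖ := fun b =>
    add_nonneg (add_nonneg (hC b) (mul_nonneg (hC b) (hC b))) (mul_nonneg (hC b) (norm_nonneg _))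
  have hle : (C a + C a * C a + C a * ‖x a‖) * Fock.scale n * ‖ξ‖ ≤ η * ‖ξ‖ := by
    refine mul_le_mul_of_nonneg_right (le_trans ?_ hn) (norm_nonneg ξ)
    exact mul_le_mul_of_nonneg_right
      (Finset.single_le_sum (fun b _ => hpos b) (Finset.mem_univ a)) hn0
  have q1 := mul_nonneg (hC a) (hC a)
  have q2 := mul_nonneg (hC a) (norm_nonneg (x a))
  refine ⟨(he a ξ).1.trans (le_trans ?_ hle), ?_⟩
  · gcongr; linarith
  · rw [Fock.ampl_mul]
    refine (Fock.norm_comp_le (Fock.emb hs n) _ _ (star (x a)) (x a) ξ (hC a) hn0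
      (Fock.ampl_sub (Y a).conjTranspose) (fun z => (hb a z).2) (fun ζ => (he a ζ).2) (he a ξ).1).trans
      (le_trans ?_ hle)
    gcongr
    linarith [hC a]

end Vale.Agent.P083.Kirchberg
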