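import Mathlib

/-!
P083: a convolution on a finite abelian group is small on functions supported by characters with
large orbits.
-/

namespace Vale.Agent.P083.Kirchberg.Orbit

open Finset
open scoped ComplexConjugate

variable {G : Type*} [AddCommGroup G] [Fintype G]

/-- Fourier coefficient. -/
noncomputable def ft (f : G → ℂ) (χ : AddChar G ℂ) : ℂ := ∑ x, conj (χ x) * f x

theorem plancherel (f : G → ℂ) :
    ∑ χ : AddChar G ℂ, ‖ft f χ‖ ^ 2 = Fintype.card G * ∑ x, ‖f x‖ ^ 2 := by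
  classical
  have h : ∑ χ : AddChar G ℂ, ft f χ * conj (ft f χ) =
      (Fintype.card G : ℂ) * ∑ x, f x * conj (f x) := by
    simp only [ft, map_sum, map_mul, Complex.conj_conj, sum_mul_sum]
    rw [sum_comm, mul_sum]
    refine sum_congr rfl fun x _ => ?_
    rw [sum_comm]
    calc ∑ y, ∑ χ : AddChar G ℂ, conj (χ x) * f x * (χ y * conj (f y))
        = ∑ y, f x * conj (f y) * ∑ χ : AddChar G ℂ, χ (y + -x) := by
          refine sum_congr rfl fun y _ => ?_
          rw [mul_sum]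
          refine sum_congr rfl fun χ _ => ?_
          rw [AddChar.map_add_eq_mul, AddChar.map_neg_eq_conj]
          ring
      _ = _ := by
          simp only [AddChar.sum_apply_eq_ite, add_neg_eq_zero, mul_ite, mul_zero]
          rw [sum_ite_eq' univ x]
          simp [mul_comm]
  simp only [Complex.mul_conj'] at h
  exact_mod_cast h

theorem ft_conv (f e : G → ℂ) (χ : AddChar G ℂ) :
    ft (fun x => ∑ y, f (x - y) * e y) χ = ft f χ * ft e χ := by
  simp only [ft, mul_sum]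
  rw [sum_comm, sum_comm]
  rw [sum_comm]
  refine sum_congr rfl fun y _ => ?_
  rw [sum_mul]
  refine Fintype.sum_equiv (Equiv.subRight y) _ _ fun x => ?_
  simp only [Equiv.subRight_apply]
  conv_lhs => rw [← sub_add_cancel x y, AddChar.map_add_eq_mul, map_mul, sub_add_cancel]
  ring

theorem ft_comp (f : G → ℂ) (χ : AddChar G ℂ) (A : G →+ G) (hA : Function.Bijective A)
    (hf : ∀ x, f (A x) = f x) : ft f (χ.compAddMonoidHom A) = ft f χ := by
  refine Fintype.sum_bijective A hA _ _ fun x => ?_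
  rw [AddChar.compAddMonoidHom_apply, hf]

theorem conv_bound (f e : G → ℂ) (M : ℕ)
    (h : ∀ χ, ft e χ ≠ 0 → ∃ S : Finset (AddChar G ℂ), M ≤ #S ∧ ∀ ψ ∈ S, ft f ψ = ft f χ) :
    (∑ x, ‖∑ y, f (x - y) * e y‖ ^ 2) * M ≤
      (Fintype.card G * ∑ x, ‖f x‖ ^ 2) * ∑ x, ‖e x‖ ^ 2 := by
  have key : ∀ χ, ‖ft f χ * ft e χ‖ ^ 2 * M ≤
      (Fintype.card G * ∑ x, ‖f x‖ ^ 2) * ‖ft e χ‖ ^ 2 := fun χ => by
    rcases eq_or_ne (ft e χ) 0 with h0 | h0
    · simp [h0]
    obtain ⟨S, hS, hψ⟩ := h χ h0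
    rw [norm_mul, mul_pow, mul_right_comm]
    refine mul_le_mul_of_nonneg_right ?_ (sq_nonneg _)
    rw [← plancherel f]
    calc ‖ft f χ‖ ^ 2 * M ≤ ‖ft f χ‖ ^ 2 * #S := by gcongr
      _ = ∑ ψ ∈ S, ‖ft f ψ‖ ^ 2 := by
          rw [sum_congr rfl fun ψ hψS => by rw [hψ ψ hψS], sum_const, nsmul_eq_mul, mul_comm]
      _ ≤ _ := sum_le_univ_sum_of_nonneg fun ψ => sq_nonneg _
  have hsum := sum_le_sum fun χ (_ : χ ∈ (univ : Finset (AddChar G ℂ))) => key χ
  rw [← sum_mul, ← mul_sum, plancherel e] at hsum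
  simp only [← ft_conv] at hsum
  rw [plancherel] at hsum
  have hc : (0 : ℝ) < Fintype.card G := by exact_mod_cast Fintype.card_pos
  refine le_of_mul_le_mul_left ?_ hc
  linarith

end Vale.Agent.P083.Kirchberg.Orbit
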