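import Vale.Agent.P083.Kirchberg.Spec

/-!
P083: the robust spectral gap. Three abelian groups of order five whose pairs generate
Heisenberg groups have pairwise angle at most `5 ^ (-1/2) ≤ 9/20 < 1/2`, so the sum `L` of the
complementary averages satisfies `L ^ 2 ≥ L / 10`. Everything is done up to multiples of `ε`.
-/

namespace Vale.Agent.P083.Kirchberg

namespace Gap

open ComplexConjugate

/-! ## Nearness -/

section Near

variable {G : Type*} [NormedRing G] {ε C D M : ℝ} {a b c a' b' x : G}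

/-- Equal up to `C * ε`. -/
def Near (C ε : ℝ) (a b : G) : Prop := ‖a - b‖ ≤ C * ε

theorem Near.refl (hε : 0 ≤ ε) (hC : 0 ≤ C) (a : G) : Near C ε a a := by
  simpa [Near] using mul_nonneg hC hε

theorem Near.symm (h : Near C ε a b) : Near C ε b a := by
  rwa [Near, norm_sub_rev]

theorem Near.trans (h : Near C ε a b) (h' : Near D ε b c) : Near (C + D) ε a c := by
  refine (norm_sub_le_norm_sub_add_norm_sub a b c).trans ?_
  rw [add_mul]
  exact add_le_add h h'

theorem Near.mono (h : Near C ε a b) (hε : 0 ≤ ε) (hCD : C ≤ D) : Near D ε a b :=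
  le_trans h (mul_le_mul_of_nonneg_right hCD hε)

theorem Near.mul_left (h : Near C ε a b) (hx : ‖x‖ ≤ M) : Near (M * C) ε (x * a) (x * b) := by
  rw [Near, ← mul_sub, mul_assoc]
  exact (norm_mul_le _ _).trans (mul_le_mul hx h (norm_nonneg _) ((norm_nonneg _).trans hx))

theorem Near.mul_right (h : Near C ε a b) (hx : ‖x‖ ≤ M) : Near (C * M) ε (a * x) (b * x) := by
  rw [Near, ← sub_mul]
  refine (norm_mul_le _ _).trans ?_
  calc ‖a - b‖ * ‖x‖ ≤ (C * ε) * M :=
        mul_le_mul h hx (norm_nonneg _) ((norm_nonneg _).trans h)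
    _ = C * M * ε := by ring

theorem Near.sub (h : Near C ε a b) (h' : Near D ε a' b') :
    Near (C + D) ε (a - a') (b - b') := by
  rw [Near, sub_sub_sub_comm, add_mul]
  exact (norm_sub_le _ _).trans (add_le_add h h')

theorem Near.add (h : Near C ε a b) (h' : Near D ε a' b') :
    Near (C + D) ε (a + a') (b + b') := by
  rw [Near, add_sub_add_comm, add_mul]
  exact (norm_add_le _ _).trans (add_le_add h h')

end Near

/-! ## Averages over the field -/

section Avg

variable {G : Type*} [NormedRing G] [NormedAlgebra ℂ G] {ε C M : ℝ}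

/-- The average over `Fq`. -/
noncomputable def avg (u : Fq → G) : G := (5 : ℂ)⁻¹ • ∑ c : Fq, u c

theorem avg_mul (u : Fq → G) (a : G) : avg u * a = avg fun c => u c * a := by
  simp [avg, Finset.sum_mul]

theorem mul_avg (u : Fq → G) (a : G) : a * avg u = avg fun c => a * u c := by
  simp [avg, Finset.mul_sum]

theorem avg_congr_equiv (u : Fq → G) (e : Fq ≃ Fq) : (avg fun c => u (e c)) = avg u := by
  rw [avg, avg, Equiv.sum_comp e u]

theorem avg_comm (f : Fq → Fq → G) :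
    (avg fun c => avg fun d => f c d) = avg fun d => avg fun c => f c d := by
  simp only [avg, ← Finset.smul_sum]
  rw [Finset.sum_comm]

theorem avg_add (u w : Fq → G) : (avg fun c => u c + w c) = avg u + avg w := by
  simp [avg, Finset.sum_add_distrib, smul_add]

theorem avg_single (a : G) : (avg fun c : Fq => if c = 0 then a else 0) = (5 : ℂ)⁻¹ • a := by
  simp [avg]

theorem norm_avg_le (u : Fq → G) (h : ∀ c, ‖u c‖ ≤ M) : ‖avg u‖ ≤ M := by
  rw [avg, norm_smul]
  have hsum : ‖∑ c : Fq, u c‖ ≤ 5 * M := by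
    refine (norm_sum_le_of_le _ fun c _ => h c).trans ?_
    simp
  have h5 : ‖(5 : ℂ)⁻¹‖ = (5 : ℝ)⁻¹ := by simp
  rw [h5]
  linarith

theorem near_avg {u w : Fq → G} (h : ∀ c, Near C ε (u c) (w c)) :
    Near C ε (avg u) (avg w) := by
  have e : avg u - avg w = avg fun c => u c - w c := by
    simp [avg, Finset.sum_sub_distrib, smul_sub]
  rw [Near, e]
  exact norm_avg_le _ h

theorem Near.smul_fifth {a b : G} (h : Near C ε a b) :
    Near (C / 5) ε ((5 : ℂ)⁻¹ • a) ((5 : ℂ)⁻¹ • b) := by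
  rw [Near, ← smul_sub, norm_smul]
  have h5 : ‖(5 : ℂ)⁻¹‖ = (5 : ℝ)⁻¹ := by simp
  rw [h5, div_mul_eq_mul_div, div_eq_inv_mul]
  exact mul_le_mul_of_nonneg_left h (by norm_num)

end Avg

/-! ## Operators -/

variable {H : Type*} [NormedAddCommGroup H] [InnerProductSpace ℂ H] [CompleteSpace H]
  {ε : ℝ}


/-- The quadratic form of an operator. -/
noncomputable def qf (ξ : H) (T : (H →L[ℂ] H)) : ℝ := (inner ℂ ξ (T ξ)).re

theorem re_inner_apply (ξ : H) (A B : (H →L[ℂ] H)) :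
    (inner ℂ (A ξ) (B ξ)).re = qf ξ (star A * B) := by
  simp [qf, ContinuousLinearMap.star_eq_adjoint, ContinuousLinearMap.adjoint_inner_right]

theorem norm_sq_apply (ξ : H) (A : (H →L[ℂ] H)) : ‖A ξ‖ ^ 2 = qf ξ (star A * A) := by
  rw [← re_inner_apply]
  exact @norm_sq_eq_re_inner ℂ H _ _ _ (A ξ)

omit [CompleteSpace H] in
theorem qf_sub (ξ : H) (S T : (H →L[ℂ] H)) : qf ξ (S - T) = qf ξ S - qf ξ T := by
  simp [qf]

omit [CompleteSpace H] in
theorem qf_add (ξ : H) (S T : (H →L[ℂ] H)) : qf ξ (S + T) = qf ξ S + qf ξ T := by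
  simp [qf]

omit [CompleteSpace H] in
theorem qf_smul_real (ξ : H) (r : ℝ) (T : (H →L[ℂ] H)) : qf ξ ((r : ℂ) • T) = r * qf ξ T := by
  simp [qf, -RCLike.ofReal_real_eq_id]

omit [CompleteSpace H] in
theorem qf_le (ξ : H) (T : (H →L[ℂ] H)) : |qf ξ T| ≤ ‖T‖ * ‖ξ‖ ^ 2 := by
  refine (Complex.abs_re_le_norm _).trans ((norm_inner_le_norm _ _).trans ?_)
  calc ‖ξ‖ * ‖T ξ‖ ≤ ‖ξ‖ * (‖T‖ * ‖ξ‖) :=
        mul_le_mul_of_nonneg_left (T.le_opNorm ξ) (norm_nonneg _)
    _ = ‖T‖ * ‖ξ‖ ^ 2 := by ring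

omit [CompleteSpace H] in
theorem qf_near {C : ℝ} {S T : (H →L[ℂ] H)} (h : Near C ε S T) (ξ : H) :
    |qf ξ S - qf ξ T| ≤ C * ε * ‖ξ‖ ^ 2 := by
  rw [← qf_sub]
  exact (qf_le ξ _).trans (mul_le_mul_of_nonneg_right h (sq_nonneg _))

/-- A projection up to `C * ε` has norm at most `1 + C * ε`. -/
theorem norm_le_of_proj {C : ℝ} {a : (H →L[ℂ] H)} (h : Near C ε (star a * a) a) : ‖a‖ ≤ 1 + C * ε := by
  have h1 : ‖a‖ * ‖a‖ ≤ ‖a‖ + C * ε := by
    rw [← CStarRing.norm_star_mul_self]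
    calc ‖star a * a‖ = ‖(star a * a - a) + a‖ := by rw [sub_add_cancel]
      _ ≤ ‖star a * a - a‖ + ‖a‖ := norm_add_le _ _
      _ ≤ C * ε + ‖a‖ := by
          have h2 : ‖star a * a - a‖ ≤ C * ε := h
          linarith
      _ = ‖a‖ + C * ε := by ring
  have h0 : 0 ≤ C * ε := le_trans (norm_nonneg _) h
  nlinarith

/-- A group of order five, up to `ε`. -/
structure Grp (u : Fq → (H →L[ℂ] H)) (M ε : ℝ) : Prop where
  eps : 0 ≤ ε
  nle : ∀ c, ‖u c‖ ≤ M
  st : ∀ c, Near 1 ε (star (u c)) (u (-c))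
  zero : Near 1 ε (u 0) 1
  add : ∀ c d, Near 1 ε (u c * u d) (u (c + d))

namespace Grp

variable {u : Fq → (H →L[ℂ] H)} {M : ℝ} (hu : Grp u M ε)
include hu

theorem norm_avg : ‖avg u‖ ≤ M := norm_avg_le _ hu.nle

theorem mul_p (c : Fq) : Near 1 ε (u c * avg u) (avg u) := by
  rw [mul_avg]
  conv => arg 4; rw [← avg_congr_equiv u (Equiv.addLeft c)]
  exact near_avg fun d => hu.add c d

theorem p_mul (c : Fq) : Near 1 ε (avg u * u c) (avg u) := by
  rw [avg_mul]
  conv => arg 4; rw [← avg_congr_equiv u (Equiv.addRight c)]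
  exact near_avg fun d => hu.add d c

theorem idem : Near 1 ε (avg u * avg u) (avg u) := by
  rw [avg_mul]
  have h := near_avg (fun c => hu.mul_p c)
  have e : (avg fun _ : Fq => avg u) = avg u := by
    conv_lhs => rw [avg]
    simp [Finset.card_univ, ← Nat.cast_smul_eq_nsmul ℂ, smul_smul]
  rwa [e] at h

theorem star_p : Near 1 ε (star (avg u)) (avg u) := by
  have e : star (avg u) = avg fun c => star (u c) := by
    simp [avg, star_smul, star_sum]
  rw [e]
  conv => arg 4; rw [← avg_congr_equiv u (Equiv.neg Fq)]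
  exact near_avg fun c => hu.st c

theorem star_p_mul : Near (M + 1) ε (star (avg u) * avg u) (avg u) :=
  ((hu.star_p.mul_right hu.norm_avg).trans hu.idem).mono hu.eps (by linarith)

theorem norm_p : ‖avg u‖ ≤ 1 + (M + 1) * ε := norm_le_of_proj hu.star_p_mul

theorem star_one_sub : Near (M + 2) ε (star (1 - avg u) * (1 - avg u)) (1 - avg u) := by
  have e : star (1 - avg u) * (1 - avg u) =
      1 - avg u - star (avg u) + star (avg u) * avg u := by
    rw [star_sub, star_one]; noncomm_ring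
  have h := ((Near.refl hu.eps le_rfl (1 - avg u)).sub hu.star_p).add hu.star_p_mul
  rw [← e, sub_add_cancel] at h
  exact h.mono hu.eps (by linarith)

theorem norm_one_sub : ‖1 - avg u‖ ≤ 1 + (M + 2) * ε := norm_le_of_proj hu.star_one_sub

end Grp

/-- A Heisenberg pair, up to `ε`. -/
structure Pair (u v z : Fq → (H →L[ℂ] H)) (ε : ℝ) : Prop where
  gu : Grp u 2 ε
  gv : Grp v 2 ε
  gz : Grp z 16 ε
  cu : ∀ c d, Near 1 ε (z c * u d) (u d * z c)
  cv : ∀ c d, Near 1 ε (z c * v d) (v d * z c)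
  heis : ∀ c d, Near 1 ε (u c * v d) (z (c * d) * (v d * u c))

namespace Pair

variable {u v z : Fq → (H →L[ℂ] H)} (h : Pair u v z ε)
include h

theorem eps : 0 ≤ ε := h.gu.eps

theorem comm_p : Near 1 ε (avg z * avg u) (avg u * avg z) := by
  have e1 : avg z * avg u = avg fun c => avg fun d => z c * u d := by
    rw [avg_mul]; simp only [mul_avg]
  have e2 : avg u * avg z = avg fun c => avg fun d => u d * z c := by
    rw [mul_avg]; simp only [avg_mul]
  rw [e1, e2]
  exact near_avg fun c => near_avg fun d => h.cu c d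

theorem comm_r : Near 1 ε (avg z * avg v) (avg v * avg z) := by
  have e1 : avg z * avg v = avg fun c => avg fun d => z c * v d := by
    rw [avg_mul]; simp only [mul_avg]
  have e2 : avg v * avg z = avg fun c => avg fun d => v d * z c := by
    rw [mul_avg]; simp only [avg_mul]
  rw [e1, e2]
  exact near_avg fun c => near_avg fun d => h.cv c d

theorem swap : Near 1 ε (avg u * avg v)
    (avg fun c => avg fun d => z (c * d) * (v d * u c)) := by
  have e1 : avg u * avg v = avg fun c => avg fun d => u c * v d := by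
    rw [avg_mul]; simp only [mul_avg]
  rw [e1]
  exact near_avg fun c => near_avg fun d => h.heis c d

theorem norm_vu (c d : Fq) : ‖v d * u c‖ ≤ 4 := by
  refine (norm_mul_le _ _).trans ?_
  calc ‖v d‖ * ‖u c‖ ≤ 2 * 2 := mul_le_mul (h.gv.nle d) (h.gu.nle c) (norm_nonneg _) (by norm_num)
    _ = 4 := by norm_num

/-- On the central average the two averages commute. -/
theorem central : Near 20 ε (avg z * (avg u * avg v)) (avg z * (avg v * avg u)) := by
  have h1 := h.swap.mul_left h.gz.norm_avg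
  have e1 : avg z * (avg fun c => avg fun d => z (c * d) * (v d * u c)) =
      avg fun c => avg fun d => (avg z * z (c * d)) * (v d * u c) := by
    simp only [mul_avg, mul_assoc]
  have e2 : avg z * (avg v * avg u) = avg fun c => avg fun d => avg z * (v d * u c) := by
    rw [mul_avg u (avg v)]
    simp only [mul_avg, avg_mul v]
  have h2 : Near (1 * 4) ε
      (avg fun c => avg fun d => (avg z * z (c * d)) * (v d * u c))
      (avg fun c => avg fun d => avg z * (v d * u c)) :=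
    near_avg fun c => near_avg fun d => (h.gz.p_mul _).mul_right (h.norm_vu c d)
  rw [← e1, ← e2] at h2
  exact (h1.trans h2).mono h.eps (by norm_num)

/-- The product of the three averages. -/
theorem prp : Near 200 ε (avg u * avg v * avg u)
    (avg z * (avg v * avg u) + (5 : ℂ)⁻¹ • (avg u - avg z * avg u)) := by
  set p := avg u with hp
  have hpn : ‖p‖ ≤ 2 := h.gu.norm_avg
  have h1 := h.swap.mul_right hpn
  have h2 : Near 64 ε ((avg fun c => avg fun d => z (c * d) * (v d * u c)) * p)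
      ((avg fun c => avg fun d => z (c * d) * v d) * p) := by
    simp only [avg_mul]
    refine near_avg fun c => near_avg fun d => ?_
    have e : z (c * d) * (v d * u c) * p = z (c * d) * v d * (u c * p) := by
      simp only [mul_assoc]
    have hz : ‖z (c * d) * v d‖ ≤ 32 := by
      refine (norm_mul_le _ _).trans ?_
      calc ‖z (c * d)‖ * ‖v d‖ ≤ 16 * 2 :=
            mul_le_mul (h.gz.nle _) (h.gv.nle d) (norm_nonneg _) (by norm_num)
        _ = 32 := by norm_num
    rw [e]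
    exact ((h.gu.mul_p c).mul_left hz).mono h.eps (by norm_num)
  have e3 : (avg fun c => avg fun d => z (c * d) * v d) =
      avg z * avg v + (5 : ℂ)⁻¹ • ((z 0 - avg z) * v 0) := by
    have hd : ∀ d, (avg fun c => z (c * d) * v d) =
        avg z * v d + if d = 0 then (z 0 - avg z) * v 0 else 0 := by
      intro d
      rw [← avg_mul]
      by_cases hd : d = 0
      · subst hd
        have e : (avg fun _ : Fq => z 0) = z 0 := by
          simp [avg, Finset.card_univ, ← Nat.cast_smul_eq_nsmul ℂ, smul_smul]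
        simp [e, sub_mul]
      · rw [if_neg hd, add_zero]
        have e : (avg fun c => z (c * d)) = avg z := avg_congr_equiv z (Equiv.mulRight₀ d hd)
        rw [e]
    rw [avg_comm]
    simp only [hd]
    rw [avg_add, avg_single, mul_avg]
  have h4 : Near 34 ε ((z 0 - avg z) * v 0) (1 - avg z) := by
    have hn : ‖z 0 - avg z‖ ≤ 32 :=
      (norm_sub_le _ _).trans (by linarith [h.gz.nle 0, h.gz.norm_avg])
    have a := h.gv.zero.mul_left hn
    rw [mul_one] at a
    exact (a.trans (h.gz.zero.sub (Near.refl h.eps le_rfl (avg z)))).mono h.eps (by norm_num)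
  have h5 : Near 20 ε ((avg fun c => avg fun d => z (c * d) * v d) * p)
      (avg z * (avg v * p) + (5 : ℂ)⁻¹ • (p - avg z * p)) := by
    have a := ((Near.refl h.eps le_rfl (avg z * avg v)).add h4.smul_fifth).mul_right hpn
    rw [← e3] at a
    have e : (avg z * avg v + (5 : ℂ)⁻¹ • (1 - avg z)) * p =
        avg z * (avg v * p) + (5 : ℂ)⁻¹ • (p - avg z * p) := by
      rw [add_mul, smul_mul_assoc, sub_mul, one_mul, mul_assoc]
    rw [e] at a
    exact a.mono h.eps (by norm_num)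
  exact (h1.trans (h2.trans h5)).mono h.eps (by norm_num)

/-- The projection on the vectors fixed by both groups. -/
noncomputable def Q (_h : Pair u v z ε) : (H →L[ℂ] H) := avg z * (avg v * avg u)

theorem norm_Q : ‖h.Q‖ ≤ 64 := by
  refine (norm_mul_le _ _).trans ?_
  calc ‖avg z‖ * ‖avg v * avg u‖ ≤ 16 * (2 * 2) :=
        mul_le_mul h.gz.norm_avg ((norm_mul_le _ _).trans
          (mul_le_mul h.gv.norm_avg h.gu.norm_avg (norm_nonneg _) (by norm_num)))
          (norm_nonneg _) (by norm_num)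
    _ = 64 := by norm_num

theorem norm_pr : ‖avg u * avg v‖ ≤ 4 := by
  refine (norm_mul_le _ _).trans ?_
  calc ‖avg u‖ * ‖avg v‖ ≤ 2 * 2 :=
        mul_le_mul h.gu.norm_avg h.gv.norm_avg (norm_nonneg _) (by norm_num)
    _ = 4 := by norm_num

theorem norm_rp : ‖avg v * avg u‖ ≤ 4 := by
  refine (norm_mul_le _ _).trans ?_
  calc ‖avg v‖ * ‖avg u‖ ≤ 2 * 2 :=
        mul_le_mul h.gv.norm_avg h.gu.norm_avg (norm_nonneg _) (by norm_num)
    _ = 4 := by norm_num

theorem norm_cp : ‖avg z * avg u‖ ≤ 32 := by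
  refine (norm_mul_le _ _).trans ?_
  calc ‖avg z‖ * ‖avg u‖ ≤ 16 * 2 :=
        mul_le_mul h.gz.norm_avg h.gu.norm_avg (norm_nonneg _) (by norm_num)
    _ = 32 := by norm_num

theorem Q_p : Near 1000 ε (h.Q * avg u) h.Q := by
  have a := (h.gu.idem.mul_left h.gv.norm_avg).mul_left h.gz.norm_avg
  have e : h.Q * avg u = avg z * (avg v * (avg u * avg u)) := by
    simp only [Q, mul_assoc]
  rw [e]
  exact a.mono h.eps (by norm_num)

theorem p_Q : Near 10000 ε (avg u * h.Q) h.Q := by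
  have a := (h.comm_p.symm.mul_right h.norm_rp)
  have b := (h.central.mul_right h.gu.norm_avg)
  have e1 : avg u * h.Q = avg u * avg z * (avg v * avg u) := by simp only [Q, mul_assoc]
  have e2 : avg z * avg u * (avg v * avg u) = avg z * (avg u * avg v) * avg u := by
    simp only [mul_assoc]
  rw [e2] at a
  rw [e1]
  exact ((a.trans b).trans h.Q_p).mono h.eps (by norm_num)

theorem r_Q : Near 10000 ε (avg v * h.Q) h.Q := by
  have b := (h.gv.idem.mul_right h.gu.norm_avg).mul_left h.gz.norm_avg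
  have c := (h.comm_r.symm.mul_right h.norm_rp)
  have e2 : avg v * avg z * (avg v * avg u) = avg v * h.Q := by simp only [Q, mul_assoc]
  have e3 : avg z * avg v * (avg v * avg u) = avg z * (avg v * avg v * avg u) := by
    simp only [mul_assoc]
  rw [e2, e3] at c
  exact (c.trans b).mono h.eps (by norm_num)

theorem Q_r : Near 10000 ε (h.Q * avg v) h.Q := by
  have a := h.central.symm.mul_right h.gv.norm_avg
  have b := (h.gv.idem.mul_left h.gu.norm_avg).mul_left h.gz.norm_avg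
  have e : avg z * (avg u * avg v) * avg v = avg z * (avg u * (avg v * avg v)) := by
    simp only [mul_assoc]
  rw [e] at a
  exact ((a.trans b).trans h.central).mono h.eps (by norm_num)

theorem c_Q : Near 1000 ε (avg z * h.Q) h.Q := by
  have a := h.gz.idem.mul_right h.norm_rp
  have e : avg z * avg z * (avg v * avg u) = avg z * h.Q := by simp only [Q, mul_assoc]
  rw [e] at a
  exact a.mono h.eps (by norm_num)

theorem Q_c : Near 1000 ε (h.Q * avg z) h.Q := by
  have a := (h.comm_p.symm.mul_left h.gv.norm_avg).mul_left h.gz.norm_avg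
  have b := (h.comm_r.symm.mul_right h.gu.norm_avg).mul_left h.gz.norm_avg
  have c := h.gz.idem.mul_right h.norm_rp
  have e1 : h.Q * avg z = avg z * (avg v * (avg u * avg z)) := by simp only [Q, mul_assoc]
  have e2 : avg z * (avg v * avg z * avg u) = avg z * (avg v * (avg z * avg u)) := by
    simp only [mul_assoc]
  have e3 : avg z * (avg z * avg v * avg u) = avg z * avg z * (avg v * avg u) := by
    simp only [mul_assoc]
  rw [e2, e3] at b
  rw [e1]
  exact ((a.trans b).trans c).mono h.eps (by norm_num)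

theorem Q_Q : Near 1000000 ε (h.Q * h.Q) h.Q := by
  have a := (h.p_Q.mul_left h.gv.norm_avg).mul_left h.gz.norm_avg
  have b := h.r_Q.mul_left h.gz.norm_avg
  have e : h.Q * h.Q = avg z * (avg v * (avg u * h.Q)) := by simp only [Q, mul_assoc]
  rw [e]
  exact ((a.trans b).trans h.c_Q).mono h.eps (by norm_num)

theorem star_Q : Near 10000 ε (star h.Q) h.Q := by
  have hsv : ‖star (avg v)‖ ≤ 2 := by rw [norm_star]; exact h.gv.norm_avg
  have hsz : ‖star (avg z)‖ ≤ 16 := by rw [norm_star]; exact h.gz.norm_avg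
  have a := (h.gu.star_p.mul_right hsv).mul_right hsz
  have b := (h.gv.star_p.mul_left h.gu.norm_avg).mul_right hsz
  have c := h.gz.star_p.mul_left h.norm_pr
  have d := h.comm_r.symm.mul_left h.gu.norm_avg
  have e := h.comm_p.symm.mul_right h.gv.norm_avg
  have e1 : star h.Q = star (avg u) * star (avg v) * star (avg z) := by
    simp only [Q, star_mul]
  have e2 : avg u * avg v * avg z = avg u * (avg v * avg z) := by simp only [mul_assoc]
  have e3 : avg u * (avg z * avg v) = avg u * avg z * avg v := by simp only [mul_assoc]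
  have e4 : avg z * avg u * avg v = avg z * (avg u * avg v) := by simp only [mul_assoc]
  rw [e1]
  rw [e2] at c
  rw [e3] at d
  rw [e4] at e
  exact (((((a.trans b).trans c).trans d).trans e).trans h.central).mono h.eps (by norm_num)

/-- Products of compressed operators. -/
theorem sub_prod {x x' y : (H →L[ℂ] H)} (hs : Near 1000000 ε (star x) x') (hy : ‖y‖ ≤ 64)
    (hxQ : Near 1000000 ε (x' * h.Q) h.Q) (hQy : Near 1000000 ε (h.Q * y) h.Q) :
    Near 1000000000 ε (star (x - h.Q) * (y - h.Q)) (x' * y - h.Q) := by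
  have hn : ‖y - h.Q‖ ≤ 128 := (norm_sub_le _ _).trans (by linarith [h.norm_Q])
  have a := (hs.sub h.star_Q).mul_right hn
  rw [← star_sub] at a
  have e1 : (x' - h.Q) * (y - h.Q) = x' * y - x' * h.Q - h.Q * y + h.Q * h.Q := by noncomm_ring
  have b := (((Near.refl h.eps le_rfl (x' * y)).sub hxQ).sub hQy).add h.Q_Q
  rw [sub_add_cancel, ← e1] at b
  exact (a.trans b).mono h.eps (by norm_num)

/-- The angle between the two fixed spaces is at most `9 / 20`. -/
theorem angle (ξ : H) :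
    -(9 / 40 : ℝ) * (‖(1 - avg u) ξ‖ ^ 2 + ‖(1 - avg v) ξ‖ ^ 2)
        - 10 ^ 12 * ε * ‖ξ‖ ^ 2 ≤
      (inner ℂ ((1 - avg u) ξ) ((1 - avg v) ξ)).re := by
  set p := avg u with hp
  set r := avg v with hr
  set w := avg z with hw
  set Q := h.Q with hQ
  have hε := h.eps
  have hp2 : ‖p‖ ≤ 64 := h.gu.norm_avg.trans (by norm_num)
  have hr2 : ‖r‖ ≤ 64 := h.gv.norm_avg.trans (by norm_num)
  have h1 : ‖(1 : (H →L[ℂ] H))‖ ≤ 64 := ContinuousLinearMap.norm_id_le.trans (by norm_num)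
  have sp : Near 1000000 ε (star p) p := h.gu.star_p.mono hε (by norm_num)
  have sr : Near 1000000 ε (star r) r := h.gv.star_p.mono hε (by norm_num)
  have pQ : Near 1000000 ε (p * Q) Q := h.p_Q.mono hε (by norm_num)
  have rQ : Near 1000000 ε (r * Q) Q := h.r_Q.mono hε (by norm_num)
  have Qp : Near 1000000 ε (Q * p) Q := h.Q_p.mono hε (by norm_num)
  have Qr : Near 1000000 ε (Q * r) Q := h.Q_r.mono hε (by norm_num)
  have Q1 : Near 1000000 ε (Q * 1) Q := by
    rw [mul_one]; exact Near.refl hε (by norm_num) _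
  have Qrp : Near 1000000 ε (Q * (r * p)) Q := by
    rw [← mul_assoc]
    exact ((h.Q_r.mul_right h.gu.norm_avg).trans h.Q_p).mono hε (by norm_num)
  have prQ : Near 1000000 ε (p * r * Q) Q := by
    rw [mul_assoc]
    exact ((h.r_Q.mul_left h.gu.norm_avg).trans h.p_Q).mono hε (by norm_num)
  have srp : Near 1000000 ε (star (r * p)) (p * r) := by
    rw [star_mul]
    have hsv : ‖star (avg v)‖ ≤ 2 := by rw [norm_star]; exact h.gv.norm_avg
    exact ((h.gu.star_p.mul_right hsv).trans (h.gv.star_p.mul_left h.gu.norm_avg)).mono hε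
      (by norm_num)
  have hwp : ‖w * p‖ ≤ 64 := h.norm_cp.trans (by norm_num)
  have swp : Near 1000000 ε (star (w * p)) (w * p) := by
    rw [star_mul]
    have hsz : ‖star (avg z)‖ ≤ 16 := by rw [norm_star]; exact h.gz.norm_avg
    exact (((h.gu.star_p.mul_right hsz).trans (h.gz.star_p.mul_left h.gu.norm_avg)).trans
      h.comm_p.symm).mono hε (by norm_num)
  have wpQ : Near 1000000 ε (w * p * Q) Q := by
    rw [mul_assoc]
    exact ((h.p_Q.mul_left h.gz.norm_avg).trans h.c_Q).mono hε (by norm_num)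
  have Qwp : Near 1000000 ε (Q * (w * p)) Q := by
    rw [← mul_assoc]
    exact ((h.Q_c.mul_right h.gu.norm_avg).trans h.Q_p).mono hε (by norm_num)
  have pp : Near 10 ε (p * p) p := h.gu.idem.mono hε (by norm_num)
  have rr : Near 10 ε (r * r) r := h.gv.idem.mono hε (by norm_num)
  have rrp : Near 10 ε (r * (r * p)) (r * p) := by
    rw [← mul_assoc]; exact (h.gv.idem.mul_right h.gu.norm_avg).mono hε (by norm_num)
  have wpwp : Near 1000 ε (w * p * (w * p)) (w * p) := by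
    have a := (h.comm_p.symm.mul_left h.gz.norm_avg).mul_right h.gu.norm_avg
    have b := h.gu.idem.mul_left (x := w * w) (M := 256)
      ((norm_mul_le _ _).trans (by
        calc ‖w‖ * ‖w‖ ≤ 16 * 16 :=
              mul_le_mul h.gz.norm_avg h.gz.norm_avg (norm_nonneg _) (by norm_num)
          _ = 256 := by norm_num))
    have c := h.gz.idem.mul_right h.gu.norm_avg
    have e1 : w * (p * w) * p = w * p * (w * p) := by simp only [mul_assoc]
    have e2 : w * (w * p) * p = w * w * (p * p) := by simp only [mul_assoc]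
    rw [e1, e2] at a
    exact ((a.trans b).trans c).mono hε (by norm_num)
  -- the operators whose values at `ξ` are compared
  have bd := fun {C : ℝ} {S T : (H →L[ℂ] H)} (hST : Near C ε S T) => abs_le.1 (qf_near hST ξ)
  have E_pp := bd ((h.sub_prod sp hp2 pQ Qp).trans (pp.sub (Near.refl hε le_rfl Q)))
  have E_rr := bd ((h.sub_prod sr hr2 rQ Qr).trans (rr.sub (Near.refl hε le_rfl Q)))
  have E_p1 := bd (h.sub_prod sp h1 pQ Q1)
  have E_r1 := bd (h.sub_prod sr h1 rQ Q1)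
  have E_rp := bd (h.sub_prod sr hp2 rQ Qp)
  have E_rc := bd ((h.sub_prod sr (h.norm_rp.trans (by norm_num)) rQ Qrp).trans
    (rrp.sub (Near.refl hε le_rfl Q)))
  have E_cc := bd (h.sub_prod srp
    (h.norm_rp.trans (by norm_num)) prQ Qrp)
  have E_dd := bd ((h.sub_prod swp hwp wpQ Qwp).trans (wpwp.sub (Near.refl hε le_rfl Q)))
  have E_prp := bd h.prp
  have e_prp : p * r * (r * p) = p * (r * r) * p := by simp only [mul_assoc]
  have E_prrp := bd ((rr.mul_left h.gu.norm_avg).mul_right h.gu.norm_avg)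
  rw [← e_prp] at E_prrp
  rw [mul_one] at E_p1 E_r1
  have e5 : ((5 : ℂ)⁻¹ : ℂ) = (((1 / 5 : ℝ)) : ℂ) := by push_cast; norm_num
  simp only [← hp, ← hr, ← hw, ← hQ] at E_pp E_rr E_p1 E_r1 E_rp E_rc E_cc E_dd E_prp E_prrp
  have Q_eq : w * (r * p) = Q := rfl
  simp only [Q_eq, e5, qf_add, qf_sub, qf_smul_real] at E_pp E_rr E_p1 E_r1 E_rp E_rc E_cc E_dd E_prp E_prrp
  simp only [← norm_sq_apply, sub_apply] at E_pp E_rr E_cc E_dd
  simp only [← re_inner_apply, sub_apply, one_apply_eq_self]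
    at E_p1 E_r1 E_rp E_rc
  set η := ξ - Q ξ with hη
  set a := p ξ - Q ξ with ha
  set b := r ξ - Q ξ with hb
  set c := (r * p) ξ - Q ξ with hc
  set d := (w * p) ξ - Q ξ with hd
  have cs : (inner ℂ b c).re ≤ (20 / 9 * ‖c‖ ^ 2 + 9 / 20 * ‖b‖ ^ 2) / 2 := by
    have h2 : (inner ℂ b c).re ≤ ‖b‖ * ‖c‖ :=
      (le_abs_self _).trans ((Complex.abs_re_le_norm _).trans (norm_inner_le_norm _ _))
    nlinarith [sq_nonneg (20 * ‖c‖ - 9 * ‖b‖)]
  have i1 : (inner ℂ η a).re = (inner ℂ a η).re := by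
    rw [← inner_conj_symm, Complex.conj_re]
  have i2 : (inner ℂ η b).re = (inner ℂ b η).re := by
    rw [← inner_conj_symm, Complex.conj_re]
  have i3 : (inner ℂ a b).re = (inner ℂ b a).re := by
    rw [← inner_conj_symm, Complex.conj_re]
  have n1 : ‖η - a‖ ^ 2 = ‖η‖ ^ 2 - 2 * (inner ℂ η a).re + ‖a‖ ^ 2 :=
    @norm_sub_sq ℂ H _ _ _ η a
  have n2 : ‖η - b‖ ^ 2 = ‖η‖ ^ 2 - 2 * (inner ℂ η b).re + ‖b‖ ^ 2 :=
    @norm_sub_sq ℂ H _ _ _ η b
  have n3 : (inner ℂ (η - a) (η - b)).re =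
      ‖η‖ ^ 2 - (inner ℂ η b).re - (inner ℂ a η).re + (inner ℂ a b).re := by
    have e : (inner ℂ η η).re = ‖η‖ ^ 2 := (@norm_sq_eq_re_inner ℂ H _ _ _ η).symm
    simp only [inner_sub_left, inner_sub_right, Complex.sub_re, e]
    ring
  have sq : 0 ≤ (29 / 20 : ℝ) ^ 2 * ‖η‖ ^ 2 - 29 / 10 * ((inner ℂ η a).re + (inner ℂ η b).re)
      + (‖a‖ ^ 2 + 2 * (inner ℂ a b).re + ‖b‖ ^ 2) := by
    have h0 := sq_nonneg ‖((29 / 20 : ℝ) : ℂ) • η - (a + b)‖
    have e1 : ‖((29 / 20 : ℝ) : ℂ) • η - (a + b)‖ ^ 2 =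
        ‖((29 / 20 : ℝ) : ℂ) • η‖ ^ 2
          - 2 * (inner ℂ (((29 / 20 : ℝ) : ℂ) • η) (a + b)).re + ‖a + b‖ ^ 2 :=
      @norm_sub_sq ℂ H _ _ _ _ _
    have e2 : ‖a + b‖ ^ 2 = ‖a‖ ^ 2 + 2 * (inner ℂ a b).re + ‖b‖ ^ 2 :=
      @norm_add_sq ℂ H _ _ _ a b
    rw [e1, e2, norm_smul, Complex.norm_real, inner_smul_left, inner_add_right,
      Complex.conj_ofReal, Complex.re_ofReal_mul, Complex.add_re, Real.norm_eq_abs,
      mul_pow, sq_abs] at h0
    linarith
  have hd0 : 0 ≤ ‖d‖ ^ 2 := sq_nonneg _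
  have hξ : 0 ≤ ε * ‖ξ‖ ^ 2 := mul_nonneg hε (sq_nonneg _)
  rw [show (1 - p) ξ = η - a by simp [hη, ha], show (1 - r) ξ = η - b by simp [hη, hb]]
  rw [n1, n2, n3]
  linarith [sq_nonneg ‖a‖, cs, sq, hd0, hξ, E_pp.1, E_pp.2, E_rr.1, E_rr.2, E_p1.1,
    E_p1.2, E_r1.1, E_r1.2, E_rp.1, E_rp.2, E_rc.1, E_rc.2, E_cc.1, E_cc.2, E_dd.1, E_dd.2,
    E_prp.1, E_prp.2, E_prrp.1, E_prrp.2]

end Pair

/-! ## The Laplacian -/

section Lap

omit [CompleteSpace H] in
theorem norm_weval_two {f : Letter → (H →L[ℂ] H)} (hf : ∀ l, ‖f l‖ ≤ 2) (a b c d : Letter) :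
    ‖weval f [a, b, c, d]‖ ≤ 16 := by
  have e : weval f [a, b, c, d] = f a * (f b * (f c * f d)) := by simp [weval]
  rw [e]
  have h1 : ‖f c * f d‖ ≤ 4 := (norm_mul_le _ _).trans
    ((mul_le_mul (hf c) (hf d) (norm_nonneg _) (by norm_num)).trans (by norm_num))
  have h2 : ‖f b * (f c * f d)‖ ≤ 8 := (norm_mul_le _ _).trans
    ((mul_le_mul (hf b) h1 (norm_nonneg _) (by norm_num)).trans (by norm_num))
  exact (norm_mul_le _ _).trans
    ((mul_le_mul (hf a) h2 (norm_nonneg _) (by norm_num)).trans (by norm_num))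

variable {u : Letter → (H →L[ℂ] H)} (h : Approx u ε)
include h

theorem norm_cword (i : Fin 3) (c : Fq) : ‖weval u (cword i c)‖ ≤ 16 := by
  fin_cases i <;> exact norm_weval_two h.norm_le _ _ _ _

theorem eps_nonneg : 0 ≤ ε := le_trans (norm_nonneg _) (h.zero 0)

theorem grp (i : Fin 3) : Grp (fun c => u (i, c)) 2 ε where
  eps := eps_nonneg h
  nle c := h.norm_le _
  st c := by simpa [Near] using h.star_eq i c
  zero := by simpa [Near] using h.zero i
  add c d := by simpa [Near] using h.add i c d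

theorem grp_central (i : Fin 3) : Grp (fun c => weval u (cword i c)) 16 ε where
  eps := eps_nonneg h
  nle c := norm_cword h i c
  st c := by simpa [Near] using h.cstar_eq i c
  zero := by simpa [Near] using h.czero i
  add c d := by simpa [Near] using h.cadd i c d

theorem pair (i : Fin 3) :
    Pair (fun c => u (i, c)) (fun c => u (i + 1, c)) (fun c => weval u (cword i c)) ε where
  gu := grp h i
  gv := grp h (i + 1)
  gz := grp_central h i
  cu c d := by simpa [Near] using h.comm0 i c d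
  cv c d := by simpa [Near] using h.comm1 i c d
  heis c d := by simpa [Near] using h.heis i c d

theorem lap_norm : ‖lapOp u‖ ≤ 3 + 12 * ε := by
  have hi := fun i => (grp h i).norm_one_sub
  refine (norm_sum_le_of_le _ fun i _ => (show ‖1 - avgOp u i‖ ≤ 1 + 4 * ε from
    (hi i).trans (by linarith))).trans ?_
  simp
  linarith

theorem lap_star : Near 3 ε (star (lapOp u)) (lapOp u) := by
  have e : ∀ i : Fin 3, Near 1 ε (star (1 - avgOp u i)) (1 - avgOp u i) := fun i => by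
    have a := (Near.refl (eps_nonneg h) le_rfl (1 : (H →L[ℂ] H))).sub (grp h i).star_p
    rw [star_sub, star_one]
    exact a.mono (eps_nonneg h) (by norm_num)
  simp only [lapOp, Fin.sum_univ_three, star_add]
  exact (((e 0).add (e 1)).add (e 2)).mono (eps_nonneg h) (by norm_num)

/-- The quadratic form of the Laplacian bounds each complementary average. -/
theorem lap_qf (ξ : H) :
    |∑ i, ‖(1 - avgOp u i) ξ‖ ^ 2 - qf ξ (lapOp u)| ≤ 12 * ε * ‖ξ‖ ^ 2 := by
  have hi : ∀ i, |‖(1 - avgOp u i) ξ‖ ^ 2 - qf ξ (1 - avgOp u i)| ≤ 4 * ε * ‖ξ‖ ^ 2 := fun i => by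
    rw [norm_sq_apply]
    exact qf_near ((grp h i).star_one_sub.mono (eps_nonneg h) (by norm_num)) ξ
  have a0 := abs_le.1 (hi 0)
  have a1 := abs_le.1 (hi 1)
  have a2 := abs_le.1 (hi 2)
  rw [abs_le]
  simp only [lapOp, Fin.sum_univ_three, qf_add]
  constructor <;> linarith

/-- The angle between two consecutive averages. -/
theorem lap_angle {i k : Fin 3} (hik : i + 1 = k) (ξ : H) :
    -(9 / 40 : ℝ) * (‖(1 - avgOp u i) ξ‖ ^ 2 + ‖(1 - avgOp u k) ξ‖ ^ 2)
        - 10 ^ 12 * ε * ‖ξ‖ ^ 2 ≤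
      (inner ℂ ((1 - avgOp u i) ξ) ((1 - avgOp u k) ξ)).re := by
  subst hik
  exact (pair h i).angle ξ

/-- The gap: the square of the Laplacian dominates a tenth of it. -/
theorem lap_sq (ξ : H) :
    (1 / 10 : ℝ) * qf ξ (lapOp u) - 10 ^ 13 * ε * ‖ξ‖ ^ 2 ≤ ‖lapOp u ξ‖ ^ 2 := by
  have p0 := lap_angle h (show (0 : Fin 3) + 1 = 1 from rfl) ξ
  have p1 := lap_angle h (show (1 : Fin 3) + 1 = 2 from rfl) ξ
  have p2 := lap_angle h (show (2 : Fin 3) + 1 = 0 from rfl) ξ
  have hq := abs_le.1 (lap_qf h ξ)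
  simp only [Fin.sum_univ_three] at hq
  set a := (1 - avgOp u 0) ξ with ha
  set b := (1 - avgOp u 1) ξ with hb
  set c := (1 - avgOp u 2) ξ with hc
  have e : lapOp u ξ = a + b + c := by
    simp only [lapOp, Fin.sum_univ_three, add_apply, ha, hb, hc]
  have n1 : ‖a + b + c‖ ^ 2 = ‖a + b‖ ^ 2 + 2 * (inner ℂ (a + b) c).re + ‖c‖ ^ 2 :=
    @norm_add_sq ℂ H _ _ _ (a + b) c
  have n2 : ‖a + b‖ ^ 2 = ‖a‖ ^ 2 + 2 * (inner ℂ a b).re + ‖b‖ ^ 2 :=
    @norm_add_sq ℂ H _ _ _ a b
  have n3 : (inner ℂ (a + b) c).re = (inner ℂ c a).re + (inner ℂ b c).re := by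
    rw [inner_add_left, Complex.add_re, ← inner_conj_symm a c, Complex.conj_re]
  rw [e, n1, n2, n3]
  have hξ : 0 ≤ ε * ‖ξ‖ ^ 2 := mul_nonneg (eps_nonneg h) (sq_nonneg _)
  nlinarith

theorem kop_norm : ‖kOp u‖ ≤ 1 + 3 * ε := by
  have e : kOp u = (3 : ℂ)⁻¹ • (avgOp u 0 + avgOp u 1 + avgOp u 2) := by
    simp only [kOp, lapOp, Fin.sum_univ_three]
    module
  rw [e, norm_smul]
  have h3 : ‖(3 : ℂ)⁻¹‖ = (3 : ℝ)⁻¹ := by simp
  rw [h3]
  have a0 : ‖avgOp u 0‖ ≤ 1 + 3 * ε := (grp h 0).norm_p.trans (by linarith [eps_nonneg h])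
  have a1 : ‖avgOp u 1‖ ≤ 1 + 3 * ε := (grp h 1).norm_p.trans (by linarith [eps_nonneg h])
  have a2 : ‖avgOp u 2‖ ≤ 1 + 3 * ε := (grp h 2).norm_p.trans (by linarith [eps_nonneg h])
  linarith [norm_add₃_le (a := avgOp u 0) (b := avgOp u 1) (c := avgOp u 2)]

theorem pow_norm {k : ℕ} (hk : 6 * ε * k ≤ 1) (ξ : H) :
    ‖(kOp u ^ k) ξ‖ ≤ (1 + 6 * ε * k) * ‖ξ‖ := by
  induction k with
  | zero => simp
  | succ k ih =>
    have h0 := eps_nonneg h
    push_cast at hk
    have ih' := ih (by nlinarith)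
    rw [pow_succ', mul_apply_eq_comp]
    refine ((kOp u).le_opNorm _).trans ?_
    refine (mul_le_mul (kop_norm h) ih' (norm_nonneg _) (by linarith)).trans ?_
    rw [← mul_assoc]
    refine mul_le_mul_of_nonneg_right ?_ (norm_nonneg _)
    push_cast
    nlinarith

/-- One step of averaging contracts the quadratic form. -/
theorem decay (hε : ε ≤ 1 / 1000) (ξ : H) :
    qf (kOp u ξ) (lapOp u) ≤ (29 / 30) * qf ξ (lapOp u) + 10 ^ 14 * ε * ‖ξ‖ ^ 2 := by
  have h0 := eps_nonneg h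
  set L := lapOp u with hL
  set K := kOp u with hK
  have hLn : ‖L‖ ≤ 4 := (lap_norm h).trans (by linarith)
  have hKn : ‖K‖ ≤ 2 := (kop_norm h).trans (by linarith)
  have hLK : ‖L * K‖ ≤ 8 := (norm_mul_le _ _).trans
    ((mul_le_mul hLn hKn (norm_nonneg _) (by norm_num)).trans (by norm_num))
  have hLL : ‖L * L‖ ≤ 16 := (norm_mul_le _ _).trans
    ((mul_le_mul hLn hLn (norm_nonneg _) (by norm_num)).trans (by norm_num))
  have e1 : qf (K ξ) L = qf ξ (star K * (L * K)) := by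
    rw [← re_inner_apply]; rfl
  have hsK : Near 1 ε (star K) K := by
    have e : K - star K = (3 : ℂ)⁻¹ • (star L - L) := by
      simp [hK, hL, kOp, star_smul, smul_sub]
    rw [Near, norm_sub_rev, e, norm_smul]
    have h3 : ‖(3 : ℂ)⁻¹‖ = (3 : ℝ)⁻¹ := by simp
    have := lap_star h
    rw [Near] at this
    rw [h3]
    linarith
  have e2 : K * (L * K) = L - ((2 / 3 : ℝ) : ℂ) • (L * L) + ((1 / 9 : ℝ) : ℂ) • (L * (L * L)) := by
    simp only [hK, kOp, ← hL, sub_mul, mul_sub, one_mul, mul_one, smul_mul_assoc, mul_smul_comm,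
      smul_sub, smul_smul]
    push_cast
    module
  have t1 := abs_le.1 (qf_near (hsK.mul_right hLK) ξ)
  have t2 := abs_le.1 (qf_near ((lap_star h).mul_right hLn) ξ)
  have t3 := abs_le.1 (qf_near ((lap_star h).mul_right hLL) ξ)
  have t4 := (qf_le (L ξ) L)
  have e3 : qf ξ (star L * (L * L)) = qf (L ξ) L := by
    rw [← re_inner_apply]; rfl
  have e4 : qf ξ (star L * L) = ‖L ξ‖ ^ 2 := (norm_sq_apply ξ L).symm
  rw [e2, qf_add, qf_sub, qf_smul_real, qf_smul_real] at t1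
  rw [e1]
  have t5 : qf (L ξ) L ≤ (3 + 12 * ε) * ‖L ξ‖ ^ 2 :=
    (le_abs_self _).trans (t4.trans (mul_le_mul_of_nonneg_right (lap_norm h) (sq_nonneg _)))
  have t6 : ‖L ξ‖ ^ 2 ≤ 16 * ‖ξ‖ ^ 2 := by
    have : ‖L ξ‖ ≤ 4 * ‖ξ‖ :=
      (L.le_opNorm ξ).trans (mul_le_mul_of_nonneg_right hLn (norm_nonneg _))
    nlinarith [norm_nonneg (L ξ)]
  have t7 := lap_sq h ξ
  have hξ : 0 ≤ ε * ‖ξ‖ ^ 2 := mul_nonneg h0 (sq_nonneg _)
  rw [e3] at t3
  rw [e4] at t2
  nlinarith [mul_le_mul_of_nonneg_left t6 h0]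

theorem iterate (hε : ε ≤ 1 / 1000) {k : ℕ} (hk : 6 * ε * k ≤ 1) (ξ : H) :
    qf ((kOp u ^ k) ξ) (lapOp u) ≤
      (6 * (29 / 30 : ℝ) ^ k + 4 * 10 ^ 14 * ε * k) * ‖ξ‖ ^ 2 := by
  have h0 := eps_nonneg h
  induction k with
  | zero =>
    refine (le_abs_self _).trans ((qf_le _ _).trans ?_)
    simp only [pow_zero, one_apply_eq_self, Nat.cast_zero, mul_zero, add_zero, mul_one]
    exact mul_le_mul_of_nonneg_right ((lap_norm h).trans (by linarith)) (sq_nonneg _)
  | succ k ih =>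
    push_cast at hk
    have hk' : 6 * ε * k ≤ 1 := by nlinarith
    have ih' := ih hk'
    rw [pow_succ', mul_apply_eq_comp]
    refine (decay h hε _).trans ?_
    have hn : ‖(kOp u ^ k) ξ‖ ^ 2 ≤ 4 * ‖ξ‖ ^ 2 := by
      have := (pow_norm h hk' ξ).trans
        (mul_le_mul_of_nonneg_right (show 1 + 6 * ε * k ≤ 2 by linarith) (norm_nonneg _))
      nlinarith [norm_nonneg ((kOp u ^ k) ξ)]
    rw [Nat.cast_succ]
    have : 0 ≤ ε * k * ‖ξ‖ ^ 2 := by positivity
    nlinarith [mul_le_mul_of_nonneg_left hn h0, pow_succ' (29 / 30 : ℝ) k]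

end Lap

/-- The robust gap. -/
theorem gap_exists (j : ℕ) (η : ℝ) (hη : 0 < η) : ∃ ε > 0,
    ∀ (H : Type*) [NormedAddCommGroup H] [InnerProductSpace ℂ H] [CompleteSpace H]
      (u : Letter → H →L[ℂ] H), Approx u ε →
      (∀ (ξ : H) (l : Letter), ‖u l ((kOp u ^ j) ξ) - (kOp u ^ j) ξ‖ ≤
        (100 * (59 / 60 : ℝ) ^ j + η) * ‖ξ‖) ∧
      (∀ (ξ : H) (δ : ℝ), (∀ l, ‖u l ξ - ξ‖ ≤ δ) →
        ‖(kOp u ^ j) ξ - ξ‖ ≤ 2 * j * δ) := by
  set m : ℝ := min η 1 with hm
  have hm0 : 0 < m := lt_min hη one_pos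
  set ε : ℝ := m ^ 2 / (10 ^ 20 * (j + 1)) with hεdef
  have hεp : 0 < ε := by positivity
  have hm1 : m ≤ 1 := min_le_right _ _
  have hεj : ε * (j + 1) * 10 ^ 20 = m ^ 2 := by
    rw [hεdef]; field_simp
  have hεs : ε ≤ 1 / 1000 := by nlinarith
  have hεk : ∀ k ≤ j, 6 * ε * k ≤ 1 := fun k hk => by
    have : (k : ℝ) ≤ j := by exact_mod_cast hk
    nlinarith
  refine ⟨ε, hεp, fun H _ _ _ u hu => ⟨fun ξ l => ?_, fun ξ δ hδ => ?_⟩⟩
  · obtain ⟨i, c⟩ := l
    set y := (kOp u ^ j) ξ with hy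
    have h1 := iterate hu hεs (hεk j le_rfl) ξ
    have h2 := abs_le.1 (lap_qf hu y)
    have h3 : ‖(1 - avgOp u i) y‖ ^ 2 ≤ ∑ k, ‖(1 - avgOp u k) y‖ ^ 2 :=
      Finset.single_le_sum (f := fun k => ‖(1 - avgOp u k) y‖ ^ 2)
        (fun k _ => sq_nonneg _) (Finset.mem_univ i)
    have hyn : ‖y‖ ≤ 2 * ‖ξ‖ :=
      (pow_norm hu (hεk j le_rfl) ξ).trans (mul_le_mul_of_nonneg_right
        (by linarith [hεk j le_rfl]) (norm_nonneg _))
    have hpw : (29 / 30 : ℝ) ^ j ≤ ((59 / 60 : ℝ) ^ j) ^ 2 := by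
      rw [← pow_mul, mul_comm, pow_mul]
      exact pow_le_pow_left₀ (by norm_num) (by norm_num) j
    set θ : ℝ := (59 / 60 : ℝ) ^ j with hθ
    have hθ0 : 0 ≤ θ := by positivity
    have hn2 : ‖y‖ ^ 2 ≤ 4 * ‖ξ‖ ^ 2 := by nlinarith [norm_nonneg y]
    have hx : ‖(1 - avgOp u i) y‖ ≤ (3 * θ + m / 100) * ‖ξ‖ := by
      refine pow_le_pow_iff_left₀ (norm_nonneg _) (by positivity) two_ne_zero |>.1 ?_
      have hb : 4 * 10 ^ 14 * ε * j + 48 * ε ≤ m ^ 2 / 10000 := by nlinarith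
      have : 0 ≤ θ * m * ‖ξ‖ ^ 2 := by positivity
      nlinarith [mul_le_mul_of_nonneg_right hb (sq_nonneg ‖ξ‖),
        mul_le_mul_of_nonneg_left hn2 hεp.le,
        mul_le_mul_of_nonneg_right hpw (sq_nonneg ‖ξ‖), sq_nonneg (θ * ‖ξ‖)]
    have hd : u (i, c) y - y = (u (i, c) - 1) ((1 - avgOp u i) y)
        + (u (i, c) * avgOp u i - avgOp u i) y := by
      simp
      abel
    rw [hd]
    have b1 : ‖(u (i, c) - 1) ((1 - avgOp u i) y)‖ ≤ 3 * ((3 * θ + m / 100) * ‖ξ‖) := by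
      refine ((u (i, c) - 1).le_opNorm _).trans (mul_le_mul ?_ hx (norm_nonneg _) (by norm_num))
      refine (norm_sub_le _ _).trans ?_
      have := hu.norm_le (i, c)
      have : ‖(1 : H →L[ℂ] H)‖ ≤ 1 := ContinuousLinearMap.norm_id_le
      linarith
    have b2 : ‖(u (i, c) * avgOp u i - avgOp u i) y‖ ≤ 1 * ε * (2 * ‖ξ‖) :=
      ((u (i, c) * avgOp u i - avgOp u i).le_opNorm y).trans
        (mul_le_mul ((grp hu i).mul_p c) hyn (norm_nonneg _) (by positivity))
    refine (norm_add_le _ _).trans ((add_le_add b1 b2).trans ?_)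
    have hmη : m ≤ η := min_le_left _ _
    have hem : ε ≤ m / 100 := by nlinarith
    nlinarith [norm_nonneg ξ, mul_nonneg hθ0 (norm_nonneg ξ),
      mul_le_mul_of_nonneg_right hem (norm_nonneg ξ),
      mul_le_mul_of_nonneg_right hmη (norm_nonneg ξ)]
  · have hδ0 : 0 ≤ δ := (norm_nonneg _).trans (hδ (0, 0))
    have hp : ∀ i, ‖(1 - avgOp u i) ξ‖ ≤ δ := fun i => by
      have e : (1 - avgOp u i) ξ = (5 : ℂ)⁻¹ • ∑ c : Fq, (ξ - u (i, c) ξ) := by
        simp [avgOp, Finset.sum_sub_distrib, Finset.card_univ, smul_sub,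
          ← Nat.cast_smul_eq_nsmul ℂ, smul_smul, sum_apply]
      rw [e, norm_smul]
      have hsum : ‖∑ c : Fq, (ξ - u (i, c) ξ)‖ ≤ 5 * δ := by
        refine (norm_sum_le_of_le (n := fun _ => δ) _ fun c _ => ?_).trans (le_of_eq ?_)
        · rw [norm_sub_rev]; exact hδ (i, c)
        · simp
      have h5 : ‖(5 : ℂ)⁻¹‖ = (5 : ℝ)⁻¹ := by simp
      rw [h5]
      linarith
    have h1 : ‖kOp u ξ - ξ‖ ≤ δ := by
      have e : kOp u ξ - ξ = -((3 : ℂ)⁻¹ • lapOp u ξ) := by simp [kOp]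
      rw [e, norm_neg, norm_smul]
      have h3 : ‖lapOp u ξ‖ ≤ 3 * δ := by
        simp only [lapOp, sum_apply]
        exact (norm_sum_le_of_le _ fun i _ => hp i).trans (le_of_eq (by simp))
      have h5 : ‖(3 : ℂ)⁻¹‖ = (3 : ℝ)⁻¹ := by simp
      rw [h5]
      linarith
    suffices ∀ k ≤ j, ‖(kOp u ^ k) ξ - ξ‖ ≤ 2 * k * δ from this j le_rfl
    intro k hk
    induction k with
    | zero => simp
    | succ k ih =>
      have hkj : k ≤ j := (Nat.le_succ k).trans hk
      have e : (kOp u ^ (k + 1)) ξ - ξ =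
          (kOp u ^ k) (kOp u ξ - ξ) + ((kOp u ^ k) ξ - ξ) := by
        rw [pow_succ, mul_apply_eq_comp, map_sub]; abel
      rw [e]
      refine (norm_add_le _ _).trans ?_
      have a := (pow_norm hu (hεk k hkj) (kOp u ξ - ξ)).trans
        (mul_le_mul (show 1 + 6 * ε * (k : ℝ) ≤ 2 by linarith [hεk k hkj]) h1 (norm_nonneg _)
          (by norm_num))
      rw [Nat.cast_succ]
      linarith [ih hkj]

end Gap

/-- The robust gap, in the form of the specification. -/
theorem gap : GapSpec := ⟨59 / 60, by norm_num, by norm_num, fun j η hη => Gap.gap_exists j η hη⟩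

end Vale.Agent.P083.Kirchberg
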