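import Vale.Agent.P083.Kirchberg.Base

/-!
P083: the levels are finite; coefficients, the shift into the next level.
-/

namespace Vale.Agent.P083.Kirchberg

open Polynomial

/-- The coefficients of an element of `R m`. -/
noncomputable def coeffs (m : ℕ) : R m →+ (Fin m → Fq) :=
  QuotientAddGroup.lift (Ideal.span {(X : Polynomial Fq) ^ m}).toAddSubgroup
    { toFun := fun f i => f.coeff i
      map_zero' := by funext i; simp
      map_add' := fun f g => by funext i; simp }
    (fun f hf => by
      obtain ⟨g, rfl⟩ := Ideal.mem_span_singleton.1 hf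
      refine funext fun i => ?_
      simp [Polynomial.coeff_X_pow_mul', not_le.2 i.isLt])

theorem coeffs_mk (m : ℕ) (f : Polynomial Fq) (i : Fin m) :
    coeffs m (Ideal.Quotient.mk _ f) i = f.coeff i := rfl

theorem coeffs_bijective (m : ℕ) : Function.Bijective (coeffs m) := by
  constructor
  · intro x y h
    obtain ⟨f, rfl⟩ := Ideal.Quotient.mk_surjective x
    obtain ⟨g, rfl⟩ := Ideal.Quotient.mk_surjective y
    refine Ideal.Quotient.eq.2 (Ideal.mem_span_singleton.2 (Polynomial.X_pow_dvd_iff.2 ?_))
    intro d hd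
    have := congrFun h ⟨d, hd⟩
    rw [coeffs_mk, coeffs_mk] at this
    simp [this]
  · intro c
    refine ⟨Ideal.Quotient.mk _ (∑ i : Fin m, monomial (i : ℕ) (c i)), funext fun j => ?_⟩
    rw [coeffs_mk, finsetSum_coeff]
    simp [coeff_monomial, Fin.val_inj, eq_comm]

noncomputable instance (m : ℕ) : Fintype (R m) :=
  Fintype.ofEquiv _ (Equiv.ofBijective _ (coeffs_bijective m)).symm

noncomputable instance (m : ℕ) : DecidableEq (R m) := Classical.decEq _

theorem card_R (m : ℕ) : Fintype.card (R m) = 5 ^ m := by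
  rw [Fintype.card_congr (Equiv.ofBijective _ (coeffs_bijective m))]
  simp

/-- Reduction of a point. -/
noncomputable def prO (m : ℕ) (v : Om (m + 1)) : Om m := (pr m v.1, pr m v.2)

/-- Multiplication by `t` as a map into the next level. -/
noncomputable def shift (m : ℕ) : R m →+ R (m + 1) :=
  QuotientAddGroup.lift (Ideal.span {(X : Polynomial Fq) ^ m}).toAddSubgroup
    ((Ideal.Quotient.mk _).toAddMonoidHom.comp (AddMonoidHom.mulLeft (X : Polynomial Fq)))
    (fun f hf => by
      obtain ⟨g, rfl⟩ := Ideal.mem_span_singleton.1 hf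
      refine Ideal.Quotient.eq_zero_iff_mem.2 (Ideal.mem_span_singleton.2 ⟨g, ?_⟩)
      simp [pow_succ']; ring)

/-- The point below the digit `x`. -/
noncomputable def jmap (m : ℕ) (x : Dig) (v : Om m) : Om (m + 1) :=
  (C' (m + 1) x.1 + shift m v.1, C' (m + 1) x.2 + shift m v.2)

/-- Functions on level `m + 1` summing to zero over each point of level `m`. -/
def IsNew {M : Type*} [AddCommMonoid M] {m : ℕ} (f : Om (m + 1) → M) : Prop :=
  ∀ v : Om m, ∑ w ∈ Finset.univ.filter (fun w => prO m w = v), f w = 0

end Vale.Agent.P083.Kirchberg
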