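import Vale.Agent.P083.Kirchberg.Propagation

/-!
P083: one tolerance gives almost invariant new unit vectors at all levels.
-/

namespace Vale.Agent.P083.Kirchberg

open Filter Topology

universe u

theorem sum_aElt {A : Type*} [Ring A] [StarRing A] [Algebra ℂ A] (S : Dig → A) :
    ∑ x, aElt S x = 0 := by
  simp only [aElt, Finset.sum_sub_distrib]
  rw [Finset.sum_const, Finset.card_univ, Fintype.card_prod, ZMod.card, ← Nat.cast_smul_eq_nsmul ℂ,
    smul_smul]
  norm_num

theorem exists_exponent (θ : ℝ) (h0 : 0 ≤ θ) (h1 : θ < 1) {δ : ℝ} (hδ : 0 < δ) :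
    ∃ j : ℕ, 200 * θ ^ j ≤ δ / 2 ∧ 2000 * wordConst * (j * θ ^ j) ≤ 1 / 8 := by
  have hA : Tendsto (fun j : ℕ => 200 * θ ^ j) atTop (𝓝 0) := by
    simpa using (tendsto_pow_atTop_nhds_zero_of_lt_one h0 h1).const_mul 200
  have hB : Tendsto (fun j : ℕ => 2000 * wordConst * ((j : ℝ) * θ ^ j)) atTop (𝓝 0) := by
    simpa using (tendsto_self_mul_const_pow_of_lt_one h0 h1).const_mul (2000 * wordConst)
  exact ((hA.eventually (ge_mem_nhds (half_pos hδ))).and
    (hB.eventually (ge_mem_nhds (by norm_num)))).exists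

/-- One tolerance serves all levels. -/
theorem propagation (hP : PermSpec) (hG : GapSpec.{u}) (hL : LiftSpec.{u}) :
    ∀ δ > 0, ∀ c > 0, ∃ ε > 0, ∀ (H : Type u) [NormedAddCommGroup H] [InnerProductSpace ℂ H]
      [CompleteSpace H] (x : Letter → H →L[ℂ] H) (S : Dig → H →L[ℂ] H),
      ApproxModel x S ε → c ≤ ‖aElt S 0‖ → ∀ n : ℕ, ∃ F : Om (n + 1) → H,
        ∑ w, ‖F w‖ ^ 2 = 1 ∧ IsNew F ∧
        ∀ l : Letter,
          ∑ w, ‖x l (F (genFun (n + 1) (l.1, -l.2) w)) - F w‖ ^ 2 ≤ δ ^ 2 := by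
  obtain ⟨π, hgen, hrel, hpr, hj, hbij, hprj⟩ := hP
  obtain ⟨θ, hθ0, hθ1, hgap⟩ := hG
  intro δ hδ c hc
  have hW : 0 < wordConst := by unfold wordConst; positivity
  obtain ⟨j, hj1, hj2⟩ := exists_exponent θ hθ0 hθ1 hδ
  set η := min (δ / 4) (1 / (160 * wordConst * (j + 1))) with hη
  have hη0 : 0 < η := lt_min (by positivity) (by positivity)
  have hη1 : η ≤ δ / 4 := min_le_left _ _
  have hη2 : η * (160 * wordConst * (j + 1)) ≤ 1 :=
    (le_div_iff₀ (by positivity)).1 (min_le_right _ _)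
  set δ1 := 2 * (100 * θ ^ j + η) with hδ1
  have hθj : 0 ≤ θ ^ j := pow_nonneg hθ0 j
  have hδ1pos : 0 < δ1 := by linarith
  have hδ1le : δ1 ≤ δ := by linarith
  obtain ⟨εg, hεg, hgap'⟩ := hgap j η hη0
  set ε := min (min εg (1 / 2)) (min (1 / (40 * (j + 1))) (δ1 * c / 20)) with hε
  have hε0 : 0 < ε := lt_min (lt_min hεg (by norm_num)) (lt_min (by positivity) (by positivity))
  have hε1 : ε ≤ εg := (min_le_left _ _).trans (min_le_left _ _)
  have hε2 : ε ≤ 1 / 2 := (min_le_left _ _).trans (min_le_right _ _)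
  have hε3 : ε * (40 * (j + 1)) ≤ 1 :=
    (le_div_iff₀ (by positivity)).1 ((min_le_right _ _).trans (min_le_left _ _))
  have hε4 : ε ≤ δ1 * c / 20 := (min_le_right _ _).trans (min_le_right _ _)
  have hkey : 2 * (j : ℝ) * (5 * (ε + wordConst * δ1)) ≤ 1 / 2 := by
    have ej : (0 : ℝ) ≤ j := Nat.cast_nonneg j
    rw [hδ1]
    nlinarith [mul_nonneg hη0.le hW.le, hε0.le]
  refine ⟨ε, hε0, ?_⟩
  intro H _ _ _ x S hM ha
  let e : ∀ m, Dig × Om m ≃ Om (m + 1) := fun m => Equiv.ofBijective _ (hbij m)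
  have happ : ∀ m, Approx (levelOp π x m) ε := fun m => hL H (Om m) x (π m) ε hM.approx (hrel m)
  have hSS : ∀ a, ‖star (S a) * S a - 1‖ ≤ ε := fun a => by simpa using hM.iso a a
  suffices hmain : ∀ n, ∃ F : PiLp 2 (fun _ : Om (n + 1) => H), ‖F‖ = 1 ∧
      IsNew (fun w => F w) ∧ ∀ l, ‖levelOp π x (n + 1) l F - F‖ ≤ δ1 by
    intro n
    obtain ⟨F, hF1, hF2, hF3⟩ := hmain n
    refine ⟨fun w => F w, ?_, hF2, fun l => ?_⟩
    · rw [← PiLp.norm_sq_eq_of_L2 (fun _ : Om (n + 1) => H), hF1, one_pow]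
    · have hinv : (π (n + 1) l)⁻¹ = π (n + 1) (l.1, -l.2) := by
        apply inv_eq_of_mul_eq_one_right
        rw [show l = (l.1, l.2) from rfl, (hrel (n + 1)).add, add_neg_cancel, (hrel (n + 1)).zero]
      have h := pow_le_pow_left₀ (norm_nonneg _) ((hF3 l).trans hδ1le) 2
      rw [PiLp.norm_sq_eq_of_L2] at h
      refine le_trans (le_of_eq (Finset.sum_congr rfl fun w _ => ?_)) h
      simp only [PiLp.sub_apply, levelOp, permLift_apply, hinv, hgen]
  intro n
  induction n with
  | zero =>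
    have hlt : c / 2 < ‖aElt S 0‖ := by linarith
    obtain ⟨ξ, hξ, hξa⟩ := (aElt S 0).exists_lt_apply_of_lt_opNorm hlt
    set G : PiLp 2 (fun _ : Om (0 + 1) => H) :=
      WithLp.toLp 2 (fun w => aElt S ((e 0).symm w).1 ξ) with hGdef
    have hGa : ∀ a v, G (e 0 (a, v)) = aElt S a ξ := fun a v => by simp [hGdef]
    have hsub : Subsingleton (Om 0) := by
      have : Fintype.card (Om 0) ≤ 1 := by simp [Fintype.card_prod, card_R]
      exact Fintype.card_le_one_iff_subsingleton.1 this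
    have hbig : c / 2 ≤ ‖G‖ := by
      refine hξa.le.trans ?_
      rw [← hGa 0 0]
      exact PiLp.norm_apply_le G _
    have hG0 : ‖G‖ ≠ 0 := by linarith
    have hnew : IsNew fun w => G w := by
      intro v
      rw [Finset.filter_true_of_mem fun w _ => Subsingleton.elim _ v, sum_next e]
      have h0 := congrArg (fun A : H →L[ℂ] H => A ξ) (sum_aElt S)
      simp only [sum_apply, zero_apply] at h0
      refine (Finset.sum_congr rfl fun a _ => ?_).trans h0
      rw [Fintype.sum_subsingleton _ (0 : Om 0)]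
      exact hGa a 0
    refine ⟨(‖G‖⁻¹ : ℂ) • G, ?_, ?_, fun l => ?_⟩
    · rw [norm_smul, norm_inv, Complex.norm_real, norm_norm, inv_mul_cancel₀ hG0]
    · intro v
      simp only [PiLp.smul_apply, ← Finset.smul_sum]
      rw [hnew v, smul_zero]
    · rw [map_smul, ← smul_sub, norm_smul, norm_inv, Complex.norm_real, norm_norm,
        inv_mul_le_iff₀ (lt_of_lt_of_le (by positivity) hbig)]
      have hsq : ‖levelOp π x 1 l G - G‖ ^ 2 ≤ (5 * ε) ^ 2 := by
        rw [PiLp.norm_sq_eq_of_L2, ← Equiv.sum_comp (π 1 l), sum_next e]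
        calc _ ≤ ∑ _a : Dig, ∑ _v : Om 0, ε ^ 2 := by
              refine Finset.sum_le_sum fun a _ => Finset.sum_le_sum fun v _ => ?_
              have hstep : π 1 l (e 0 (a, v)) =
                  e 0 (dact l a, weval (π 0) (restr l a) v) := hj 0 l a v
              rw [PiLp.sub_apply, levelOp, permLift_apply, Equiv.Perm.inv_def,
                Equiv.symm_apply_apply, hstep, hGa, hGa]
              refine pow_le_pow_left₀ (norm_nonneg _) ?_ 2
              rw [show x l (aElt S a ξ) - aElt S (dact l a) ξ =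
                (x l * aElt S a - aElt S (dact l a)) ξ by simp]
              have hs := hM.shift l a
              generalize x l * aElt S a - aElt S (dact l a) = T0 at hs ⊢
              exact (T0.le_of_opNorm_le hs ξ).trans (mul_le_of_le_one_right hε0.le hξ.le)
          _ = _ := by simp [Fintype.card_prod, card_R, ZMod.card]; ring
      have h1 := le_of_pow_le_pow_left₀ two_ne_zero (by positivity) hsq
      refine h1.trans ?_
      nlinarith [mul_le_mul_of_nonneg_right hbig hδ1pos.le]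
  | succ n ih =>
    obtain ⟨F, hF1, hF2, hF3⟩ := ih
    set z := stepUp e S (n + 1) F with hz
    have hzlow : 12 ≤ ‖z‖ ^ 2 := by
      have := le_norm_stepUp e S hε2 hSS (n + 1) F
      rwa [hF1, one_pow, mul_one] at this
    have hzdef : ∀ l, ‖levelOp π x (n + 2) l z - z‖ ≤ 5 * (ε + wordConst * δ1) * ‖z‖ := by
      intro l
      refine le_of_pow_le_pow_left₀ two_ne_zero (by positivity) ?_
      refine (norm_levelOp_stepUp_le π e (fun m l a v => hj m l a v) x S hM.approx.norm_le
        hM.S_norm hM.selfsim (n + 1) F hF3 l).trans ?_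
      rw [hF1, mul_pow _ ‖z‖]
      have hw : 0 ≤ wordConst * δ1 := by positivity
      nlinarith [mul_nonneg hε0.le hw,
        mul_le_mul_of_nonneg_left hzlow (sq_nonneg (ε + wordConst * δ1))]
    obtain ⟨hg1, hg2⟩ := hgap' (PiLp 2 fun _ : Om (n + 2) => H) (levelOp π x (n + 2))
      (by
        have h := happ (n + 2)
        exact ⟨h.norm_le, fun i a => (h.star_eq i a).trans hε1, fun i a => (h.cstar_eq i a).trans hε1,
          fun i => (h.zero i).trans hε1, fun i a b => (h.add i a b).trans hε1,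
          fun i => (h.czero i).trans hε1, fun i a b => (h.cadd i a b).trans hε1,
          fun i a b => (h.comm0 i a b).trans hε1, fun i a b => (h.comm1 i a b).trans hε1,
          fun i a b => (h.heis i a b).trans hε1⟩)
    set G := (kOp (levelOp π x (n + 2)) ^ j) z with hGdef
    have hz0 : 0 < ‖z‖ := by nlinarith [norm_nonneg z]
    have hGlow : ‖z‖ / 2 ≤ ‖G‖ := by
      have h := hg2 z _ hzdef
      have h' := norm_sub_norm_le z G
      rw [norm_sub_rev] at h'
      nlinarith [mul_le_mul_of_nonneg_right hkey hz0.le]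
    have hG0 : 0 < ‖G‖ := by linarith
    have hnew : IsNew fun w => G w :=
      isNew_kOp_pow π hpr x z (isNew_stepUp e (fun a v => hprj n a v) S F hF2) j
    refine ⟨(‖G‖⁻¹ : ℂ) • G, ?_, ?_, fun l => ?_⟩
    · rw [norm_smul, norm_inv, Complex.norm_real, norm_norm, inv_mul_cancel₀ hG0.ne']
    · intro v
      simp only [PiLp.smul_apply, ← Finset.smul_sum]
      rw [hnew v, smul_zero]
    · rw [map_smul, ← smul_sub, norm_smul, norm_inv, Complex.norm_real, norm_norm,
        inv_mul_le_iff₀ hG0]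
      refine (hg1 z l).trans ?_
      have hd : (100 * θ ^ j + η) * ‖z‖ = δ1 * (‖z‖ / 2) := by rw [hδ1]; ring
      rw [hd]
      calc δ1 * (‖z‖ / 2) ≤ δ1 * ‖G‖ := mul_le_mul_of_nonneg_left hGlow hδ1pos.le
        _ = ‖G‖ * δ1 := mul_comm _ _

end Vale.Agent.P083.Kirchberg
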