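import Vale.Agent.P083.Kirchberg.Spec

/-!
P083: tensoring almost unitary operators with exact permutations keeps the approximate relations.
-/

namespace Vale.Agent.P083.Kirchberg

universe u

variable {H : Type u} [NormedAddCommGroup H] [InnerProductSpace ℂ H] {Ω : Type} [Fintype Ω]

theorem permLift_mul (A B : H →L[ℂ] H) (σ τ : Equiv.Perm Ω) :
    permLift A σ * permLift B τ = permLift (A * B) (σ * τ) := by
  refine ContinuousLinearMap.ext fun F => PiLp.ext fun w => ?_
  rw [ContinuousLinearMap.mul_def, ContinuousLinearMap.comp_apply, permLift_apply,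
    permLift_apply, permLift_apply, mul_inv_rev]
  rfl

theorem permLift_one : permLift (1 : H →L[ℂ] H) (1 : Equiv.Perm Ω) = 1 := by
  refine ContinuousLinearMap.ext fun F => PiLp.ext fun w => ?_
  rw [permLift_apply]
  rfl

theorem permLift_sub (A B : H →L[ℂ] H) (σ : Equiv.Perm Ω) :
    permLift A σ - permLift B σ = permLift (A - B) σ := by
  refine ContinuousLinearMap.ext fun F => PiLp.ext fun w => ?_
  rw [_root_.sub_apply, PiLp.sub_apply, permLift_apply, permLift_apply, permLift_apply]
  rfl

theorem norm_permLift_le (A : H →L[ℂ] H) (σ : Equiv.Perm Ω) : ‖permLift A σ‖ ≤ ‖A‖ := by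
  refine ContinuousLinearMap.opNorm_le_bound _ (norm_nonneg A) fun F => ?_
  refine le_of_sq_le_sq ?_ (by positivity)
  rw [mul_pow, PiLp.norm_sq_eq_of_L2, PiLp.norm_sq_eq_of_L2, Finset.mul_sum,
    ← Equiv.sum_comp σ]
  refine Finset.sum_le_sum fun w _ => ?_
  rw [permLift_apply]
  simp only [Equiv.Perm.inv_def, Equiv.symm_apply_apply]
  rw [← mul_pow]
  exact pow_le_pow_left₀ (norm_nonneg _) (A.le_opNorm _) 2

theorem star_permLift [CompleteSpace H] (A : H →L[ℂ] H) (σ : Equiv.Perm Ω) :
    star (permLift A σ) = permLift (star A) σ⁻¹ := by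
  rw [ContinuousLinearMap.star_eq_adjoint]
  refine ((ContinuousLinearMap.eq_adjoint_iff _ _).2 fun F G => ?_).symm
  rw [PiLp.inner_apply, PiLp.inner_apply, ← Equiv.sum_comp σ (fun w => inner ℂ (F w) _)]
  refine Finset.sum_congr rfl fun w _ => ?_
  rw [permLift_apply, permLift_apply, inv_inv, Equiv.Perm.inv_def, Equiv.symm_apply_apply,
    ContinuousLinearMap.star_eq_adjoint, ContinuousLinearMap.adjoint_inner_left]

theorem weval_permLift (x : Letter → H →L[ℂ] H) (π : Letter → Equiv.Perm Ω) (w : List Letter) :
    weval (fun l => permLift (x l) (π l)) w = permLift (weval x w) (weval π w) := by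
  induction w with
  | nil => exact permLift_one.symm
  | cons l w ih =>
    simp only [weval, List.map_cons, List.prod_cons] at ih ⊢
    rw [ih, permLift_mul]

theorem norm_permLift_sub_le {A B : H →L[ℂ] H} {σ τ : Equiv.Perm Ω} (h : σ = τ) {ε : ℝ}
    (hAB : ‖A - B‖ ≤ ε) : ‖permLift A σ - permLift B τ‖ ≤ ε := by
  subst h
  rw [permLift_sub]
  exact (norm_permLift_le _ _).trans hAB

/-- Tensoring with exact permutations keeps the approximate relations. -/
theorem lift : LiftSpec.{u} := by
  intro H _ _ _ Ω _ x π ε hx hπ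
  refine
    { norm_le := fun l => (norm_permLift_le _ _).trans (hx.norm_le l)
      star_eq := fun i c => ?_
      cstar_eq := fun i c => ?_
      zero := fun i => ?_
      add := fun i c d => ?_
      czero := fun i => ?_
      cadd := fun i c d => ?_
      comm0 := fun i c d => ?_
      comm1 := fun i c d => ?_
      heis := fun i c d => ?_ }
  · rw [star_permLift]
    refine norm_permLift_sub_le (inv_eq_of_mul_eq_one_right ?_) (hx.star_eq i c)
    rw [hπ.add, add_neg_cancel, hπ.zero]
  · rw [weval_permLift, weval_permLift, star_permLift]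
    refine norm_permLift_sub_le (inv_eq_of_mul_eq_one_right ?_) (hx.cstar_eq i c)
    rw [hπ.cadd, add_neg_cancel, hπ.czero]
  · rw [← permLift_one]
    exact norm_permLift_sub_le (hπ.zero i) (hx.zero i)
  · rw [permLift_mul]
    exact norm_permLift_sub_le (hπ.add i c d) (hx.add i c d)
  · rw [weval_permLift, ← permLift_one]
    exact norm_permLift_sub_le (hπ.czero i) (hx.czero i)
  · rw [weval_permLift, weval_permLift, weval_permLift, permLift_mul]
    exact norm_permLift_sub_le (hπ.cadd i c d) (hx.cadd i c d)
  · rw [weval_permLift, permLift_mul, permLift_mul]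
    exact norm_permLift_sub_le (hπ.comm0 i c d) (hx.comm0 i c d)
  · rw [weval_permLift, permLift_mul, permLift_mul]
    exact norm_permLift_sub_le (hπ.comm1 i c d) (hx.comm1 i c d)
  · rw [weval_permLift, permLift_mul, permLift_mul, permLift_mul]
    exact norm_permLift_sub_le (hπ.heis i c d) (hx.heis i c d)

end Vale.Agent.P083.Kirchberg
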