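import Vale.Agent.P083.Kirchberg.Levelwise

/-!
P083: the six parts together: no embedding into the ultrapower.
-/

namespace Vale.Agent.P083.Kirchberg

open Filter

universe u

section Map

variable {B C : Type*} [CStarAlgebra B] [CStarAlgebra C]

theorem starHom_map_weval (φ : B →⋆ₐ[ℂ] C) (x : Letter → B) (w : List Letter) :
    φ (weval x w) = weval (fun l => φ (x l)) w := by
  simp [weval, map_list_prod, List.map_map, Function.comp_def]

theorem starHom_map_aElt (φ : B →⋆ₐ[ℂ] C) (S : Dig → B) (a : Dig) :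
    φ (aElt S a) = aElt (fun b => φ (S b)) a := by
  simp [aElt, rootProj, map_sum, map_smul, map_star]

theorem norm_map_le_of_le (φ : B →⋆ₐ[ℂ] C) {b : B} {r : ℝ} (h : ‖b‖ ≤ r) : ‖φ b‖ ≤ r :=
  (NonUnitalStarAlgHom.norm_apply_le φ b).trans h

theorem ApproxModel.map {x : Letter → B} {S : Dig → B} {ε : ℝ} (h : ApproxModel x S ε)
    (φ : B →⋆ₐ[ℂ] C) : ApproxModel (fun l => φ (x l)) (fun a => φ (S a)) ε where
  approx :=
    { norm_le := fun l => norm_map_le_of_le φ (h.approx.norm_le l)
      star_eq := fun i c => by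
        rw [← map_star, ← map_sub]; exact norm_map_le_of_le φ (h.approx.star_eq i c)
      cstar_eq := fun i c => by
        rw [← starHom_map_weval, ← starHom_map_weval, ← map_star, ← map_sub]
        exact norm_map_le_of_le φ (h.approx.cstar_eq i c)
      zero := fun i => by
        rw [← map_one φ, ← map_sub]; exact norm_map_le_of_le φ (h.approx.zero i)
      add := fun i c d => by
        rw [← map_mul, ← map_sub]; exact norm_map_le_of_le φ (h.approx.add i c d)
      czero := fun i => by
        rw [← starHom_map_weval, ← map_one φ, ← map_sub]; exact norm_map_le_of_le φ (h.approx.czero i)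
      cadd := fun i c d => by
        rw [← starHom_map_weval, ← starHom_map_weval, ← starHom_map_weval, ← map_mul, ← map_sub]
        exact norm_map_le_of_le φ (h.approx.cadd i c d)
      comm0 := fun i c d => by
        rw [← starHom_map_weval, ← map_mul, ← map_mul, ← map_sub]
        exact norm_map_le_of_le φ (h.approx.comm0 i c d)
      comm1 := fun i c d => by
        rw [← starHom_map_weval, ← map_mul, ← map_mul, ← map_sub]
        exact norm_map_le_of_le φ (h.approx.comm1 i c d)
      heis := fun i c d => by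
        rw [← starHom_map_weval, ← map_mul, ← map_mul, ← map_mul, ← map_sub]
        exact norm_map_le_of_le φ (h.approx.heis i c d) }
  S_norm a := norm_map_le_of_le φ (h.S_norm a)
  iso a b := by
    have e : (if a = b then (1 : C) else 0) = φ (if a = b then (1 : B) else 0) := by
      split_ifs <;> simp
    rw [e, ← map_star, ← map_mul, ← map_sub]; exact norm_map_le_of_le φ (h.iso a b)
  selfsim l a := by
    rw [← starHom_map_weval, ← map_mul, ← map_mul, ← map_sub]; exact norm_map_le_of_le φ (h.selfsim l a)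
  shift l a := by
    rw [← starHom_map_aElt, ← starHom_map_aElt, ← map_mul, ← map_sub]; exact norm_map_le_of_le φ (h.shift l a)

theorem ApproxModel.mono {x : Letter → B} {S : Dig → B} {ε ε' : ℝ} (h : ApproxModel x S ε)
    (le : ε ≤ ε') : ApproxModel x S ε' :=
  ⟨⟨h.approx.norm_le, fun i a => (h.approx.star_eq i a).trans le,
    fun i a => (h.approx.cstar_eq i a).trans le, fun i => (h.approx.zero i).trans le,
    fun i a b => (h.approx.add i a b).trans le, fun i => (h.approx.czero i).trans le,
    fun i a b => (h.approx.cadd i a b).trans le, fun i a b => (h.approx.comm0 i a b).trans le,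
    fun i a b => (h.approx.comm1 i a b).trans le, fun i a b => (h.approx.heis i a b).trans le⟩,
    h.S_norm, fun a b => (h.iso a b).trans le, fun a b => (h.selfsim a b).trans le,
    fun a b => (h.shift a b).trans le⟩

/-- Almost unitary letters. -/
theorem norm_star_mul_sub_one_le {x : Letter → B} {ε : ℝ} (h : Approx x ε) (l : Letter) :
    ‖star (x l) * x l - 1‖ ≤ 4 * ε := by
  obtain ⟨i, c⟩ := l
  have e : star (x (i, c)) * x (i, c) - 1 = (star (x (i, c)) - x (i, -c)) * x (i, c) +
      ((x (i, -c) * x (i, c) - x (i, -c + c)) + (x (i, 0) - 1)) := by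
    rw [neg_add_cancel, sub_mul]; abel
  rw [e]
  refine (norm_add_le _ _).trans ?_
  have h1 : ‖(star (x (i, c)) - x (i, -c)) * x (i, c)‖ ≤ ε * 2 :=
    (norm_mul_le _ _).trans (mul_le_mul (h.star_eq i c) (h.norm_le _) (norm_nonneg _)
      ((norm_nonneg _).trans (h.star_eq i c)))
  have h2 := norm_add_le (x (i, -c) * x (i, c) - x (i, -c + c)) (x (i, 0) - 1)
  linarith [h.add i (-c) c, h.zero i]

end Map

/-- The disproof, from its parts. -/
theorem target (hP : PermSpec) (hG : GapSpec.{u}) (hL : LiftSpec.{u}) (hF : FockSpec.{u})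
    (hE : EndgameSpec.{u}) (hM : ModelSpec) (hX : ExtractSpec.{u}) (hR : RepSpec.{u}) :
    Target.{u} := by
  obtain ⟨A, iA, u, S, hsep, hmod⟩ := hM
  refine ⟨A, iA, nontrivial_of_ne _ _ hmod.ne, hsep, ?_⟩
  intro B _ _ s hs hdense ω hω ⟨φ, hφ⟩
  obtain ⟨c, hc, hext⟩ := hX A u S hmod B s hs hdense ω hω φ hφ
  obtain ⟨δE, hδE, hend⟩ := hE
  set δ := Real.sqrt (δE / 4) with hδ
  have hδ0 : 0 < δ := Real.sqrt_pos.2 (by positivity)
  have hδ2 : δ ^ 2 = δE / 4 := Real.sq_sqrt (by positivity)
  obtain ⟨ε0, hε0, hprop⟩ := propagation hP hG hL δ hδ0 c hc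
  set ε := min ε0 (δ / 4) with hε
  obtain ⟨u', S', hadj, happ, hlow⟩ := hext ε (lt_min hε0 (by positivity))
  obtain ⟨H, i1, i2, i3, π, hπ⟩ := hR B (aElt S' 0)
  have happ' := happ.map π
  have hpi : Free.IsPair (fun i => π (s i)) := hs.map π
  have hadj' : ∀ l, π (u' l) ∈ StarAlgebra.adjoin ℂ (Set.range fun i => π (s i)) := fun l => by
    have h : π (u' l) ∈ (StarAlgebra.adjoin ℂ (Set.range s)).map π := ⟨u' l, hadj l, rfl⟩
    rw [StarAlgHom.map_adjoin π, ← Set.range_comp] at h
    exact h
  obtain ⟨k, V, Y, hV⟩ := hF H _ hpi Letter (fun l => π (u' l)) hadj' δ hδ0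
  obtain ⟨n, hn⟩ := hend k
  have happ0 := happ'.mono (min_le_left ε0 (δ / 4))
  obtain ⟨F, hF1, hF2, hF3⟩ := hprop H _ _ happ0 (by rw [← starHom_map_aElt, hπ]; exact hlow) n
  refine hn H (fun w => V (F w)) (by simpa using hF1) ?_ fun l => ⟨Y l, ?_, ?_⟩
  · intro v
    rw [← map_sum, hF2 v, map_zero]
  · set g := fun w => genFun (n + 1) (l.1, -l.2) w with hg
    have hgsum : ∑ w, ‖F (g w)‖ ^ 2 = 1 := by
      obtain ⟨p, hp, -⟩ := hP
      simp only [hg, ← hp]
      rw [Equiv.sum_comp (p (n + 1) (l.1, -l.2)) (fun w => ‖F w‖ ^ 2), hF1]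
    calc _ ≤ ∑ w, (2 * δ ^ 2 * ‖F (g w)‖ ^ 2 + 2 * ‖π (u' l) (F (g w)) - F w‖ ^ 2) := by
          refine Finset.sum_le_sum fun w _ => ?_
          have e : ampl (Y l) (V (F (g w))) - V (F w) =
              (ampl (Y l) (V (F (g w))) - V (π (u' l) (F (g w)))) +
                V (π (u' l) (F (g w)) - F w) := by
            rw [map_sub]; abel
          rw [show ampl (Y l) (V (F (genFun (n + 1) (l.1, -l.2) w))) - V (F w) = _ from e]
          refine (pow_le_pow_left₀ (norm_nonneg _) (norm_add_le _ _) 2).trans ?_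
          rw [V.norm_map]
          have h1 := pow_le_pow_left₀ (norm_nonneg _) (hV l (F (g w))).1 2
          rw [mul_pow] at h1
          nlinarith [sq_nonneg (‖ampl (Y l) (V (F (g w))) - V (π (u' l) (F (g w)))‖ -
            ‖π (u' l) (F (g w)) - F w‖)]
      _ ≤ δE := by
          rw [Finset.sum_add_distrib, ← Finset.mul_sum, ← Finset.mul_sum, hgsum]
          linarith [hF3 l]
  · calc _ ≤ ∑ w, 4 * δ ^ 2 * ‖F w‖ ^ 2 := by
          refine Finset.sum_le_sum fun w _ => ?_
          have h2 := norm_star_mul_sub_one_le happ'.approx l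
          have e : ampl ((Y l).conjTranspose * Y l) (V (F w)) - V (F w) =
              (ampl ((Y l).conjTranspose * Y l) (V (F w)) -
                V (star (π (u' l)) (π (u' l) (F w)))) +
                V ((star (π (u' l)) * π (u' l) - 1) (F w)) := by
            rw [show (star (π (u' l)) * π (u' l) - 1) (F w) =
              star (π (u' l)) (π (u' l) (F w)) - F w from rfl, map_sub]
            abel
          rw [e, show 4 * δ ^ 2 * ‖F w‖ ^ 2 = (2 * δ * ‖F w‖) ^ 2 by ring]
          refine pow_le_pow_left₀ (norm_nonneg _) ((norm_add_le _ _).trans ?_) 2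
          rw [V.norm_map]
          have h3 := (ContinuousLinearMap.le_opNorm _ (F w)).trans
            (mul_le_mul_of_nonneg_right h2 (norm_nonneg (F w)))
          have h4 : 4 * ε ≤ δ := by linarith [min_le_right ε0 (δ / 4)]
          nlinarith [(hV l (F w)).2, norm_nonneg (F w)]
      _ ≤ δE := by rw [← Finset.mul_sum, hF1]; linarith

end Vale.Agent.P083.Kirchberg
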