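import Vale.Agent.P083.Kirchberg.SpecModel

/-!
P083: the algebra with the relations: permutations and shifts on the square summable functions
on the union of the levels.
-/

namespace Vale.Agent.P083.Kirchberg

namespace ModelAux

section Push

variable {α : Type}

/-- Square summable functions. -/
noncomputable abbrev Sp (α : Type) := lp (fun _ : α => ℂ) 2

/-- The unit vector at a point. -/
noncomputable def dlt [DecidableEq α] (i : α) : Sp α := lp.single 2 i (1 : ℂ)

variable [DecidableEq α]

theorem dlt_apply (i j : α) : (dlt i : Sp α) j = if j = i then 1 else 0 := by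
  simp [dlt, lp.single_apply, Pi.single_apply]

theorem inner_dlt (i : α) (ξ : Sp α) : inner ℂ (dlt i) ξ = ξ i := by
  simp [dlt, lp.inner_single_left]

theorem orthonormal_dlt : Orthonormal ℂ (dlt : α → Sp α) := by
  rw [orthonormal_iff_ite]
  intro i j
  rw [inner_dlt, dlt_apply]

theorem single_eq (i : α) (a : ℂ) : lp.single 2 i a = a • dlt i := by
  rw [dlt, ← lp.single_smul, smul_eq_mul, mul_one]

theorem op_ext {S T : Sp α →L[ℂ] Sp α} (h : ∀ i, S (dlt i) = T (dlt i)) : S = T := by
  refine lp.ext_continuousLinearMap (by simp) fun i => ContinuousLinearMap.ext_ring ?_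
  exact h i

/-- The isometry moving the unit vectors along an injective map. -/
noncomputable def push (f : α → α) (hf : Function.Injective f) : Sp α →L[ℂ] Sp α :=
  ((orthonormal_dlt.comp f hf).orthogonalFamily.linearIsometry).toContinuousLinearMap

theorem push_dlt {f : α → α} (hf : Function.Injective f) (i : α) :
    push f hf (dlt i) = dlt (f i) := by
  show ((orthonormal_dlt.comp f hf).orthogonalFamily.linearIsometry) (lp.single 2 i 1) = _
  rw [OrthogonalFamily.linearIsometry_apply_single]
  simp

theorem star_push_apply {f : α → α} (hf : Function.Injective f) (ξ : Sp α) (w : α) :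
    (star (push f hf) ξ) w = ξ (f w) := by
  rw [← inner_dlt w, ContinuousLinearMap.star_eq_adjoint,
    ContinuousLinearMap.adjoint_inner_right, push_dlt, inner_dlt]

theorem push_mul {f g h : α → α} (hf : Function.Injective f) (hg : Function.Injective g)
    (hh : Function.Injective h) (e : ∀ i, f (g i) = h i) :
    push f hf * push g hg = push h hh :=
  op_ext fun i => by simp [push_dlt, e]

theorem star_push_mul {f g : α → α} (hf : Function.Injective f) (hg : Function.Injective g) :
    (∀ i, f i = g i) → star (push f hf) * push g hg = 1 := fun e => op_ext fun i => by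
  refine lp.ext (funext fun w => ?_)
  rw [mul_apply_eq_comp, push_dlt, star_push_apply, dlt_apply, one_apply_eq_self, dlt_apply, ← e i]
  simp [hf.eq_iff]

theorem star_push_mul_zero {f g : α → α} (hf : Function.Injective f) (hg : Function.Injective g)
    (h : ∀ i j, f i ≠ g j) : star (push f hf) * push g hg = 0 := op_ext fun i => by
  refine lp.ext (funext fun w => ?_)
  rw [mul_apply_eq_comp, push_dlt, star_push_apply, dlt_apply]
  simp [h w i]

/-- Permutations act by unitaries. -/
noncomputable def permOp : Equiv.Perm α →* (Sp α →L[ℂ] Sp α) where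
  toFun σ := push σ σ.injective
  map_one' := op_ext fun i => by
    rw [push_dlt]; rfl
  map_mul' σ τ := (push_mul (f := ⇑σ) (g := ⇑τ) (h := ⇑(σ * τ)) σ.injective τ.injective
    (σ * τ).injective fun _ => rfl).symm

theorem permOp_dlt (σ : Equiv.Perm α) (i : α) : permOp σ (dlt i) = dlt (σ i) :=
  push_dlt σ.injective i

theorem star_permOp (σ : Equiv.Perm α) : star (permOp σ) = permOp σ⁻¹ := op_ext fun i => by
  refine lp.ext (funext fun w => ?_)
  show (star (push σ σ.injective) (dlt i)) w = _
  rw [star_push_apply, permOp_dlt, dlt_apply, dlt_apply, Equiv.Perm.inv_def]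
  exact if_congr (Equiv.eq_symm_apply σ).symm rfl rfl

end Push

section Transfer

theorem weval_map {G G' F : Type*} [Monoid G] [Monoid G'] [FunLike F G G'] [MonoidHomClass F G G']
    (φ : F) (u : Letter → G) (w : List Letter) :
    φ (weval u w) = weval (fun l => φ (u l)) w := by
  simp [weval, map_list_prod, List.map_map, Function.comp_def]

theorem rel_map {G G' F : Type*} [Monoid G] [Monoid G'] [FunLike F G G'] [MonoidHomClass F G G']
    (φ : F) {u : Letter → G} (h : Rel u) : Rel fun l => φ (u l) where
  zero i := by rw [h.zero, map_one]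
  add i c d := by rw [← map_mul, h.add]
  czero i := by rw [← weval_map φ, h.czero, map_one]
  cadd i c d := by rw [← weval_map φ, ← weval_map φ, ← weval_map φ, ← map_mul, h.cadd]
  comm0 i c d := by rw [← weval_map φ, ← map_mul, ← map_mul, h.comm0]
  comm1 i c d := by rw [← weval_map φ, ← map_mul, ← map_mul, h.comm1]
  heis i c d := by rw [← weval_map φ, ← map_mul, ← map_mul, ← map_mul, h.heis]

theorem rel_of_injective {G G' F : Type*} [Monoid G] [Monoid G'] [FunLike F G G']
    [MonoidHomClass F G G'] (φ : F) (hφ : Function.Injective φ) {u : Letter → G}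
    (h : Rel fun l => φ (u l)) : Rel u := by
  constructor <;> intros <;> apply hφ <;> simp only [weval_map φ, map_mul, map_one]
  · exact h.zero _
  · exact h.add _ _ _
  · exact h.czero _
  · exact h.cadd _ _ _
  · exact h.comm0 _ _ _
  · exact h.comm1 _ _ _
  · exact h.heis _ _ _

theorem rel_pi {ι : Type*} {G : ι → Type*} [∀ m, Monoid (G m)] {u : ∀ m, Letter → G m}
    (h : ∀ m, Rel (u m)) : Rel fun l m => u m l := by
  have e : ∀ w m, weval (fun l m => u m l) w m = weval (u m) w := fun w m =>
    weval_map (Pi.evalMonoidHom G m) (fun l m => u m l) w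
  constructor <;> intros <;> funext m <;> simp only [Pi.mul_apply, Pi.one_apply, e]
  · exact (h m).zero _
  · exact (h m).add _ _ _
  · exact (h m).czero _
  · exact (h m).cadd _ _ _
  · exact (h m).comm0 _ _ _
  · exact (h m).comm1 _ _ _
  · exact (h m).heis _ _ _

theorem aElt_map {A A' : Type*} [Ring A] [StarRing A] [Algebra ℂ A] [Ring A'] [StarRing A']
    [Algebra ℂ A'] (φ : A →⋆ₐ[ℂ] A') (S : Dig → A) (x : Dig) :
    φ (aElt S x) = aElt (fun y => φ (S y)) x := by
  simp [aElt, rootProj, map_sub, map_sum, map_star, map_smul]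

theorem isModel_of_injective {A A' : Type*} [Ring A] [StarRing A] [Algebra ℂ A] [Ring A']
    [StarRing A'] [Algebra ℂ A'] (φ : A →⋆ₐ[ℂ] A') (hφ : Function.Injective φ)
    {u : Letter → A} {S : Dig → A} (h : IsModel (fun l => φ (u l)) (fun x => φ (S x))) :
    IsModel u S where
  rel := rel_of_injective φ hφ h.rel
  star_eq i c := hφ (by rw [map_star]; exact h.star_eq i c)
  iso x y := hφ (by rw [map_mul, map_star, h.iso x y]; split_ifs <;> simp)
  selfsim l x := hφ (by rw [map_mul, map_mul, weval_map φ]; exact h.selfsim l x)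
  shift l x := hφ (by rw [map_mul, aElt_map, aElt_map]; exact h.shift l x)
  ne h0 := h.ne (by rw [← aElt_map, h0, map_zero])

end Transfer

theorem dact_bijective (l : Letter) : Function.Bijective (dact l) := by
  refine Finite.injective_iff_bijective.1
    (Function.LeftInverse.injective (g := dact (l.1, -l.2)) ?_)
  obtain ⟨i, c⟩ := l
  intro x
  fin_cases i <;> simp [dact]

theorem subsingleton_Om0 : Subsingleton (Om 0) := by
  have : Subsingleton (R 0) := Fintype.card_le_one_iff_subsingleton.1 (by simp [card_R])
  infer_instance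

end ModelAux

open ModelAux in
theorem model (hP : PermSpec) : ModelSpec := by
  classical
  obtain ⟨π, -, hrel, -, hself, hbij, -⟩ := hP
  have := subsingleton_Om0
  let Ω := Σ m, Om m
  let σ : Letter → Equiv.Perm Ω := fun l => Equiv.Perm.sigmaCongrRightHom Om fun m => π m l
  have hσ : Rel σ := rel_map (Equiv.Perm.sigmaCongrRightHom Om) (rel_pi hrel)
  have hσw : ∀ w (p : Ω), weval σ w p = ⟨p.1, weval (π p.1) w p.2⟩ := by
    intro w p
    rw [show weval σ w = Equiv.Perm.sigmaCongrRightHom Om (weval (fun l m => π m l) w) from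
      (weval_map (Equiv.Perm.sigmaCongrRightHom Om) (fun l m => π m l) w).symm]
    exact congrArg (fun f : Equiv.Perm (Om p.1) => (⟨p.1, f p.2⟩ : Ω))
      (weval_map (Pi.evalMonoidHom (fun m => Equiv.Perm (Om m)) p.1) (fun l m => π m l) w)
  let j : Dig → Ω → Ω := fun x p => ⟨p.1 + 1, jmap p.1 x p.2⟩
  have hj2 : ∀ x y (p q : Ω), j x p = j y q → x = y ∧ p = q := by
    rintro x y ⟨m, v⟩ ⟨n, w⟩ h
    obtain rfl : m = n := by simpa [j] using congrArg Sigma.fst h
    have := (hbij m).1 (a₁ := (x, v)) (a₂ := (y, w)) (eq_of_heq (Sigma.mk.inj h).2)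
    simp_all
  have hj : ∀ x, Function.Injective (j x) := fun x p q h => (hj2 x x p q h).2
  let u : Letter → (Sp Ω →L[ℂ] Sp Ω) := fun l => permOp (σ l)
  let S : Dig → (Sp Ω →L[ℂ] Sp Ω) := fun x => push (j x) (hj x)
  let r : Ω := ⟨0, 0⟩
  have iso : ∀ x y, star (S x) * S y = if x = y then 1 else 0 := fun x y => by
    split_ifs with h
    · exact star_push_mul _ _ fun p => by rw [h]
    · exact star_push_mul_zero _ _ fun p q e => h (hj2 _ _ _ _ e).1
  have hkill : ∀ x, rootProj S * S x = 0 := fun x => by
    simp [rootProj, sub_mul, Finset.sum_mul, mul_assoc, iso]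
  have hroot : rootProj S (dlt r) = dlt r := by
    have h0 : ∀ x, star (S x) (dlt r) = 0 := fun x => by
      refine lp.ext (funext fun w => ?_)
      rw [star_push_apply, dlt_apply]
      exact if_neg fun e => Nat.succ_ne_zero w.1 (congrArg Sigma.fst e)
    simp [rootProj, h0]
  have hP0 : ∀ l, u l * rootProj S = rootProj S := fun l => by
    refine op_ext fun p => ?_
    obtain ⟨m, v⟩ := p
    rcases m with _ | m
    · obtain rfl : v = 0 := Subsingleton.elim _ _
      have : σ l r = r := by
        show (⟨0, π 0 l 0⟩ : Ω) = ⟨0, 0⟩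
        exact congrArg (fun w : Om 0 => (⟨0, w⟩ : Ω)) (Subsingleton.elim _ _)
      simp [u, hroot, permOp_dlt, this, r]
    · obtain ⟨⟨x, w⟩, hxw⟩ := (hbij m).2 v
      have : (dlt (⟨m + 1, v⟩ : Ω)) = S x (dlt ⟨m, w⟩) := by
        rw [push_dlt]
        simp [j, ← hxw]
      rw [this, ← mul_apply_eq_comp, ← mul_apply_eq_comp, mul_assoc, hkill]
      simp
  have hPw : ∀ w, weval u w * rootProj S = rootProj S := by
    intro w
    induction w with
    | nil => simp [weval]
    | cons l w ih => simp only [weval] at ih ⊢; simp [mul_assoc, ih, hP0]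
  have hsim : ∀ l x, u l * S x = S (dact l x) * weval u (restr l x) := fun l x => by
    rw [show weval u (restr l x) = permOp (weval σ (restr l x)) from
      (weval_map permOp σ _).symm]
    refine op_ext fun p => ?_
    have e : σ l (j x p) = j (dact l x) (weval σ (restr l x) p) := by
      rw [hσw]
      exact congrArg (fun w : Om (p.1 + 1) => (⟨p.1 + 1, w⟩ : Ω)) (hself p.1 l x p.2)
    simp [u, S, permOp_dlt, push_dlt, e]
  have hmodel : IsModel u S := by
    refine ⟨rel_map permOp hσ, fun i c => ?_, iso, hsim, fun l x => ?_, fun h => ?_⟩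
    · have e : (σ (i, c))⁻¹ = σ (i, -c) :=
        inv_eq_of_mul_eq_one_right (by rw [hσ.add, add_neg_cancel, hσ.zero])
      show star (permOp (σ (i, c))) = permOp (σ (i, -c))
      rw [star_permOp, e]
    · have hS : ∀ y, u l * (S y * rootProj S) = S (dact l y) * rootProj S := fun y => by
        rw [← mul_assoc, hsim, mul_assoc, hPw]
      simp only [aElt, mul_sub, mul_smul_comm, Finset.mul_sum, hS]
      rw [(dact_bijective l).sum_comp fun y => S y * rootProj S]
    · have h2 : ∀ y, inner ℂ (dlt (j 0 r)) (S y (rootProj S (dlt r))) =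
          if y = 0 then (1 : ℂ) else 0 := by
        intro y
        rw [hroot, push_dlt, inner_dlt, dlt_apply]
        exact if_congr ⟨fun e => (hj2 _ _ _ _ e).1.symm, fun e => by rw [e]⟩ rfl rfl
      have h1 : inner ℂ (dlt (j 0 r)) (aElt S 0 (dlt r)) = 0 := by simp [h]
      simp only [aElt, _root_.sub_apply, _root_.smul_apply,
        mul_apply_eq_comp, _root_.sum_apply, inner_sub_right, inner_smul_right,
        inner_sum, h2, Finset.sum_ite_eq', Finset.mem_univ, if_pos] at h1
      norm_num at h1
  let gen : Set (Sp Ω →L[ℂ] Sp Ω) := Set.range u ∪ Set.range S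
  let A := (StarAlgebra.adjoin ℂ gen).topologicalClosure
  have : IsClosed (A : Set (Sp Ω →L[ℂ] Sp Ω)) := StarSubalgebra.isClosed_topologicalClosure _
  have hgen : ∀ a ∈ gen, a ∈ A := fun a ha =>
    StarSubalgebra.le_topologicalClosure _ (StarAlgebra.subset_adjoin ℂ gen ha)
  have hsep : TopologicalSpace.IsSeparable (A : Set (Sp Ω →L[ℂ] Sp Ω)) := by
    rw [StarSubalgebra.topologicalClosure_coe]
    refine TopologicalSpace.IsSeparable.closure ?_
    have hc : Set.Countable
        ((Submonoid.closure (gen ∪ star gen) : Submonoid _) : Set (Sp Ω →L[ℂ] Sp Ω)) := by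
      have hfin : (gen ∪ star gen).Finite :=
        ((Set.finite_range u).union (Set.finite_range S)).union
          ((Set.finite_range u).union (Set.finite_range S)).star
      have := hfin.countable.to_subtype
      rw [Submonoid.closure_eq_mrange, MonoidHom.coe_mrange]
      have : Countable (FreeMonoid ↑(gen ∪ star gen)) :=
        inferInstanceAs (Countable (List ↑(gen ∪ star gen)))
      exact Set.countable_range _
    rw [show ((StarAlgebra.adjoin ℂ gen : StarSubalgebra ℂ _) : Set (Sp Ω →L[ℂ] Sp Ω)) =
      ((StarAlgebra.adjoin ℂ gen).toSubalgebra : Set (Sp Ω →L[ℂ] Sp Ω)) from rfl,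
      StarAlgebra.adjoin_toSubalgebra, ← Subalgebra.coe_toSubmodule, Algebra.adjoin_eq_span]
    exact hc.isSeparable.span
  exact ⟨A, inferInstance, fun l => ⟨u l, hgen _ (.inl ⟨l, rfl⟩)⟩,
    fun x => ⟨S x, hgen _ (.inr ⟨x, rfl⟩)⟩, hsep.separableSpace,
    isModel_of_injective A.subtype Subtype.coe_injective hmodel⟩

end Vale.Agent.P083.Kirchberg
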