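import Vale.Agent.P083.Kirchberg.Spec
import Vale.Agent.P083.Kirchberg.Fourier

/-!
P083: the letters generate all translations and shears, so a matrix commuting with them is a
convolution whose Fourier transform is constant on large orbits.
-/

namespace Vale.Agent.P083.Kirchberg.Orbit

open Finset

section Identities

variable {A : Type*} [CommRing A]

/-- Translation of the first coordinate. -/
def tr1 (x : A) (v : A × A) : A × A := (v.1 + x, v.2)

/-- Translation of the second coordinate. -/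
def tr2 (x : A) (v : A × A) : A × A := (v.1, v.2 + x)

theorem isUnit_one_add {y : A} (hy : IsNilpotent y) (a : A) : IsUnit (1 + y * a) :=
  ((Commute.all y a).isNilpotent_mul_right hy).isUnit_one_add

theorem smap_tr2_comm (r x : A) (v : A × A) :
    smap r (tr2 x (smap (-r) (tr2 (-x) v))) = tr1 (r * x) v := by
  ext <;> simp [smap, tr1, tr2] <;> ring

theorem qmap_tr1_comm (r x : A) (v : A × A) :
    qmap r (tr1 x (qmap (-r) (tr1 (-x) v))) = tr2 (r * x) v := by
  ext <;> simp [qmap, tr1, tr2] <;> ring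

theorem inv1_spec {x : A} (h : IsUnit (1 + x)) : (1 + x) * inv1 x = 1 :=
  Ring.mul_inverse_cancel _ h

theorem smap_pmap_comm {y : A} (hy : IsNilpotent y) (r : A) (v : A × A) :
    smap r (pmap y (smap (-r) (pmap (-y) v))) = rmap (-(y * r)) v := by
  obtain ⟨a, b⟩ := v
  have h1 := inv1_spec (isUnit_one_add hy.neg a)
  have h2 := inv1_spec
    (isUnit_one_add hy (a * inv1 (-y * a) + -r * (b * inv1 (-y * a))))
  have h3 := inv1_spec
    (isUnit_one_add ((Commute.all y r).isNilpotent_mul_right hy).neg b)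
  simp only [smap, pmap, rmap]
  set u := inv1 (-y * a)
  set w := inv1 (y * (a * u + -r * (b * u)))
  set z := inv1 (-(y * r) * b)
  have h : u * w = z := by grind
  ext
  · grind
  · grind

theorem tr1_rmap_comm {y : A} (hy : IsNilpotent y) (x : A) (v : A × A) :
    tr1 x (rmap y (tr1 (-x) (rmap (-y) v))) = smap (x * y) v := by
  obtain ⟨a, b⟩ := v
  have h1 := inv1_spec (isUnit_one_add hy.neg b)
  have h2 := inv1_spec (isUnit_one_add hy (b * inv1 (-y * b)))
  simp only [smap, tr1, rmap]
  set u := inv1 (-y * b)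
  set w := inv1 (y * (b * u))
  have h : w = 1 + -y * b := by grind
  ext
  · grind
  · grind

theorem tr2_pmap_comm {y : A} (hy : IsNilpotent y) (x : A) (v : A × A) :
    tr2 x (pmap y (tr2 (-x) (pmap (-y) v))) = qmap (x * y) v := by
  obtain ⟨a, b⟩ := v
  have h1 := inv1_spec (isUnit_one_add hy.neg a)
  have h2 := inv1_spec (isUnit_one_add hy (a * inv1 (-y * a)))
  simp only [qmap, tr2, pmap]
  set u := inv1 (-y * a)
  set w := inv1 (y * (a * u))
  have h : w = 1 + -y * a := by grind
  ext
  · grind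
  · grind

/-- `qmap` as a homomorphism. -/
def qHom (r : A) : A × A →+ A × A :=
  AddMonoidHom.mk' (qmap r) fun v w => by ext <;> simp [qmap] <;> ring

/-- `smap` as a homomorphism. -/
def sHom (r : A) : A × A →+ A × A :=
  AddMonoidHom.mk' (smap r) fun v w => by ext <;> simp [smap] <;> ring

theorem qmap_bijective (r : A) : Function.Bijective (qmap r) :=
  Function.bijective_iff_has_inverse.2
    ⟨qmap (-r), fun v => by simp [qmap], fun v => by simp [qmap]⟩

theorem smap_bijective (r : A) : Function.Bijective (smap r) :=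
  Function.bijective_iff_has_inverse.2
    ⟨smap (-r), fun v => by simp [smap], fun v => by simp [smap]⟩

end Identities

section Ring

variable {N : ℕ}

theorem isNilpotent_T_mul (c : R N) : IsNilpotent (T N * c) := by
  refine (Commute.all _ _).isNilpotent_mul_right ⟨N, ?_⟩
  simp only [T, ← map_pow]
  exact Ideal.Quotient.eq_zero_iff_mem.2 (Ideal.mem_span_singleton_self _)

theorem R_induction {P : R N → Prop} (hadd : ∀ x y, P x → P y → P (x + y))
    (hmon : ∀ (l : ℕ) (c : Fq), P (C' N c * T N ^ l)) (x : R N) : P x := by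
  obtain ⟨f, rfl⟩ := Ideal.Quotient.mk_surjective x
  induction f using Polynomial.induction_on' with
  | add f g hf hg => rw [map_add]; exact hadd _ _ hf hg
  | monomial l c =>
    rw [← Polynomial.C_mul_X_pow_eq_monomial, map_mul, map_pow]
    exact hmon l c

variable {n : ℕ}

theorem pr_surjective (n : ℕ) : Function.Surjective (pr n) :=
  Ideal.Quotient.factor_surjective _

/-- A point of the kernel of the reduction is a multiple of every nonzero element. -/
theorem exists_mul_eq {r k : R (n + 1)} (hr : r ≠ 0) (hk : pr n k = 0) : ∃ b, r * b = k := by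
  obtain ⟨f, rfl⟩ := Ideal.Quotient.mk_surjective r
  obtain ⟨g, rfl⟩ := Ideal.Quotient.mk_surjective k
  rw [pr, Ideal.Quotient.factor_mk, Ideal.Quotient.eq_zero_iff_mem,
    Ideal.mem_span_singleton] at hk
  obtain ⟨g, rfl⟩ := hk
  have hf : f ≠ 0 := fun h => hr (by simp [h])
  obtain ⟨h, hfh, hnd⟩ := Polynomial.exists_eq_pow_rootMultiplicity_mul_and_not_dvd f hf 0
  simp only [map_zero, sub_zero] at hfh hnd
  set i := f.rootMultiplicity 0
  have hin : i ≤ n := by
    by_contra hlt
    refine hr (Ideal.Quotient.eq_zero_iff_mem.2 (Ideal.mem_span_singleton.2 ?_))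
    rw [hfh]
    exact dvd_mul_of_dvd_left (pow_dvd_pow _ (by omega)) _
  have hco : IsCoprime h ((Polynomial.X : Polynomial Fq) ^ (n + 1)) :=
    ((Polynomial.prime_X.coprime_iff_not_dvd).2 hnd).symm.pow_right
  obtain ⟨a, b, hab⟩ := hco
  refine ⟨Ideal.Quotient.mk _ (Polynomial.X ^ (n - i) * a * g), ?_⟩
  rw [← map_mul, Ideal.Quotient.eq, Ideal.mem_span_singleton, hfh]
  refine ⟨-(b * Polynomial.X ^ n * g), ?_⟩
  have hp : (Polynomial.X : Polynomial Fq) ^ i * Polynomial.X ^ (n - i) = Polynomial.X ^ n := by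
    rw [← pow_add, Nat.add_sub_cancel' hin]
  linear_combination (h * a * g) * hp + (Polynomial.X ^ n * g) * hab

theorem shift_injective (n : ℕ) : Function.Injective (shift n) := by
  intro x y h
  obtain ⟨f, rfl⟩ := Ideal.Quotient.mk_surjective x
  obtain ⟨g, rfl⟩ := Ideal.Quotient.mk_surjective y
  change Ideal.Quotient.mk _ (Polynomial.X * f) = Ideal.Quotient.mk _ (Polynomial.X * g) at h
  rw [Ideal.Quotient.eq, Ideal.mem_span_singleton, ← mul_sub, pow_succ'] at h
  exact Ideal.Quotient.eq.2 (Ideal.mem_span_singleton.2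
    ((mul_dvd_mul_iff_left Polynomial.X_ne_zero).1 h))

theorem exists_shift_eq (n : ℕ) (x : R n) : ∃ r, shift n x = T (n + 1) * r := by
  obtain ⟨f, rfl⟩ := Ideal.Quotient.mk_surjective x
  exact ⟨Ideal.Quotient.mk _ f, (map_mul (Ideal.Quotient.mk _) Polynomial.X f : _)⟩

end Ring

/-- `Z` is unchanged by `g`. -/
def Inv {V : Type*} (Z : Matrix V V ℂ) (g : V → V) : Prop := ∀ v w, Z (g v) (g w) = Z v w

theorem Inv.comp {V : Type*} {Z : Matrix V V ℂ} {g h : V → V} (hg : Inv Z g) (hh : Inv Z h) :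
    Inv Z (g ∘ h) := fun v w => (hg _ _).trans (hh v w)

theorem Inv.four {V : Type*} {Z : Matrix V V ℂ} {g a b c d : V → V} (ha : Inv Z a)
    (hb : Inv Z b) (hc : Inv Z c) (hd : Inv Z d) (h : ∀ v, a (b (c (d v))) = g v) : Inv Z g := by
  intro v w
  rw [← h v, ← h w, ha, hb, hc, hd]

section Generated

variable {A : Type*} [CommRing A] {Z : Matrix (A × A) (A × A) ℂ}

theorem inv_monomials {t : A} (ht : IsNilpotent t) (ι : Fq →+* A)
    (hs : ∀ c, Inv Z (smap (ι c))) (h2 : ∀ c, Inv Z (tr2 (ι c)))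
    (hp : ∀ c, Inv Z (pmap (t * ι c))) (l : ℕ) (c : Fq) :
    Inv Z (tr1 (ι c * t ^ l)) ∧ Inv Z (tr2 (ι c * t ^ l)) := by
  have hsn : ∀ c, Inv Z (smap (-ι c)) := fun c => by rw [← map_neg]; exact hs _
  have h2n : ∀ c, Inv Z (tr2 (-ι c)) := fun c => by rw [← map_neg]; exact h2 _
  have hp1 : Inv Z (pmap t) := by simpa using hp 1
  have hpn : Inv Z (pmap (-t)) := by simpa using hp (-1)
  have hq : ∀ c, Inv Z (qmap (ι c * t)) := fun c =>
    Inv.four (h2 c) hp1 (h2n c) hpn fun v => tr2_pmap_comm ht (ι c) v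
  have hqn : ∀ c, Inv Z (qmap (-(ι c * t))) := fun c => by
    rw [← neg_mul, ← map_neg]; exact hq _
  induction l generalizing c with
  | zero =>
    simp only [pow_zero, mul_one]
    refine ⟨Inv.four (hs c) (h2 1) (hsn c) (h2n 1) fun v => ?_, h2 c⟩
    rw [smap_tr2_comm, map_one, mul_one]
  | succ l ih =>
    have ha : Inv Z (tr1 (t ^ l)) := by simpa using (ih 1).1
    have han : Inv Z (tr1 (-t ^ l)) := by simpa using (ih (-1)).1
    have h2' : ∀ c, Inv Z (tr2 (ι c * t ^ (l + 1))) := fun c => by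
      refine Inv.four (hq c) ha (hqn c) han fun v => ?_
      rw [qmap_tr1_comm, pow_succ', mul_assoc]
    have hb : Inv Z (tr2 (t ^ (l + 1))) := by simpa using h2' 1
    have hbn : Inv Z (tr2 (-t ^ (l + 1))) := by simpa using h2' (-1)
    exact ⟨Inv.four (hs c) hb (hsn c) hbn fun v => smap_tr2_comm _ _ v, h2' c⟩

theorem inv_generated {t : A} (ht : IsNilpotent t) (ι : Fq →+* A)
    (hind : ∀ P : A → Prop, (∀ x y, P x → P y → P (x + y)) →
      (∀ l c, P (ι c * t ^ l)) → ∀ x, P x)
    (hs : ∀ c, Inv Z (smap (ι c))) (h2 : ∀ c, Inv Z (tr2 (ι c)))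
    (hp : ∀ c, Inv Z (pmap (t * ι c))) :
    (∀ x, Inv Z (tr1 x)) ∧ (∀ x, Inv Z (tr2 x)) ∧ (∀ r, Inv Z (smap r)) ∧
      ∀ r, Inv Z (qmap (t * r)) := by
  have hT := inv_monomials ht ι hs h2 hp
  have h1a : ∀ x, Inv Z (tr1 x) := hind _ (fun x y hx hy => by
    convert hy.comp hx using 1
    funext v; ext <;> simp [tr1, add_assoc]) fun l c => (hT l c).1
  have h2a : ∀ x, Inv Z (tr2 x) := hind _ (fun x y hx hy => by
    convert hy.comp hx using 1
    funext v; ext <;> simp [tr2, add_assoc]) fun l c => (hT l c).2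
  have hp1 : Inv Z (pmap t) := by simpa using hp 1
  have hpn : Inv Z (pmap (-t)) := by simpa using hp (-1)
  have hs1 : Inv Z (smap (-1)) := by simpa using hs (-1)
  have hs2 : Inv Z (smap (- -(1 : A))) := by simpa using hs 1
  have hr : ∀ y, y = t ∨ y = -t → Inv Z (rmap y) := fun y hy => by
    have hny : IsNilpotent y := by rcases hy with rfl | rfl; exacts [ht, ht.neg]
    have h' : Inv Z (pmap y) ∧ Inv Z (pmap (-y)) := by
      rcases hy with rfl | rfl
      · exact ⟨hp1, hpn⟩
      · rw [neg_neg]; exact ⟨hpn, hp1⟩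
    refine Inv.four hs1 h'.1 hs2 h'.2 fun v => ?_
    rw [smap_pmap_comm hny, mul_neg_one, neg_neg]
  refine ⟨h1a, h2a, hind _ (fun x y hx hy => ?_) fun l c => ?_, fun r => ?_⟩
  · convert hy.comp hx using 1
    funext v; ext <;> simp [smap] <;> ring
  · rcases l with _ | l
    · simpa using hs c
    · refine Inv.four (h1a (ι c * t ^ l)) (hr t (.inl rfl)) (h1a (-(ι c * t ^ l))) (hr (-t) (.inr rfl)) fun v => ?_
      rw [tr1_rmap_comm ht, pow_succ, mul_assoc]
  · rw [mul_comm]
    exact Inv.four (h2a r) hp1 (h2a (-r)) hpn fun v => tr2_pmap_comm ht r v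

end Generated

theorem inv_all {N : ℕ} {Z : Matrix (Om N) (Om N) ℂ} (hZ : ∀ l, Inv Z (genFun N l)) :
    (∀ x, Inv Z (tr1 x)) ∧ (∀ x, Inv Z (tr2 x)) ∧ (∀ r, Inv Z (smap r)) ∧
      ∀ r, Inv Z (qmap (T N * r)) := by
  refine inv_generated (by simpa using isNilpotent_T_mul (1 : R N)) (C' N)
    (fun P hadd hmon x => R_induction hadd hmon x) (fun c => hZ (0, c)) (fun c => ?_)
    fun c => hZ (2, c)
  have h : (tr2 (C' N c) : Om N → Om N) = genFun N (1, c) := by
    funext v; ext <;> simp [tr2, genFun]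
  rw [h]; exact hZ _

variable {n : ℕ}

/-- A character seen by a new function is nontrivial on the kernel of the reduction. -/
theorem exists_kernel {e : Om (n + 1) → ℂ} (he : IsNew e) {χ : AddChar (Om (n + 1)) ℂ}
    (hχ : ft e χ ≠ 0) : ∃ k, prO n k = 0 ∧ χ k ≠ 1 := by
  by_contra h
  push Not at h
  refine hχ ?_
  rw [ft, ← sum_fiberwise univ (prO n) fun x => _]
  refine sum_eq_zero fun v _ => ?_
  obtain ⟨a, ha⟩ := pr_surjective n v.1
  obtain ⟨b, hb⟩ := pr_surjective n v.2
  calc ∑ x ∈ univ.filter (fun x => prO n x = v), (starRingEnd ℂ) (χ x) * e x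
      = ∑ x ∈ univ.filter (fun x => prO n x = v), (starRingEnd ℂ) (χ (a, b)) * e x := by
        refine sum_congr rfl fun x hx => ?_
        rw [mem_filter] at hx
        have hk : χ (x - (a, b)) = 1 := h _ (by
          rw [← Prod.mk.eta (p := v)] at hx
          simp only [prO, Prod.mk.injEq] at hx
          simp [prO, hx.2.1, hx.2.2, ha, hb])
        rw [← sub_add_cancel x (a, b), AddChar.map_add_eq_mul, hk, one_mul, sub_add_cancel]
    _ = 0 := by rw [← mul_sum, he v, mul_zero]

theorem orbit : OrbitSpec := by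
  intro n Z hZ e he
  obtain ⟨h1, h2, hs, hq⟩ := inv_all (Z := Z) fun l v w => hZ l v w
  set f : Om (n + 1) → ℂ := fun d => Z d 0 with hf
  have hZf : ∀ v w, Z v w = f (v - w) := fun v w => by
    have := (h1 (-w.1)).comp (h2 (-w.2)) v w
    rw [← this, hf]
    congr 1 <;> ext <;> simp [tr1, tr2, sub_eq_add_neg]
  have hinv : ∀ (A : Om (n + 1) →+ Om (n + 1)), Inv Z A → ∀ x, f (A x) = f x := fun A hA x => by
    have := hA x 0
    rwa [map_zero] at this
  have horb : ∀ χ, ft e χ ≠ 0 →
      ∃ S : Finset (AddChar (Om (n + 1)) ℂ), 5 ^ n ≤ #S ∧ ∀ ψ ∈ S, ft f ψ = ft f χ := by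
    intro χ hχ
    obtain ⟨k, hk, hχk⟩ := exists_kernel he hχ
    simp only [prO, Prod.ext_iff, Prod.fst_zero, Prod.snd_zero] at hk
    by_cases ha : χ (k.1, 0) = 1
    · have hb : χ (0, k.2) ≠ 1 := fun hb => hχk (by
        rw [show k = (k.1, 0) + (0, k.2) by ext <;> simp, AddChar.map_add_eq_mul, ha, hb, one_mul])
      refine ⟨univ.image fun x => χ.compAddMonoidHom (qHom (shift n x)), ?_, ?_⟩
      · rw [card_image_of_injective _ ?_, card_univ, card_R]
        intro x y hxy
        by_contra hne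
        have hd : shift n x - shift n y ≠ 0 := sub_ne_zero.2 fun h => hne (shift_injective n h)
        obtain ⟨a, ha'⟩ := exists_mul_eq hd hk.2
        have he := DFunLike.congr_fun hxy (a, -(shift n y * a))
        simp only [AddChar.compAddMonoidHom_apply] at he
        have e1 : qHom (shift n x) (a, -(shift n y * a)) = (0, k.2) + (a, 0) := by
          rw [← ha']; ext <;> simp [qHom, qmap] <;> ring
        have e2 : qHom (shift n y) (a, -(shift n y * a)) = (a, 0) := by
          ext <;> simp [qHom, qmap]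
        rw [e1, e2, AddChar.map_add_eq_mul] at he
        exact hb (mul_right_cancel₀ (χ.val_isUnit _).ne_zero (he.trans (one_mul _).symm))
      · intro ψ hψ
        obtain ⟨x, -, rfl⟩ := mem_image.1 hψ
        refine ft_comp f χ _ (qmap_bijective _) (hinv _ ?_)
        obtain ⟨r, hr⟩ := exists_shift_eq n x
        rw [hr]
        exact hq r
    · refine ⟨univ.image fun x => χ.compAddMonoidHom (sHom x), ?_, ?_⟩
      · rw [card_image_of_injective _ ?_, card_univ, card_R]
        · exact Nat.pow_le_pow_right (by norm_num) n.le_succ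
        intro x y hxy
        by_contra hne
        obtain ⟨b, hb'⟩ := exists_mul_eq (sub_ne_zero.2 hne) hk.1
        have he := DFunLike.congr_fun hxy (-(y * b), b)
        simp only [AddChar.compAddMonoidHom_apply] at he
        have e1 : sHom x (-(y * b), b) = (k.1, 0) + (0, b) := by
          rw [← hb']; ext <;> simp [sHom, smap] <;> ring
        have e2 : sHom y (-(y * b), b) = (0, b) := by ext <;> simp [sHom, smap]
        rw [e1, e2, AddChar.map_add_eq_mul] at he
        exact ha (mul_right_cancel₀ (χ.val_isUnit _).ne_zero (he.trans (one_mul _).symm))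
      · intro ψ hψ
        obtain ⟨x, -, rfl⟩ := mem_image.1 hψ
        exact ft_comp f χ _ (smap_bijective _) (hinv _ (hs x))
  have h := conv_bound f e (5 ^ n) horb
  push_cast at h
  simp only [hZf]
  refine h.trans_eq ?_
  congr 1
  rw [← nsmul_eq_mul, ← card_univ, ← sum_const]
  exact sum_congr rfl fun v _ => (Fintype.sum_equiv (Equiv.subLeft v) _ _ fun w => by simp).symm

end Vale.Agent.P083.Kirchberg.Orbit

namespace Vale.Agent.P083.Kirchberg

theorem orbit : OrbitSpec := Orbit.orbit

end Vale.Agent.P083.Kirchberg
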