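import Vale.Agent.P083.Kirchberg.SpecModel

/-!
P083: some algebra is generated by a Cuntz pair.
-/

open scoped InnerProductSpace

namespace Vale.Agent.P083.Kirchberg

noncomputable section

/-- Square summable sequences. -/
private abbrev L2 : Type := lp (fun _ : ℕ => ℂ) 2

/-- The canonical basis. -/
private def bas : HilbertBasis ℕ ℂ L2 := HilbertBasis.ofRepr (LinearIsometryEquiv.refl ℂ L2)

private theorem orth_shift (i : Fin 2) : Orthonormal ℂ fun n : ℕ => bas (2 * n + i) :=
  bas.orthonormal.comp (fun n : ℕ => 2 * n + (i : ℕ)) fun a b h => by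
    simp only at h; omega

/-- The isometry onto the even, or odd, coordinates. -/
private def shiftIso (i : Fin 2) : L2 →L[ℂ] L2 :=
  (orth_shift i).orthogonalFamily.linearIsometry.toContinuousLinearMap

private theorem shiftIso_bas (i : Fin 2) (n : ℕ) : shiftIso i (bas n) = bas (2 * n + i) := by
  rw [← bas.repr_symm_single n]
  show (orth_shift i).orthogonalFamily.linearIsometry (lp.single 2 n (1 : ℂ)) = _
  rw [OrthogonalFamily.linearIsometry_apply_single]
  simp [bas]

private theorem shiftIso_star_mul (i : Fin 2) : star (shiftIso i) * shiftIso i = 1 :=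
  (ContinuousLinearMap.norm_map_iff_adjoint_comp_self _).1
    (orth_shift i).orthogonalFamily.linearIsometry.norm_map

private theorem star_shiftIso_bas (i : Fin 2) (m : ℕ) :
    star (shiftIso i) (bas m) = if m % 2 = i then bas (m / 2) else 0 := by
  have h : ∀ n, ⟪bas n, star (shiftIso i) (bas m)⟫_ℂ = ⟪bas (2 * n + i), bas m⟫_ℂ := fun n => by
    rw [ContinuousLinearMap.star_eq_adjoint, ContinuousLinearMap.adjoint_inner_right,
      shiftIso_bas]
  refine bas.repr.injective (lp.ext (funext fun n => ?_))
  simp only [HilbertBasis.repr_apply_apply, h]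
  have hb := orthonormal_iff_ite.1 bas.orthonormal
  have hi := i.isLt
  split_ifs with hm
  · rw [hb, hb]
    by_cases hn : 2 * n + (i : ℕ) = m
    · rw [if_pos hn, if_pos (by omega)]
    · rw [if_neg hn, if_neg (by omega)]
  · rw [hb, inner_zero_right, if_neg (by omega)]

private theorem shiftIso_sum :
    shiftIso 0 * star (shiftIso 0) + shiftIso 1 * star (shiftIso 1) = 1 := by
  refine ContinuousLinearMap.ext_on
    (Submodule.dense_iff_topologicalClosure_eq_top.2 bas.dense_span) ?_
  rintro - ⟨m, rfl⟩
  simp only [add_apply, mul_apply_eq_comp, one_apply_eq_self,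
    star_shiftIso_bas]
  rcases Nat.mod_two_eq_zero_or_one m with h | h
  · simp [h, shiftIso_bas]
    congr 1; omega
  · simp [h, shiftIso_bas]
    congr 1; omega

/-- Some algebra is generated by a Cuntz pair. -/
theorem pairExists : PairExistsSpec := by
  let S : StarSubalgebra ℂ (L2 →L[ℂ] L2) :=
    (StarAlgebra.adjoin ℂ (Set.range shiftIso)).topologicalClosure
  have : IsClosed (S : Set (L2 →L[ℂ] L2)) := StarSubalgebra.isClosed_topologicalClosure _
  let s : Fin 2 → S := fun i => ⟨shiftIso i,
    StarSubalgebra.le_topologicalClosure _ (StarAlgebra.subset_adjoin ℂ _ ⟨i, rfl⟩)⟩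
  have hpair : Free.IsPair s := ⟨fun i => Subtype.ext (shiftIso_star_mul i),
    Subtype.ext shiftIso_sum⟩
  refine ⟨S, inferInstance, s, ⟨⟨0, 1, fun h => ?_⟩⟩, hpair, ?_⟩
  · have := congrArg (fun z : S => (z : L2 →L[ℂ] L2) (bas 0)) h
    simp only [ZeroMemClass.coe_zero, OneMemClass.coe_one, zero_apply,
      one_apply_eq_self] at this
    exact bas.orthonormal.ne_zero 0 this.symm
  · rw [dense_iff_closure_eq, Set.eq_univ_iff_forall]
    intro z
    rw [closure_subtype]
    refine closure_mono ?_ z.2
    have hle : StarAlgebra.adjoin ℂ (Set.range shiftIso) ≤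
        (StarAlgebra.adjoin ℂ (Set.range s)).map S.subtype := by
      refine StarAlgebra.adjoin_le ?_
      rintro - ⟨i, rfl⟩
      exact ⟨s i, StarAlgebra.subset_adjoin ℂ _ ⟨i, rfl⟩, rfl⟩
    exact hle

end

end Vale.Agent.P083.Kirchberg
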