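import Vale.Agent.P083.Kirchberg.Spec

/-!
P083: the letters are permutations of the levels; the relations and the restriction rule.
-/

namespace Vale.Agent.P083.Kirchberg

open Polynomial

section Inverse

variable {A : Type*} [CommRing A] {x y : A}

theorem inv1_eq (h : (1 + x) * y = 1) : inv1 x = y :=
  Ring.inverse_unit (Units.mkOfMulEqOne (1 + x) y h)

theorem inv1_spec (h : IsNilpotent x) : (1 + x) * inv1 x = 1 :=
  Ring.mul_inverse_cancel _ h.isUnit_one_add

theorem inv1_zero : inv1 (0 : A) = 1 := by simp [inv1]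

theorem inv1_mul_inv1 (hx : IsNilpotent x) (hy : IsNilpotent y) :
    inv1 x * inv1 (y * inv1 x) = inv1 (x + y) := by
  refine (inv1_eq ?_).symm
  have h1 := inv1_spec hx
  have h2 := inv1_spec ((Commute.all y (inv1 x)).isNilpotent_mul_right hy)
  linear_combination inv1 (y * inv1 x) * h1 + h2

theorem map_inv1 {B : Type*} [CommRing B] (f : A →+* B) (h : IsNilpotent x) :
    f (inv1 x) = inv1 (f x) := by
  refine (inv1_eq ?_).symm
  rw [← map_one f, ← map_add, ← map_mul, inv1_spec h]

/-- Division of both coordinates by one plus a linear form. -/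
noncomputable def dmap (r s : A) (v : A × A) : A × A :=
  (v.1 * inv1 (r * v.1 + s * v.2), v.2 * inv1 (r * v.1 + s * v.2))

theorem pmap_eq (r : A) (v : A × A) : pmap r v = dmap r 0 v := by simp [pmap, dmap]

theorem rmap_eq (r : A) (v : A × A) : rmap r v = dmap 0 r v := by simp [rmap, dmap]

theorem nil_mul {r : A} (hr : IsNilpotent r) (a : A) : IsNilpotent (r * a) :=
  (Commute.all r a).isNilpotent_mul_right hr

theorem nil_lin {r s : A} (hr : IsNilpotent r) (hs : IsNilpotent s) (a b : A) :
    IsNilpotent (r * a + s * b) :=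
  (Commute.all _ _).isNilpotent_add (nil_mul hr a) (nil_mul hs b)

theorem dmap_dmap {r s r' s' : A} (hr : IsNilpotent r) (hs : IsNilpotent s)
    (hr' : IsNilpotent r') (hs' : IsNilpotent s') (v : A × A) :
    dmap r s (dmap r' s' v) = dmap (r + r') (s + s') v := by
  have key : inv1 (r' * v.1 + s' * v.2) *
      inv1 (r * (v.1 * inv1 (r' * v.1 + s' * v.2)) + s * (v.2 * inv1 (r' * v.1 + s' * v.2)))
      = inv1 ((r + r') * v.1 + (s + s') * v.2) := by
    have e1 : r * (v.1 * inv1 (r' * v.1 + s' * v.2)) + s * (v.2 * inv1 (r' * v.1 + s' * v.2))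
        = (r * v.1 + s * v.2) * inv1 (r' * v.1 + s' * v.2) := by ring
    rw [e1, inv1_mul_inv1 (nil_lin hr' hs' v.1 v.2) (nil_lin hr hs v.1 v.2)]
    congr 1
    ring
  simp only [dmap, mul_assoc, key]

theorem dmap_smap (r s c : A) (v : A × A) :
    dmap r s (smap c v) = smap c (dmap r (r * c + s) v) := by
  have h : r * (v.1 + c * v.2) + s * v.2 = r * v.1 + (r * c + s) * v.2 := by ring
  simp only [dmap, smap, h]
  exact Prod.ext (by ring) rfl

theorem dmap_qmap (r s q : A) (v : A × A) :
    dmap r s (qmap q v) = qmap q (dmap (r + s * q) s v) := by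
  have h : r * v.1 + s * (v.2 + q * v.1) = (r + s * q) * v.1 + s * v.2 := by ring
  simp only [dmap, qmap, h]
  exact Prod.ext rfl (by ring)

theorem smap_smap (c d : A) (v : A × A) : smap c (smap d v) = smap (c + d) v :=
  Prod.ext (by simp [smap]; ring) rfl

theorem qmap_qmap (c d : A) (v : A × A) : qmap c (qmap d v) = qmap (c + d) v :=
  Prod.ext rfl (by simp [qmap]; ring)

theorem smap_zero (v : A × A) : smap 0 v = v := by simp [smap]

theorem qmap_zero (v : A × A) : qmap 0 v = v := by simp [qmap]

theorem dmap_zero (v : A × A) : dmap 0 0 v = v := by simp [dmap, inv1_zero]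

theorem pmap_pmap {r s : A} (hr : IsNilpotent r) (hs : IsNilpotent s) (v : A × A) :
    pmap r (pmap s v) = pmap (r + s) v := by
  simp [pmap_eq, dmap_dmap hr .zero hs .zero]

theorem rmap_rmap {r s : A} (hr : IsNilpotent r) (hs : IsNilpotent s) (v : A × A) :
    rmap r (rmap s v) = rmap (r + s) v := by
  simp [rmap_eq, dmap_dmap .zero hr .zero hs]

theorem pmap_rmap {r s : A} (hr : IsNilpotent r) (hs : IsNilpotent s) (v : A × A) :
    pmap r (rmap s v) = rmap s (pmap r v) := by
  simp [pmap_eq, rmap_eq, dmap_dmap hr .zero .zero hs, dmap_dmap .zero hs hr .zero]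

theorem pmap_add_conj {r r' : A} (hr : IsNilpotent r) (h : r' + r = 0) (c : A) (v : A × A) :
    pmap r' (pmap r v + (0, c)) = v + (0, c * (1 + r * v.1)) := by
  obtain rfl : r' = -r := eq_neg_of_add_eq_zero_left h
  have h1 := inv1_spec (nil_mul hr v.1)
  have h2 : inv1 (-r * (v.1 * inv1 (r * v.1))) = 1 + r * v.1 := by
    refine inv1_eq ?_
    linear_combination (-(r * v.1)) * h1
  simp only [pmap, Prod.fst_add, Prod.snd_add, add_zero, h2]
  refine Prod.ext ?_ ?_
  · simp only [Prod.fst_add, add_zero]
    linear_combination v.1 * h1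
  · simp only [Prod.snd_add]
    linear_combination v.2 * h1

theorem pmap_add_snd {r : A} (hr : IsNilpotent r) (c : A) (v : A × A) :
    pmap r v + (0, c) = qmap (c * r) (pmap r (v + (0, c))) := by
  have h1 := inv1_spec (nil_mul hr v.1)
  simp only [pmap, qmap, Prod.fst_add, Prod.snd_add, add_zero, Prod.mk_add_mk]
  refine Prod.ext rfl ?_
  linear_combination (-c) * h1

end Inverse

section Level

variable (m : ℕ)

theorem T_pow : T m ^ m = 0 := by
  rw [T, ← map_pow]
  exact Ideal.Quotient.eq_zero_iff_mem.2 (Ideal.mem_span_singleton_self _)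

theorem nil_T (a : R m) : IsNilpotent (T m * a) := nil_mul ⟨m, T_pow m⟩ a

theorem gen_zero (c : Fq) (v : Om m) : genFun m (0, c) v = smap (C' m c) v := rfl

theorem gen_one (c : Fq) (v : Om m) : genFun m (1, c) v = v + (0, C' m c) := rfl

theorem gen_two (c : Fq) (v : Om m) : genFun m (2, c) v = pmap (T m * C' m c) v := rfl

theorem gen_add : ∀ (i : Fin 3) (c d : Fq) (v : Om m),
    genFun m (i, c) (genFun m (i, d) v) = genFun m (i, c + d) v
  | 0, c, d, v => by simp only [gen_zero, smap_smap, map_add]
  | 1, c, d, v => Prod.ext (by simp [gen_one]) (by simp [gen_one]; ring)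
  | 2, c, d, v => by rw [gen_two, gen_two, gen_two, pmap_pmap (nil_T m _) (nil_T m _), map_add,
      mul_add]

theorem gen_id : ∀ (i : Fin 3) (v : Om m), genFun m (i, 0) v = v
  | 0, v => by simp [gen_zero, smap_zero]
  | 1, v => by simp [gen_one]
  | 2, v => by simp [gen_two, pmap_eq, dmap_zero]

/-- The letters as permutations. -/
noncomputable def genPerm (l : Letter) : Equiv.Perm (Om m) where
  toFun := genFun m l
  invFun := genFun m (l.1, -l.2)
  left_inv v := by obtain ⟨i, c⟩ := l; simp [gen_add, gen_id]
  right_inv v := by obtain ⟨i, c⟩ := l; simp [gen_add, gen_id]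

theorem genPerm_apply (l : Letter) (v : Om m) : genPerm m l v = genFun m l v := rfl

theorem weval_nil {Ω : Type*} (u : Letter → Equiv.Perm Ω) (v : Ω) : weval u [] v = v := rfl

theorem weval_cons {Ω : Type*} (u : Letter → Equiv.Perm Ω) (l : Letter) (w : List Letter)
    (v : Ω) : weval u (l :: w) v = u l (weval u w v) := by simp [weval]

theorem weval_append {Ω : Type*} (u : Letter → Equiv.Perm Ω) (w w' : List Letter)
    (v : Ω) : weval u (w ++ w') v = weval u w (weval u w' v) := by simp [weval]

theorem cword_zero (e : Fq) (v : Om m) :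
    weval (genPerm m) (cword 0 e) v = v + (C' m e, 0) := by
  simp only [cword, weval_cons, weval_nil, genPerm_apply, gen_zero, gen_one, smap, map_neg,
    map_one, Prod.fst_add, Prod.snd_add, add_zero]
  exact Prod.ext (by simp; ring) (by simp)

theorem cword_one (e : Fq) (v : Om m) :
    weval (genPerm m) (cword 1 e) v = qmap (T m * C' m e) v := by
  have h0 : T m * -C' m e + T m * C' m e = 0 := by ring
  simp only [cword, weval_cons, weval_nil, genPerm_apply, gen_one, gen_two, map_neg, map_one,
    pmap_add_conj (nil_T m (C' m e)) h0]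
  exact Prod.ext (by simp [qmap]) (by simp [qmap]; ring)

theorem cword_two (e : Fq) (v : Om m) :
    weval (genPerm m) (cword 2 e) v = rmap (T m * C' m e) v := by
  simp only [cword, weval_cons, weval_nil, genPerm_apply, gen_zero, gen_two, map_neg,
    map_one, mul_one, pmap_eq, dmap_smap, add_zero, smap_smap, neg_add_cancel, smap_zero]
  rw [dmap_dmap (nil_T m _) .zero (nil_T m _) (nil_T m _), rmap_eq, ← mul_add, neg_add_cancel,
    mul_zero, zero_add]

theorem wword_eq (c : Fq) (v : Om m) :
    weval (genPerm m) (wword c) v = pmap (T m * T m * C' m c) v := by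
  simp only [wword, weval_append, cword_one, cword_two, map_neg, map_one, mul_one,
    rmap_eq, dmap_qmap, zero_add, qmap_qmap]
  rw [show T m * -1 + T m = (0 : R m) by ring, qmap_zero, mul_zero,
    show T m * C' m c * T m = T m * T m * C' m c by ring,
    dmap_dmap .zero (nil_T m _) ?_ (nil_T m _), pmap_eq, ← mul_add, neg_add_cancel, mul_zero,
    zero_add]
  simpa [mul_assoc] using nil_T m (T m * C' m c)

theorem genPerm_rel : Rel (genPerm m) where
  zero i := Equiv.ext fun v => gen_id m i v
  add i c d := Equiv.ext fun v => gen_add m i c d v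
  czero i := Equiv.ext fun v =>
    match i with
    | 0 => by simp [cword_zero]
    | 1 => by simp [cword_one, qmap_zero]
    | 2 => by simp [cword_two, rmap_eq, dmap_zero]
  cadd i c d := Equiv.ext fun v =>
    match i with
    | 0 => Prod.ext (by simp [cword_zero]; ring) (by simp [cword_zero])
    | 1 => by simp only [Equiv.Perm.mul_apply, cword_one, qmap_qmap, map_add, mul_add]
    | 2 => by
      simp only [Equiv.Perm.mul_apply, cword_two]
      rw [rmap_rmap (nil_T m _) (nil_T m _), map_add, mul_add]
  comm0 i c d := Equiv.ext fun v =>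
    match i with
    | 0 => by
      simp only [Equiv.Perm.mul_apply, cword_zero, genPerm_apply, gen_zero, smap]
      exact Prod.ext (by simp; ring) (by simp)
    | 1 => by
      simp only [Equiv.Perm.mul_apply, cword_one, genPerm_apply, gen_one, qmap]
      exact Prod.ext (by simp) (by simp; ring)
    | 2 => by
      simp only [Equiv.Perm.mul_apply, cword_two, genPerm_apply, gen_two]
      rw [pmap_rmap (nil_T m _) (nil_T m _)]
  comm1 i c d := Equiv.ext fun v =>
    match i with
    | 0 => by
      show weval (genPerm m) (cword 0 c) (genFun m (1, d) v) = genFun m (1, d) (weval (genPerm m) (cword 0 c) v)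
      simp only [cword_zero, gen_one]
      exact add_right_comm _ _ _
    | 1 => by
      show weval (genPerm m) (cword 1 c) (genFun m (2, d) v) = genFun m (2, d) (weval (genPerm m) (cword 1 c) v)
      simp only [cword_one, gen_two, pmap_eq, dmap_qmap, zero_mul, add_zero]
    | 2 => by
      show weval (genPerm m) (cword 2 c) (genFun m (0, d) v) = genFun m (0, d) (weval (genPerm m) (cword 2 c) v)
      simp only [cword_two, gen_zero, rmap_eq, dmap_smap, zero_mul, zero_add]
  heis i c d := Equiv.ext fun v =>
    match i with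
    | 0 => by
      show genFun m (0, c) (genFun m (1, d) v)
        = weval (genPerm m) (cword 0 (c * d)) (genFun m (1, d) (genFun m (0, c) v))
      simp only [cword_zero, gen_zero, gen_one, smap, map_mul]
      exact Prod.ext (by simp; ring) (by simp)
    | 1 => by
      show genFun m (1, c) (genFun m (2, d) v)
        = weval (genPerm m) (cword 1 (c * d)) (genFun m (2, d) (genFun m (1, c) v))
      simp only [cword_one, gen_two, gen_one, map_mul]
      rw [pmap_add_snd (nil_T m _)]
      congr 1
      ring
    | 2 => by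
      show genFun m (2, c) (genFun m (0, d) v)
        = weval (genPerm m) (cword 2 (c * d)) (genFun m (0, d) (genFun m (2, c) v))
      simp only [cword_two, gen_zero, gen_two, pmap_eq, rmap_eq, dmap_smap, map_mul, zero_mul,
        zero_add, add_zero]
      rw [dmap_dmap .zero (nil_T m _) (nil_T m _) .zero, zero_add, add_zero, mul_assoc]

end Level

section Digits

variable (m : ℕ)

theorem pr_T : pr m (T (m + 1)) = T m := rfl

theorem pr_C (c : Fq) : pr m (C' (m + 1) c) = C' m c := rfl

theorem shift_pr (a : R (m + 1)) : shift m (pr m a) = T (m + 1) * a := by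
  obtain ⟨f, rfl⟩ := Ideal.Quotient.mk_surjective a
  exact map_mul (Ideal.Quotient.mk _) X f

theorem prO_surjective : Function.Surjective (prO m) := by
  intro v
  obtain ⟨f, hf⟩ := Ideal.Quotient.mk_surjective v.1
  obtain ⟨g, hg⟩ := Ideal.Quotient.mk_surjective v.2
  exact ⟨(Ideal.Quotient.mk _ f, Ideal.Quotient.mk _ g), Prod.ext hf hg⟩

theorem prO_gen : ∀ (l : Letter) (v : Om (m + 1)),
    prO m (genFun (m + 1) l v) = genFun m l (prO m v)
  | (0, c), v => by simp [gen_zero, prO, smap, pr_C]
  | (1, c), v => by simp [gen_one, prO, pr_C]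
  | (2, c), v => by
    simp [gen_two, prO, pmap, map_inv1 (pr m) (nil_mul (nil_T (m + 1) (C' (m + 1) c)) v.1),
      pr_C, pr_T]

theorem prO_weval : ∀ (w : List Letter) (v : Om (m + 1)),
    weval (genPerm m) w (prO m v) = prO m (weval (genPerm (m + 1)) w v)
  | [], v => rfl
  | l :: w, v => by
    rw [weval_cons, weval_cons, prO_weval w v, genPerm_apply, genPerm_apply, prO_gen]

theorem jmap_prO (x : Dig) (v : Om (m + 1)) : jmap m x (prO m v) =
    (C' (m + 1) x.1 + T (m + 1) * v.1, C' (m + 1) x.2 + T (m + 1) * v.2) :=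
  Prod.ext (congrArg (_ + ·) (shift_pr m v.1)) (congrArg (_ + ·) (shift_pr m v.2))

/-- The restriction rule, upstairs. -/
theorem gen_restr : ∀ (l : Letter) (x : Dig) (v : Om (m + 1)),
    genFun (m + 1) l (C' (m + 1) x.1 + T (m + 1) * v.1, C' (m + 1) x.2 + T (m + 1) * v.2) =
      (C' (m + 1) (dact l x).1 + T (m + 1) * (weval (genPerm (m + 1)) (restr l x) v).1,
        C' (m + 1) (dact l x).2 + T (m + 1) * (weval (genPerm (m + 1)) (restr l x) v).2)
  | (0, c), x, v => by
    simp only [restr, dact, weval_cons, weval_nil, genPerm_apply, gen_zero, smap, map_add,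
      map_mul]
    exact Prod.ext (by ring) rfl
  | (1, c), x, v => by
    simp only [restr, dact, weval_nil, gen_one, Prod.mk_add_mk, add_zero, map_add]
    exact Prod.ext rfl (by ring)
  | (2, c), x, v => by
    obtain ⟨p, q⟩ := x
    obtain ⟨a, b⟩ := v
    simp only [restr, dact]
    split_ifs with h
    · subst h
      simp only [weval_append, cword_one, wword_eq, gen_two, pmap, qmap, map_zero, zero_add,
        map_neg, map_mul]
      set t := T (m + 1)
      set c' := C' (m + 1) c
      have h1 : (1 + t * t * c' * a) * inv1 (t * t * c' * a) = 1 :=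
        inv1_spec (nil_mul (nil_mul (nil_mul ⟨m + 1, T_pow _⟩ t) c') a)
      rw [show t * c' * (t * a) = t * t * c' * a by ring]
      refine Prod.ext ?_ ?_
      · ring
      · linear_combination C' (m + 1) q * h1
    · simp only [List.cons_append, List.nil_append, weval_cons, weval_append, cword_zero,
        weval_nil, genPerm_apply, gen_two, gen_one, pmap, Prod.fst_add, Prod.snd_add, add_zero,
        map_neg, map_mul, map_pow]
      have hk : C' (m + 1) p * C' (m + 1) p⁻¹ = 1 := by rw [← map_mul, mul_inv_cancel₀ h, map_one]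
      set t := T (m + 1)
      set c' := C' (m + 1) c
      set p' := C' (m + 1) p
      set q' := C' (m + 1) q
      set k := C' (m + 1) p⁻¹
      have h1 : (1 + t * k * a) * inv1 (t * k * a) = 1 :=
        inv1_spec (nil_mul (nil_T (m + 1) k) a)
      have h2 : (1 + t * c' * (p' + t * a)) * inv1 (t * c' * (p' + t * a)) = 1 :=
        inv1_spec (nil_mul (nil_T (m + 1) c') _)
      set g := inv1 (t * k * a)
      set j := inv1 (t * c' * (p' + t * a))
      have h3 : inv1 (t * -k * (a * g + -(c' * p' ^ 2))) = (1 + t * k * a) * j := by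
        refine inv1_eq ?_
        linear_combination h2 - t * k * a * j * h1 +
          (t * c' * p' * j + t * t * c' * a * j * (1 + k * p')) * hk
      rw [h3]
      refine Prod.ext ?_ ?_
      · linear_combination (-t * a * j) * h1 + p' * h2 + t * t * c' * p' * a * j * hk
      · linear_combination (-t * b * j) * h1 + q' * h2 + t * t * c' * q' * a * j * hk

theorem jmap_restr (l : Letter) (x : Dig) (v : Om m) :
    genPerm (m + 1) l (jmap m x v) = jmap m (dact l x) (weval (genPerm m) (restr l x) v) := by
  obtain ⟨w, rfl⟩ := prO_surjective m v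
  rw [prO_weval, jmap_prO, jmap_prO]
  exact gen_restr m l x w

theorem coeffs_digit (c : Fq) (a : R m) :
    coeffs (m + 1) (C' (m + 1) c + shift m a) = Fin.cons c (coeffs m a) := by
  obtain ⟨f, rfl⟩ := Ideal.Quotient.mk_surjective a
  funext i
  change coeffs (m + 1) (Ideal.Quotient.mk _ (Polynomial.C c) +
    Ideal.Quotient.mk _ (X * f)) i = _
  rw [← map_add, coeffs_mk]
  induction i using Fin.cases with
  | zero => simp
  | succ i => simp [coeffs_mk]

theorem digit_bijective :
    Function.Bijective fun p : Fq × R m => C' (m + 1) p.1 + shift m p.2 := by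
  refine (Function.Bijective.of_comp_iff' (coeffs_bijective (m + 1)) _).1 ?_
  have h : (coeffs (m + 1) ∘ fun p : Fq × R m => C' (m + 1) p.1 + shift m p.2) =
      (Fin.consEquiv fun _ : Fin (m + 1) => Fq) ∘ Prod.map id (coeffs m) :=
    funext fun p => coeffs_digit m p.1 p.2
  rw [h]
  exact (Equiv.bijective _).comp (Function.bijective_id.prodMap (coeffs_bijective m))

theorem jmap_bijective : Function.Bijective fun p : Dig × Om m => jmap m p.1 p.2 := by
  have h : (fun p : Dig × Om m => jmap m p.1 p.2) =
      Prod.map (fun p : Fq × R m => C' (m + 1) p.1 + shift m p.2)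
        (fun p : Fq × R m => C' (m + 1) p.1 + shift m p.2) ∘
      (Equiv.prodProdProdComm Fq Fq (R m) (R m)) := rfl
  rw [h]
  exact ((digit_bijective m).prodMap (digit_bijective m)).comp (Equiv.bijective _)

theorem prO_jmap (n : ℕ) (x : Dig) (v : Om (n + 1)) :
    prO (n + 1) (jmap (n + 1) x v) = jmap n x (prO n v) := by
  obtain ⟨⟨a, b⟩, rfl⟩ := prO_surjective (n + 1) v
  rw [jmap_prO, jmap_prO]
  simp [prO, pr_C, pr_T]

end Digits

theorem perm : PermSpec :=
  ⟨genPerm, genPerm_apply, genPerm_rel, fun m l v => prO_gen m l v, jmap_restr, jmap_bijective,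
    prO_jmap⟩

end Vale.Agent.P083.Kirchberg
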