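import Vale.Agent.P083.Kirchberg.SpecModel

/-!
P083: almost invariant vectors on the new part of every level, with one tolerance for all levels.
-/

namespace Vale.Agent.P083.Kirchberg

universe u

variable {H : Type u} [NormedAddCommGroup H] [InnerProductSpace ℂ H]

/-- The letters tensored with their permutations of level `m`. -/
noncomputable def levelOp (π : ∀ m, Letter → Equiv.Perm (Om m)) (x : Letter → H →L[ℂ] H)
    (m : ℕ) (l : Letter) :
    PiLp 2 (fun _ : Om m => H) →L[ℂ] PiLp 2 (fun _ : Om m => H) :=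
  permLift (x l) (π m l)

theorem wevalList_cons {G : Type*} [Monoid G] (u : Letter → G) (l : Letter) (w : List Letter) :
    weval u (l :: w) = u l * weval u w := by
  simp [weval]

theorem wevalList_nil {G : Type*} [Monoid G] (u : Letter → G) : weval u [] = 1 := rfl

theorem levelLift_one {Ω : Type*} [Fintype Ω] :
    permLift (1 : H →L[ℂ] H) (1 : Equiv.Perm Ω) = 1 := by
  ext F w
  rw [permLift_apply]
  rfl

theorem levelLift_mul {Ω : Type*} [Fintype Ω] (A B : H →L[ℂ] H) (σ τ : Equiv.Perm Ω) :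
    permLift A σ * permLift B τ = permLift (A * B) (σ * τ) := by
  ext F w
  simp [permLift_apply, Equiv.Perm.mul_def]

theorem weval_levelOp (π : ∀ m, Letter → Equiv.Perm (Om m)) (x : Letter → H →L[ℂ] H) (m : ℕ)
    (w : List Letter) :
    weval (levelOp π x m) w = permLift (weval x w) (weval (π m) w) := by
  induction w with
  | nil => rw [wevalList_nil, wevalList_nil, wevalList_nil, levelLift_one]
  | cons l w ih => rw [wevalList_cons, wevalList_cons, wevalList_cons, ih, levelOp, levelLift_mul]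

theorem norm_permLift_sq {Ω : Type*} [Fintype Ω] (A : H →L[ℂ] H) (σ : Equiv.Perm Ω)
    (F : PiLp 2 (fun _ : Ω => H)) : ‖permLift A σ F‖ ^ 2 = ∑ w, ‖A (F w)‖ ^ 2 := by
  rw [PiLp.norm_sq_eq_of_L2]
  simp only [permLift_apply]
  exact Equiv.sum_comp σ⁻¹ fun w => ‖A (F w)‖ ^ 2

theorem norm_permLift_apply_le {Ω : Type*} [Fintype Ω] (A : H →L[ℂ] H) (σ : Equiv.Perm Ω)
    (F : PiLp 2 (fun _ : Ω => H)) : ‖permLift A σ F‖ ≤ ‖A‖ * ‖F‖ := by
  have h : ‖permLift A σ F‖ ^ 2 ≤ (‖A‖ * ‖F‖) ^ 2 := by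
    rw [norm_permLift_sq, mul_pow, PiLp.norm_sq_eq_of_L2, Finset.mul_sum]
    refine Finset.sum_le_sum fun w _ => ?_
    rw [← mul_pow]
    exact pow_le_pow_left₀ (norm_nonneg _) (A.le_opNorm _) 2
  exact le_of_pow_le_pow_left₀ two_ne_zero (by positivity) h

/-- A vector almost fixed by the letters is almost fixed by short words. -/
theorem norm_weval_sub_le {K : Type u} [NormedAddCommGroup K] [InnerProductSpace ℂ K]
    (v : Letter → K →L[ℂ] K) (hv : ∀ l z, ‖v l z‖ ≤ 2 * ‖z‖) (F : K) {δ : ℝ}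
    (hF : ∀ l, ‖v l F - F‖ ≤ δ) :
    ∀ w : List Letter, ‖weval v w F - F‖ ≤ (w.length : ℝ) * 2 ^ w.length * δ
  | [] => by simp [wevalList_nil]
  | l :: w => by
    have hδ : 0 ≤ δ := (norm_nonneg _).trans (hF l)
    have ih := norm_weval_sub_le v hv F hF w
    have e : weval v (l :: w) F - F = v l (weval v w F - F) + (v l F - F) := by
      rw [wevalList_cons, map_sub]
      show v l (weval v w F) - F = _
      abel
    rw [e]
    refine (norm_add_le _ _).trans ((add_le_add (hv l _) (hF l)).trans ?_)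
    have h1 : (1 : ℝ) ≤ 2 ^ (w.length + 1) := one_le_pow₀ one_le_two
    calc 2 * ‖weval v w F - F‖ + δ
        ≤ 2 * ((w.length : ℝ) * 2 ^ w.length * δ) + 2 ^ (w.length + 1) * δ := by gcongr; exact le_mul_of_one_le_left hδ h1
      _ = _ := by simp only [List.length_cons]; push_cast; ring

theorem length_restr_le (l : Letter) (x : Dig) : (restr l x).length ≤ 20 := by
  obtain ⟨i, c⟩ := l
  fin_cases i <;> simp only [restr] <;> first | (split_ifs <;> simp [cword, wword]) | simp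

/-- The constant for the words `restr`. -/
def wordConst : ℝ := 20 * 2 ^ 20

theorem norm_restr_sub_le {K : Type u} [NormedAddCommGroup K] [InnerProductSpace ℂ K]
    (v : Letter → K →L[ℂ] K) (hv : ∀ l z, ‖v l z‖ ≤ 2 * ‖z‖) (F : K) {δ : ℝ}
    (hF : ∀ l, ‖v l F - F‖ ≤ δ) (l : Letter) (x : Dig) :
    ‖weval v (restr l x) F - F‖ ≤ wordConst * δ := by
  have hδ : 0 ≤ δ := (norm_nonneg _).trans (hF l)
  refine (norm_weval_sub_le v hv F hF _).trans ?_
  have hl := length_restr_le l x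
  unfold wordConst
  gcongr
  · exact_mod_cast hl
  · norm_num

/-- Functions summing to zero over the fibres are closed under the averaging operator. -/
theorem isNew_kOp_pow {n : ℕ} (π : ∀ m, Letter → Equiv.Perm (Om m))
    (hpr : ∀ m l v, prO m (π (m + 1) l v) = π m l (prO m v)) (x : Letter → H →L[ℂ] H)
    (F : PiLp 2 (fun _ : Om (n + 1) => H)) (hF : IsNew fun w => F w) (j : ℕ) :
    IsNew fun w => ((kOp (levelOp π x (n + 1)) ^ j) F) w := by
  have hlev : ∀ (G : PiLp 2 (fun _ : Om (n + 1) => H)), IsNew (fun w => G w) → ∀ l,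
      IsNew fun w => levelOp π x (n + 1) l G w := by
    intro G hG l v
    have h := hG ((π n l)⁻¹ v)
    simp only [levelOp, permLift_apply, ← map_sum]
    rw [show (∑ w ∈ Finset.univ.filter (fun w => prO n w = v), G ((π (n + 1) l)⁻¹ w)) = 0 from ?_,
      map_zero]
    rw [← h]
    refine Finset.sum_equiv (π (n + 1) l)⁻¹ (fun w => ?_) fun w _ => rfl
    simp only [Finset.mem_filter, Finset.mem_univ, true_and, Equiv.Perm.inv_def]
    have h2 := hpr n l ((π (n + 1) l).symm w)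
    rw [Equiv.apply_symm_apply] at h2
    rw [h2, Equiv.eq_symm_apply]
  induction j with
  | zero => simpa using hF
  | succ j ih =>
    intro v
    rw [pow_succ']
    show (∑ w ∈ Finset.univ.filter (fun w => prO n w = v),
      (kOp (levelOp π x (n + 1)) ((kOp (levelOp π x (n + 1)) ^ j) F)) w) = 0
    generalize hG : (kOp (levelOp π x (n + 1)) ^ j) F = G at ih ⊢
    have e : ∀ w, (kOp (levelOp π x (n + 1)) G) w =
        G w - (3 : ℂ)⁻¹ • ∑ i, (G w - (5 : ℂ)⁻¹ • ∑ c, levelOp π x (n + 1) (i, c) G w) := by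
      intro w
      simp [kOp, lapOp, avgOp, sum_apply, WithLp.ofLp_sum, Finset.sum_apply]
    rw [Finset.sum_congr rfl fun w _ => e w, Finset.sum_sub_distrib, ih v, zero_sub, neg_eq_zero,
      ← Finset.smul_sum, Finset.sum_comm, Finset.sum_eq_zero, smul_zero]
    intro i _
    rw [Finset.sum_sub_distrib, ih v, zero_sub, neg_eq_zero, ← Finset.smul_sum, Finset.sum_comm,
      Finset.sum_eq_zero fun c _ => hlev G ih (i, c) v, smul_zero]

/-- The map into the next level built from the isometries. -/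
noncomputable def stepUp (e : ∀ m, Dig × Om m ≃ Om (m + 1)) (S : Dig → H →L[ℂ] H) (m : ℕ)
    (F : PiLp 2 (fun _ : Om m => H)) : PiLp 2 (fun _ : Om (m + 1) => H) :=
  WithLp.toLp 2 fun w => S ((e m).symm w).1 (F ((e m).symm w).2)

theorem stepUp_apply (e : ∀ m, Dig × Om m ≃ Om (m + 1)) (S : Dig → H →L[ℂ] H) (m : ℕ)
    (F : PiLp 2 (fun _ : Om m => H)) (x : Dig) (v : Om m) :
    stepUp e S m F (e m (x, v)) = S x (F v) := by
  simp [stepUp]

/-- Rewriting a sum over the next level. -/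
theorem sum_next {M : Type*} [AddCommMonoid M] (e : ∀ m, Dig × Om m ≃ Om (m + 1)) (m : ℕ)
    (f : Om (m + 1) → M) : ∑ w, f w = ∑ x : Dig, ∑ v : Om m, f (e m (x, v)) := by
  rw [← Equiv.sum_comp (e m) f, Fintype.sum_prod_type]

/-- The step preserves the vanishing of the fibre sums. -/
theorem isNew_stepUp {n : ℕ} (e : ∀ m, Dig × Om m ≃ Om (m + 1))
    (he : ∀ x v, prO (n + 1) (e (n + 1) (x, v)) = e n (x, prO n v))
    (S : Dig → H →L[ℂ] H) (F : PiLp 2 (fun _ : Om (n + 1) => H)) (hF : IsNew fun w => F w) :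
    IsNew fun w => stepUp e S (n + 1) F w := by
  intro v'
  obtain ⟨⟨x0, v0⟩, rfl⟩ := (e n).surjective v'
  rw [Finset.sum_filter, sum_next e, Finset.sum_eq_single x0]
  · simp only [he, (e n).injective.eq_iff, Prod.mk.injEq, true_and, stepUp_apply]
    rw [← Finset.sum_filter, ← map_sum, hF v0, map_zero]
  · intro x _ hx
    refine Finset.sum_eq_zero fun v _ => ?_
    rw [if_neg]
    simp [he, hx]
  · simp

theorem norm_sq_near [CompleteSpace H] (S : H →L[ℂ] H) {ε : ℝ} (hS : ‖star S * S - 1‖ ≤ ε)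
    (ξ : H) : |‖S ξ‖ ^ 2 - ‖ξ‖ ^ 2| ≤ ε * ‖ξ‖ ^ 2 := by
  have e1 : ‖S ξ‖ ^ 2 - ‖ξ‖ ^ 2 = (inner ℂ ((star S * S - 1) ξ) ξ).re := by
    rw [ContinuousLinearMap.star_eq_adjoint, sub_apply, inner_sub_left, Complex.sub_re,
      show (ContinuousLinearMap.adjoint S * S) ξ = ContinuousLinearMap.adjoint S (S ξ) from rfl,
      show (1 : H →L[ℂ] H) ξ = ξ from rfl, ContinuousLinearMap.adjoint_inner_left,
      inner_self_eq_norm_sq_to_K, inner_self_eq_norm_sq_to_K]
    norm_cast
  rw [e1]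
  calc |(inner ℂ ((star S * S - 1) ξ) ξ).re| ≤ ‖inner ℂ ((star S * S - 1) ξ) ξ‖ :=
        Complex.abs_re_le_norm _
    _ ≤ ‖(star S * S - 1) ξ‖ * ‖ξ‖ := norm_inner_le_norm _ _
    _ ≤ ‖star S * S - 1‖ * ‖ξ‖ * ‖ξ‖ := by gcongr; exact ContinuousLinearMap.le_opNorm _ _
    _ ≤ ε * ‖ξ‖ * ‖ξ‖ := by gcongr
    _ = _ := by ring

/-- The step almost multiplies the squared norm by the number of digits. -/
theorem le_norm_stepUp [CompleteSpace H] (e : ∀ m, Dig × Om m ≃ Om (m + 1))
    (S : Dig → H →L[ℂ] H) {ε : ℝ} (hε : ε ≤ 1 / 2) (hS : ∀ x, ‖star (S x) * S x - 1‖ ≤ ε)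
    (m : ℕ) (F : PiLp 2 (fun _ : Om m => H)) :
    12 * ‖F‖ ^ 2 ≤ ‖stepUp e S m F‖ ^ 2 := by
  rw [PiLp.norm_sq_eq_of_L2, PiLp.norm_sq_eq_of_L2, sum_next e]
  calc 12 * ∑ v, ‖F v‖ ^ 2 ≤ ∑ _x : Dig, ∑ v, (1 / 2 : ℝ) * ‖F v‖ ^ 2 := by
        rw [Finset.sum_const, Finset.card_univ, nsmul_eq_mul, ← Finset.mul_sum]
        simp only [Fintype.card_prod, ZMod.card]
        push_cast
        nlinarith [Finset.sum_nonneg fun v (_ : v ∈ Finset.univ) => sq_nonneg ‖F v‖]
    _ ≤ _ := by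
        refine Finset.sum_le_sum fun x _ => Finset.sum_le_sum fun v _ => ?_
        rw [stepUp_apply]
        have h := (abs_le.1 (norm_sq_near (S x) (hS x) (F v))).1
        nlinarith [sq_nonneg ‖F v‖]

/-- The step keeps almost invariance, with a fixed loss. -/
theorem norm_levelOp_stepUp_le (π : ∀ m, Letter → Equiv.Perm (Om m))
    (e : ∀ m, Dig × Om m ≃ Om (m + 1))
    (hje : ∀ m l x v, π (m + 1) l (e m (x, v)) = e m (dact l x, weval (π m) (restr l x) v))
    (u : Letter → H →L[ℂ] H) (S : Dig → H →L[ℂ] H) {ε : ℝ} (hu : ∀ l, ‖u l‖ ≤ 2)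
    (hS : ∀ x, ‖S x‖ ≤ 2)
    (hself : ∀ l x, ‖u l * S x - S (dact l x) * weval u (restr l x)‖ ≤ ε)
    (m : ℕ) (F : PiLp 2 (fun _ : Om m => H)) {δ : ℝ}
    (hF : ∀ l, ‖levelOp π u m l F - F‖ ≤ δ) (l : Letter) :
    ‖levelOp π u (m + 1) l (stepUp e S m F) - stepUp e S m F‖ ^ 2 ≤
      25 * (2 * ε ^ 2 * ‖F‖ ^ 2 + 8 * (wordConst * δ) ^ 2) := by
  rw [PiLp.norm_sq_eq_of_L2, ← Equiv.sum_comp (π (m + 1) l), sum_next e]
  have hv : ∀ l' z, ‖levelOp π u m l' z‖ ≤ 2 * ‖z‖ := fun l' z =>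
    (norm_permLift_apply_le _ _ z).trans (by gcongr; exact hu l')
  have hx : ∀ x : Dig, ∑ v, ‖(levelOp π u (m + 1) l (stepUp e S m F) - stepUp e S m F)
      (π (m + 1) l (e m (x, v)))‖ ^ 2 ≤ 2 * ε ^ 2 * ‖F‖ ^ 2 + 8 * (wordConst * δ) ^ 2 := by
    intro x
    set W := weval (π m) (restr l x) with hW
    have hD : ∑ v, ‖weval u (restr l x) (F v) - F (W v)‖ ^ 2 ≤ (wordConst * δ) ^ 2 := by
      have h := pow_le_pow_left₀ (norm_nonneg _) (norm_restr_sub_le _ hv F hF l x) 2
      rw [weval_levelOp, PiLp.norm_sq_eq_of_L2, ← Equiv.sum_comp W] at h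
      refine le_trans (le_of_eq (Finset.sum_congr rfl fun v _ => ?_)) h
      simp [permLift_apply, hW]
    calc _ ≤ ∑ v, (2 * ε ^ 2 * ‖F v‖ ^ 2 +
          8 * ‖weval u (restr l x) (F v) - F (W v)‖ ^ 2) := by
          refine Finset.sum_le_sum fun v _ => ?_
          rw [PiLp.sub_apply, levelOp, permLift_apply, Equiv.Perm.inv_def, Equiv.symm_apply_apply,
            hje, stepUp_apply, stepUp_apply]
          have e1 : u l (S x (F v)) - S (dact l x) (F (W v)) =
              (u l * S x - S (dact l x) * weval u (restr l x)) (F v) +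
                S (dact l x) (weval u (restr l x) (F v) - F (W v)) := by
            simp
          rw [e1]
          set a := ‖(u l * S x - S (dact l x) * weval u (restr l x)) (F v)‖
          set b := ‖S (dact l x) (weval u (restr l x) (F v) - F (W v))‖
          have ha : a ≤ ε * ‖F v‖ := ContinuousLinearMap.le_of_opNorm_le _ (hself l x) _
          have hb : b ≤ 2 * ‖weval u (restr l x) (F v) - F (W v)‖ :=
            ContinuousLinearMap.le_of_opNorm_le _ (hS _) _
          refine (pow_le_pow_left₀ (norm_nonneg _) (norm_add_le _ _) 2).trans ?_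
          have h1 := pow_le_pow_left₀ (norm_nonneg _) ha 2
          have h2 := pow_le_pow_left₀ (norm_nonneg _) hb 2
          rw [mul_pow] at h1 h2
          nlinarith [sq_nonneg (a - b)]
      _ ≤ _ := by
          rw [Finset.sum_add_distrib, ← Finset.mul_sum, ← Finset.mul_sum,
            ← PiLp.norm_sq_eq_of_L2 (fun _ : Om m => H)]
          gcongr
  refine (Finset.sum_le_sum fun x _ => hx x).trans (le_of_eq ?_)
  simp [Finset.sum_const, ZMod.card]
  ring

end Vale.Agent.P083.Kirchberg
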