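import Vale.Agent.P083.Kirchberg.Levels

/-!
P083: the relations between the letters, exact and approximate; the averaging operators.
-/

namespace Vale.Agent.P083.Kirchberg

/-- The relations of the three Heisenberg pairs. -/
structure Rel {G : Type*} [Monoid G] (u : Letter → G) : Prop where
  zero : ∀ i, u (i, 0) = 1
  add : ∀ i c d, u (i, c) * u (i, d) = u (i, c + d)
  czero : ∀ i, weval u (cword i 0) = 1
  cadd : ∀ i c d, weval u (cword i c) * weval u (cword i d) = weval u (cword i (c + d))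
  comm0 : ∀ i c d, weval u (cword i c) * u (i, d) = u (i, d) * weval u (cword i c)
  comm1 : ∀ i c d, weval u (cword i c) * u (i + 1, d) = u (i + 1, d) * weval u (cword i c)
  heis : ∀ i c d,
    u (i, c) * u (i + 1, d) = weval u (cword i (c * d)) * (u (i + 1, d) * u (i, c))

/-- The relations up to `ε`, for almost unitary values. -/
structure Approx {G : Type*} [NormedRing G] [StarRing G] (u : Letter → G) (ε : ℝ) : Prop where
  norm_le : ∀ l, ‖u l‖ ≤ 2
  star_eq : ∀ i c, ‖star (u (i, c)) - u (i, -c)‖ ≤ ε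
  cstar_eq : ∀ i c, ‖star (weval u (cword i c)) - weval u (cword i (-c))‖ ≤ ε
  zero : ∀ i, ‖u (i, 0) - 1‖ ≤ ε
  add : ∀ i c d, ‖u (i, c) * u (i, d) - u (i, c + d)‖ ≤ ε
  czero : ∀ i, ‖weval u (cword i 0) - 1‖ ≤ ε
  cadd : ∀ i c d,
    ‖weval u (cword i c) * weval u (cword i d) - weval u (cword i (c + d))‖ ≤ ε
  comm0 : ∀ i c d, ‖weval u (cword i c) * u (i, d) - u (i, d) * weval u (cword i c)‖ ≤ ε
  comm1 : ∀ i c d,
    ‖weval u (cword i c) * u (i + 1, d) - u (i + 1, d) * weval u (cword i c)‖ ≤ ε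
  heis : ∀ i c d,
    ‖u (i, c) * u (i + 1, d) - weval u (cword i (c * d)) * (u (i + 1, d) * u (i, c))‖ ≤ ε

variable {H : Type*} [NormedAddCommGroup H] [InnerProductSpace ℂ H]

/-- The average of one of the three subgroups. -/
noncomputable def avgOp (u : Letter → H →L[ℂ] H) (i : Fin 3) : H →L[ℂ] H :=
  (5 : ℂ)⁻¹ • ∑ c : Fq, u (i, c)

/-- The sum of the three complementary averages. -/
noncomputable def lapOp (u : Letter → H →L[ℂ] H) : H →L[ℂ] H := ∑ i, (1 - avgOp u i)

/-- The averaging operator `1 - L / 3`. -/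
noncomputable def kOp (u : Letter → H →L[ℂ] H) : H →L[ℂ] H := 1 - (3 : ℂ)⁻¹ • lapOp u

/-- An operator tensored with a permutation, on vectors indexed by a finite set. -/
noncomputable def permLift {Ω : Type*} [Fintype Ω] (A : H →L[ℂ] H) (σ : Equiv.Perm Ω) :
    PiLp 2 (fun _ : Ω => H) →L[ℂ] PiLp 2 (fun _ : Ω => H) :=
  (PiLp.continuousLinearEquiv 2 ℂ (fun _ : Ω => H)).symm.toContinuousLinearMap.comp
    ((ContinuousLinearMap.pi fun w =>
      A.comp (ContinuousLinearMap.proj (R := ℂ) (φ := fun _ : Ω => H) (σ⁻¹ w))).comp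
      (PiLp.continuousLinearEquiv 2 ℂ (fun _ : Ω => H)).toContinuousLinearMap)

theorem permLift_apply {Ω : Type*} [Fintype Ω] (A : H →L[ℂ] H) (σ : Equiv.Perm Ω)
    (F : PiLp 2 (fun _ : Ω => H)) (w : Ω) : permLift A σ F w = A (F (σ⁻¹ w)) := rfl

/-- A matrix of scalars acting on tuples of vectors. -/
noncomputable def ampl {ι : Type*} [Fintype ι] (Y : Matrix ι ι ℂ)
    (z : PiLp 2 (fun _ : ι => H)) : PiLp 2 (fun _ : ι => H) :=
  WithLp.toLp 2 fun μ => ∑ ν, Y μ ν • z ν

end Vale.Agent.P083.Kirchberg
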