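import Vale.Agent.P083.Kirchberg.SpecModel

/-!
P083: every element of a C*-algebra has its norm in some representation.
-/

open scoped ComplexOrder InnerProductSpace

namespace Vale.Agent.P083.Kirchberg

section

variable {B : Type*} [CStarAlgebra B] [Nontrivial B]

/-- A functional of norm one taking the value one at the unit is real on selfadjoint elements. -/
private lemma im_eq_zero (F : StrongDual ℂ B) (hn : ∀ a, ‖F a‖ ≤ ‖a‖) (h1 : F 1 = 1) {a : B}
    (ha : IsSelfAdjoint a) : (F a).im = 0 := by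
  set c := (F a).im with hc
  by_contra hne
  set t : ℝ := (‖a‖ ^ 2 + 1) / (2 * c) with ht
  set y : B := a + ((t : ℂ) * Complex.I) • (1 : B) with hy
  have hsy : star y * y = a * a + ((t : ℂ) ^ 2) • (1 : B) := by
    simp only [hy, star_add, star_smul, star_one, ha.star_eq, star_mul', Complex.star_def,
      Complex.conj_ofReal, Complex.conj_I, add_mul, mul_add, smul_mul_assoc, one_mul, mul_smul_comm,
      mul_one]
    match_scalars <;> ring_nf <;> simp [Complex.I_sq]
  have h2 : ‖y‖ ^ 2 ≤ ‖a‖ ^ 2 + t ^ 2 := by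
    rw [sq ‖y‖, ← CStarRing.norm_star_mul_self, hsy]
    refine (norm_add_le _ _).trans (add_le_add ((norm_mul_le a a).trans_eq (sq ‖a‖).symm) ?_)
    rw [norm_smul, CStarRing.norm_one, mul_one, norm_pow, Complex.norm_real, Real.norm_eq_abs,
      sq_abs]
  have h3 : |c + t| ≤ ‖y‖ := by
    refine le_trans ?_ (hn y)
    have := Complex.abs_im_le_norm (F y)
    rwa [show (F y).im = c + t by simp [hy, h1, hc]] at this
  have h4 : (c + t) ^ 2 ≤ ‖y‖ ^ 2 := by
    rw [← sq_abs]; exact pow_le_pow_left₀ (abs_nonneg _) h3 2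
  have h5 : 2 * c * t = ‖a‖ ^ 2 + 1 := by rw [ht]; field_simp
  nlinarith [sq_nonneg c]

variable [PartialOrder B] [StarOrderedRing B]

/-- A state attaining the norm at a positive element. -/
private lemma exists_state {x : B} (hx : 0 ≤ x) :
    ∃ f : B →ₚ[ℂ] ℂ, f 1 = 1 ∧ f x = (‖x‖ : ℂ) := by
  set y : B := x - (‖x‖ : ℂ) • 1 with hy
  set p : Submodule ℂ B := Submodule.span ℂ {y} with hp
  have hs : (1 : ℝ) ≤ ‖(Submodule.Quotient.mk (1 : B) : B ⧸ p)‖ := by
    refine QuotientAddGroup.le_norm_iff.2 fun m hm => ?_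
    have hm' : m - 1 ∈ p := (Submodule.Quotient.eq p).1 hm
    obtain ⟨a, ha⟩ := Submodule.mem_span_singleton.1 hm'
    have h0 : (0 : ℂ) ∈ spectrum ℂ (a • y) := by
      rw [spectrum.zero_mem_iff]
      intro hu
      have hy0 : IsUnit y := by
        rcases eq_or_ne a 0 with rfl | ha0
        · simp at hu
        · rwa [← Units.val_mk0 ha0, ← Units.smul_def, isUnit_smul_iff] at hu
      have hmem : (‖x‖ : ℂ) ∈ spectrum ℂ x := by
        simpa using spectrum.algebraMap_mem ℂ (CStarAlgebra.norm_mem_spectrum_of_nonneg hx)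
      rw [spectrum.mem_iff, Algebra.algebraMap_eq_smul_one, ← neg_sub, IsUnit.neg_iff] at hmem
      exact hmem hy0
    have h1 : (1 : ℂ) ∈ spectrum ℂ m := by
      rw [show m = algebraMap ℂ B 1 + a • y by rw [map_one, ha]; abel]
      simpa using (spectrum.add_mem_add_iff (r := (0 : ℂ)) (s := (1 : ℂ))).2 h0
    simpa using spectrum.norm_le_norm_of_mem h1
  obtain ⟨g, hg, hg1⟩ := exists_dual_vector ℂ (Submodule.Quotient.mk (1 : B) : B ⧸ p)
    (by linarith)
  have he : ‖(Submodule.Quotient.mk (1 : B) : B ⧸ p)‖ = 1 :=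
    le_antisymm ((Submodule.Quotient.norm_mk_le p _).trans_eq CStarRing.norm_one) hs
  have hq : ∀ a : B, ‖p.mkQ a‖ ≤ 1 * ‖a‖ := fun a => by
    rw [one_mul]; exact Submodule.Quotient.norm_mk_le p a
  set F : StrongDual ℂ B := g.comp (p.mkQ.mkContinuous 1 hq) with hF
  have hn : ∀ a, ‖F a‖ ≤ ‖a‖ := fun a =>
    (g.le_opNorm _).trans (by rw [hg, one_mul]; exact Submodule.Quotient.norm_mk_le p a)
  have h1 : F 1 = 1 := by simp [hF, hg1, he]
  have hx' : F x = (‖x‖ : ℂ) := by
    have h0 : F y = 0 := by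
      have : p.mkQ y = 0 := (Submodule.Quotient.mk_eq_zero p).2 (Submodule.mem_span_singleton_self y)
      show g (p.mkQ y) = 0
      rw [this, map_zero]
    rw [hy, map_sub, map_smul, h1, smul_eq_mul, mul_one, sub_eq_zero] at h0
    exact h0
  refine ⟨PositiveLinearMap.mk₀ F.toLinearMap fun a ha => ?_, h1, hx'⟩
  have hsa := IsSelfAdjoint.of_nonneg ha
  have him := im_eq_zero F hn h1 hsa
  have hle : ‖(‖a‖ : ℂ) • (1 : B) - a‖ ≤ ‖a‖ := by
    refine CStarAlgebra.norm_le_iff_le_algebraMap _ (norm_nonneg _) ?_ |>.2 ?_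
    · rw [sub_nonneg, ← Algebra.algebraMap_eq_smul_one]
      simpa [Algebra.algebraMap_eq_smul_one, Complex.coe_smul] using
        IsSelfAdjoint.le_algebraMap_norm_self hsa
    · simpa [Algebra.algebraMap_eq_smul_one, Complex.coe_smul] using ha
  have h2 : |‖a‖ - (F a).re| ≤ ‖a‖ := by
    refine le_trans ?_ ((hn _).trans hle)
    have := Complex.abs_re_le_norm (F ((‖a‖ : ℂ) • (1 : B) - a))
    simpa [h1] using this
  show (0 : ℂ) ≤ F a
  exact Complex.nonneg_iff.2 ⟨by linarith [(abs_le.1 h2).2], him.symm⟩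

end

/-- Enough representations on Hilbert spaces. -/
theorem rep : RepSpec := by
  intro B _ _ b
  let : PartialOrder B := CStarAlgebra.spectralOrder B
  have : StarOrderedRing B := CStarAlgebra.spectralOrderedRing B
  obtain ⟨f, h1, hb⟩ := exists_state (star_mul_self_nonneg b)
  refine ⟨f.GNS, inferInstance, inferInstance, inferInstance, f.gnsStarAlgHom,
    le_antisymm (NonUnitalStarAlgHom.norm_apply_le _ b) ?_⟩
  have hsq : ∀ c : B, ‖(f.toPreGNS c : f.GNS)‖ ^ 2 = (f (star c * c)).re := fun c => by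
    rw [UniformSpace.Completion.norm_coe]
    have := congrArg Complex.re (f.preGNS_norm_sq (f.toPreGNS c))
    simpa [← Complex.ofReal_pow] using this
  have hone : ‖(f.toPreGNS 1 : f.GNS)‖ = 1 :=
    (sq_eq_sq₀ (norm_nonneg _) zero_le_one).1 (by rw [hsq]; simp [h1])
  have hval : ‖f.gnsStarAlgHom b (f.toPreGNS 1 : f.GNS)‖ = ‖b‖ := by
    rw [show f.gnsStarAlgHom b (f.toPreGNS 1 : f.GNS) = (f.toPreGNS b : f.GNS) by simp]
    refine (sq_eq_sq₀ (norm_nonneg _) (norm_nonneg _)).1 ?_
    rw [hsq, hb, Complex.ofReal_re, CStarRing.norm_star_mul_self, sq]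
  rw [← hval]
  simpa [hone] using (f.gnsStarAlgHom b).le_opNorm (f.toPreGNS 1 : f.GNS)

end Vale.Agent.P083.Kirchberg
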