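import Vale.Agent.P083.Kirchberg.Relations
import Vale.Agent.P083.Free.Defs

/-!
P083: the statements of the five parts of the proof.
-/

namespace Vale.Agent.P083.Kirchberg

universe u

/-- The letters are permutations of every level, satisfy the relations exactly, preserve the
projection, act on the first digit by `dact` and restrict below it to `restr`. -/
def PermSpec : Prop :=
  ∃ π : ∀ m, Letter → Equiv.Perm (Om m),
    (∀ m l v, π m l v = genFun m l v) ∧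
    (∀ m, Rel (π m)) ∧
    (∀ m l v, prO m (π (m + 1) l v) = π m l (prO m v)) ∧
    (∀ m l x v, π (m + 1) l (jmap m x v) = jmap m (dact l x) (weval (π m) (restr l x) v)) ∧
    (∀ m, Function.Bijective fun p : Dig × Om m => jmap m p.1 p.2) ∧
    (∀ n x v, prO (n + 1) (jmap (n + 1) x v) = jmap n x (prO n v))

/-- Robust gap: high powers of the averaging operator project onto almost fixed vectors. -/
def GapSpec : Prop :=
  ∃ θ : ℝ, 0 ≤ θ ∧ θ < 1 ∧ ∀ (j : ℕ) (η : ℝ), 0 < η → ∃ ε > 0,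
    ∀ (H : Type u) [NormedAddCommGroup H] [InnerProductSpace ℂ H] [CompleteSpace H]
      (u : Letter → H →L[ℂ] H), Approx u ε →
      (∀ (ξ : H) (l : Letter),
        ‖u l ((kOp u ^ j) ξ) - (kOp u ^ j) ξ‖ ≤ (100 * θ ^ j + η) * ‖ξ‖) ∧
      (∀ (ξ : H) (δ : ℝ), (∀ l, ‖u l ξ - ξ‖ ≤ δ) → ‖(kOp u ^ j) ξ - ξ‖ ≤ 2 * j * δ)

/-- Tensoring with exact permutations keeps the approximate relations. -/
def LiftSpec : Prop :=
  ∀ (H : Type u) [NormedAddCommGroup H] [InnerProductSpace ℂ H] [CompleteSpace H]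
    (Ω : Type) [Fintype Ω] (x : Letter → H →L[ℂ] H) (π : Letter → Equiv.Perm Ω) (ε : ℝ),
    Approx x ε → Rel π → Approx (fun l => permLift (x l) (π l)) ε

/-- Polynomials in a Cuntz pair are compressed to matrices, up to any tolerance. -/
def FockSpec : Prop :=
  ∀ (H : Type u) [NormedAddCommGroup H] [InnerProductSpace ℂ H] [CompleteSpace H]
    (s : Fin 2 → H →L[ℂ] H), Free.IsPair s →
    ∀ (κ : Type) [Fintype κ] (x : κ → H →L[ℂ] H),
      (∀ a, x a ∈ StarAlgebra.adjoin ℂ (Set.range s)) → ∀ η > 0,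
      ∃ (k : ℕ) (V : H →ₗᵢ[ℂ] PiLp 2 (fun _ : Fin k => H)) (Y : κ → Matrix (Fin k) (Fin k) ℂ),
        ∀ a ξ, ‖ampl (Y a) (V ξ) - V (x a ξ)‖ ≤ η * ‖ξ‖ ∧
          ‖ampl ((Y a).conjTranspose * Y a) (V ξ) - V (star (x a) (x a ξ))‖ ≤ η * ‖ξ‖

/-- A matrix commuting with the letters is small on the new functions. -/
def OrbitSpec : Prop :=
  ∀ (n : ℕ) (Z : Matrix (Om (n + 1)) (Om (n + 1)) ℂ),
    (∀ l v w, Z (genFun (n + 1) l v) (genFun (n + 1) l w) = Z v w) →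
    ∀ e : Om (n + 1) → ℂ, IsNew e →
      (∑ v, ‖∑ w, Z v w * e w‖ ^ 2) * (5 : ℝ) ^ n ≤ (∑ v, ∑ w, ‖Z v w‖ ^ 2) * ∑ w, ‖e w‖ ^ 2

/-- No almost invariant new vectors over matrices of a fixed size, at high levels. -/
def EndgameSpec : Prop :=
  ∃ δ > 0, ∀ k : ℕ, ∃ n : ℕ,
    ∀ (H : Type u) [NormedAddCommGroup H] [InnerProductSpace ℂ H]
      (Ξ : Om (n + 1) → PiLp 2 (fun _ : Fin k => H)),
      ∑ w, ‖Ξ w‖ ^ 2 = 1 → IsNew Ξ →
      (∀ l : Letter, ∃ y : Matrix (Fin k) (Fin k) ℂ,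
        (∑ w, ‖ampl y (Ξ (genFun (n + 1) (l.1, -l.2) w)) - Ξ w‖ ^ 2) ≤ δ ∧
        (∑ w, ‖ampl (y.conjTranspose * y) (Ξ w) - Ξ w‖ ^ 2) ≤ δ) → False

end Vale.Agent.P083.Kirchberg
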