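import Vale.Agent.P083.Kirchberg.Spec
import Vale.Agent.P083.Free.Ultrapower

/-!
P083: the relations of the algebra, exact and approximate, and the statements linking it to
ultrapowers.
-/

namespace Vale.Agent.P083.Kirchberg

open Filter

section

variable {A : Type*} [Ring A] [StarRing A] [Algebra ℂ A]

/-- The projection onto the root. -/
def rootProj (S : Dig → A) : A := 1 - ∑ x, S x * star (S x)

/-- The centred first level elements. -/
noncomputable def aElt (S : Dig → A) (x : Dig) : A :=
  S x * rootProj S - (25 : ℂ)⁻¹ • ∑ y, S y * rootProj S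

/-- The relations that the algebra satisfies. -/
structure IsModel (u : Letter → A) (S : Dig → A) : Prop where
  rel : Rel u
  star_eq : ∀ i c, star (u (i, c)) = u (i, -c)
  iso : ∀ x y, star (S x) * S y = if x = y then 1 else 0
  selfsim : ∀ l x, u l * S x = S (dact l x) * weval u (restr l x)
  shift : ∀ l x, u l * aElt S x = aElt S (dact l x)
  ne : aElt S 0 ≠ 0

end

/-- The same relations up to `ε`. -/
structure ApproxModel {A : Type*} [NormedRing A] [StarRing A] [Algebra ℂ A]
    (u : Letter → A) (S : Dig → A) (ε : ℝ) : Prop where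
  approx : Approx u ε
  S_norm : ∀ x, ‖S x‖ ≤ 2
  iso : ∀ x y, ‖star (S x) * S y - if x = y then 1 else 0‖ ≤ ε
  selfsim : ∀ l x, ‖u l * S x - S (dact l x) * weval u (restr l x)‖ ≤ ε
  shift : ∀ l x, ‖u l * aElt S x - aElt S (dact l x)‖ ≤ ε

universe u

/-- A separable algebra with the relations exists. -/
def ModelSpec : Prop :=
  ∃ (A : Type) (_ : CStarAlgebra A) (u : Letter → A) (S : Dig → A),
    TopologicalSpace.SeparableSpace A ∧ IsModel u S

/-- An embedding into an ultrapower gives approximate relations inside the algebra, with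
polynomial letters, at arbitrarily small tolerance and a fixed lower bound. -/
def ExtractSpec : Prop :=
  ∀ (A : Type) [CStarAlgebra A] (u : Letter → A) (S : Dig → A), IsModel u S →
    ∀ (B : Type u) [CStarAlgebra B] [Nontrivial B] (s : Fin 2 → B), Free.IsPair s →
      Dense (StarAlgebra.adjoin ℂ (Set.range s) : Set B) →
      ∀ ω : Ultrafilter ℕ, (ω : Filter ℕ) ≤ atTop →
      ∀ φ : A →⋆ₐ[ℂ] Free.UPow B ω, Function.Injective φ →
      ∃ c > 0, ∀ ε > 0, ∃ (u' : Letter → B) (S' : Dig → B),
        (∀ l, u' l ∈ StarAlgebra.adjoin ℂ (Set.range s)) ∧ ApproxModel u' S' ε ∧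
          c ≤ ‖aElt S' 0‖

/-- Enough representations on Hilbert spaces. -/
def RepSpec : Prop :=
  ∀ (B : Type u) [CStarAlgebra B] [Nontrivial B] (b : B),
    ∃ (H : Type u) (_ : NormedAddCommGroup H) (_ : InnerProductSpace ℂ H) (_ : CompleteSpace H)
      (π : B →⋆ₐ[ℂ] (H →L[ℂ] H)), ‖π b‖ = ‖b‖

/-- Some algebra is generated by a Cuntz pair. -/
def PairExistsSpec : Prop :=
  ∃ (B : Type) (_ : CStarAlgebra B) (s : Fin 2 → B), Nontrivial B ∧ Free.IsPair s ∧
    Dense (StarAlgebra.adjoin ℂ (Set.range s) : Set B)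

/-- No embedding of the algebra into the ultrapower: the target. -/
def Target : Prop :=
  ∃ (A : Type) (_ : CStarAlgebra A), Nontrivial A ∧ TopologicalSpace.SeparableSpace A ∧
    ∀ (B : Type u) [CStarAlgebra B] [Nontrivial B] (s : Fin 2 → B), Free.IsPair s →
      Dense (StarAlgebra.adjoin ℂ (Set.range s) : Set B) →
      ∀ ω : Ultrafilter ℕ, (ω : Filter ℕ) ≤ atTop →
        ¬ ∃ φ : A →⋆ₐ[ℂ] Free.UPow B ω, Function.Injective φ

end Vale.Agent.P083.Kirchberg
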